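import Crest.Agent.R1.SupB

/-! Row 1: the linear sieve. -/

set_option autoImplicit false

namespace Crest.Agent.R1
open Finset MeasureTheory Filter

namespace SupD

theorem log_half {y : ℕ} (hy : 2 ≤ y) : 1 / 2 ≤ Real.log y := by
  have h1 : Real.log 2 ≤ Real.log y := Real.log_le_log (by norm_num) (by exact_mod_cast hy)
  have := Real.log_two_gt_d9
  linarith

theorem cube_exp {s : ℝ} (hs : 0 ≤ s) : s ^ 3 * Real.exp (-3 * s) ≤ 6 * Real.exp (-s) := by
  have h1 : s ^ 3 / (Nat.factorial 3 : ℝ) ≤ Real.exp s := Real.pow_div_factorial_le_exp s hs 3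
  have h2 : (Nat.factorial 3 : ℝ) = 6 := by norm_num [Nat.factorial]
  rw [h2] at h1
  have h3 : s ^ 3 ≤ 6 * Real.exp s := by linarith
  have h4 : Real.exp s * Real.exp (-3 * s) ≤ Real.exp (-s) := by
    rw [← Real.exp_add]; exact Real.exp_le_exp.2 (by linarith)
  calc s ^ 3 * Real.exp (-3 * s) ≤ 6 * Real.exp s * Real.exp (-3 * s) :=
        mul_le_mul_of_nonneg_right h3 (Real.exp_pos _).le
    _ = 6 * (Real.exp s * Real.exp (-3 * s)) := by ring
    _ ≤ 6 * Real.exp (-s) := by linarith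

/-- `e^{-3s}/log³ y ≤ 6 Gf` -/
theorem exp_le_Gf {e : ℕ} {X : ℝ} {y : ℕ} (hv : valid e X y) :
    Real.exp (-3 * (Real.log X / Real.log y)) / Real.log y ^ 3 ≤ 6 * Gf X y := by
  obtain ⟨hL, hLt, hs, -⟩ := hv.one_le
  have ht : 0 < Real.log X := lt_of_lt_of_le hL hLt
  have h := cube_exp (s := Real.log X / Real.log y) (by linarith)
  unfold Gf
  have e1 : Real.exp (-3 * (Real.log X / Real.log y)) / Real.log y ^ 3 =
      ((Real.log X / Real.log y) ^ 3 * Real.exp (-3 * (Real.log X / Real.log y))) / Real.log X ^ 3 := by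
    field_simp
  rw [e1, ← mul_div_assoc (6 : ℝ)]
  exact div_le_div_of_nonneg_right h (pow_pos ht 3).le

theorem card_Pr_le (w y : ℕ) : (Pr w y).card ≤ y := by
  unfold Pr
  refine (card_filter_le _ _).trans ?_
  simp

theorem Nn_le_card (e : ℕ) (X : ℝ) (y : ℕ) : Nn e X 2 y ≤ 2 ^ y * y := by
  classical
  unfold Nn
  have h1 : ∀ a ∈ Dr e X 2 y, Vp a.2 / ((pd a.1 : ℝ) * a.2) ≤ 1 := by
    intro a ha
    obtain ⟨h2, h3, -, -⟩ := mem_Dr.1 ha
    have hp : 1 ≤ a.2 := (mem_Pr.1 h2).2.2.one_le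
    have hd : 0 < pd a.1 := pd_pos fun p hp => (mem_Pr.1 ((mem_Ch.1 h3).1 hp)).2.2
    have hp' : (1 : ℝ) ≤ a.2 := by exact_mod_cast hp
    have hd' : (1 : ℝ) ≤ pd a.1 := by exact_mod_cast hd
    have hm : (1 : ℝ) ≤ (pd a.1 : ℝ) * a.2 := one_le_mul_of_one_le_of_one_le hd' hp'
    rw [div_le_one (by linarith)]
    exact (Vp_le_one _).trans hm
  refine (sum_le_card_nsmul _ _ _ h1).trans ?_
  have h2 : (Dr e X 2 y).card ≤ 2 ^ y * y := by
    unfold Dr
    refine (card_filter_le _ _).trans ?_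
    rw [card_product, card_powerset]
    exact Nat.mul_le_mul (Nat.pow_le_pow_right (by norm_num) (card_Pr_le _ _)) (card_Pr_le _ _)
  rw [nsmul_eq_mul, mul_one]
  exact_mod_cast h2

theorem Nn_eq_zero (e : ℕ) {X : ℝ} {y : ℕ} (hy : 1 ≤ y) (hX : (y : ℝ) ^ (y + 3) ≤ X) :
    Nn e X 2 y = 0 := by
  unfold Nn
  refine sum_eq_zero fun a ha => ?_
  exfalso
  obtain ⟨h2, h3, -, h5⟩ := mem_Dr.1 ha
  have hsub := (mem_Ch.1 h3).1
  have hd : 0 < pd a.1 := pd_pos fun p hp => (mem_Pr.1 (hsub hp)).2.2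
  have hd' : (0 : ℝ) < pd a.1 := by exact_mod_cast hd
  have h6 : pd a.1 ≤ y ^ y := by
    unfold pd
    refine (prod_le_pow_card _ _ y fun p hp => (mem_Pr.1 (hsub hp)).2.1.le).trans ?_
    exact Nat.pow_le_pow_right hy ((card_le_card hsub).trans (card_Pr_le _ _))
  have h7 : a.2 ^ 3 ≤ y ^ 3 := Nat.pow_le_pow_left (mem_Pr.1 h2).2.1.le 3
  have h8 : a.2 ^ 3 * pd a.1 ≤ y ^ (y + 3) := by
    rw [pow_add, mul_comm]; exact Nat.mul_le_mul h6 h7
  have h9 : (a.2 : ℝ) ^ 3 * pd a.1 ≤ (y : ℝ) ^ (y + 3) := by exact_mod_cast h8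
  rw [div_lt_iff₀ hd'] at h5
  linarith

/-- the base range -/
theorem base (w1 : ℕ) : ∃ C : ℝ, 0 ≤ C ∧ ∀ (e : ℕ) (X : ℝ) (y : ℕ), valid e X y → y ≤ w1 →
    |Nn e X 2 y - Vp y * qq e (Real.log X / Real.log y)| ≤ C * Gf X y := by
  obtain ⟨K, hK, hq⟩ := qq_le
  set T : ℝ := ((w1 : ℝ) + 3) * w1 with hT
  have hT0 : 0 ≤ T := by positivity
  refine ⟨2 ^ w1 * w1 * (Real.exp (2 * T) * T ^ 3) + K * (6 * (w1 : ℝ) ^ 3), by positivity,
    fun e X y hv hy => ?_⟩
  obtain ⟨hL, hLt, hs, -⟩ := hv.one_le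
  have ht : 0 < Real.log X := lt_of_lt_of_le hL hLt
  have hG := Gf_pos hv
  have hy2 : 2 ≤ y := hv.1
  have hyw : (y : ℝ) ≤ w1 := by exact_mod_cast hy
  have hy0 : (0 : ℝ) < y := by exact_mod_cast (by omega : 0 < y)
  have hLw : Real.log y ≤ w1 := by
    have := Real.log_le_sub_one_of_pos hy0
    linarith
  have hN : Nn e X 2 y ≤ 2 ^ w1 * w1 * (Real.exp (2 * T) * T ^ 3) * Gf X y := by
    by_cases hX : (y : ℝ) ^ (y + 3) ≤ X
    · rw [Nn_eq_zero e (by omega) hX]; positivity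
    · push Not at hX
      have hX0 : 0 < X := lt_of_lt_of_le hy0 hv.2.1
      have h1 : Real.log X ≤ T := by
        have h2 : Real.log X ≤ Real.log ((y : ℝ) ^ (y + 3)) := Real.log_le_log hX0 hX.le
        rw [Real.log_pow] at h2
        refine h2.trans ?_
        push_cast
        exact mul_le_mul (by linarith) hLw hL.le (by positivity)
      have h2 : Real.log X / Real.log y ≤ 2 * T := by
        rw [div_le_iff₀ hL]
        have := log_half hy2
        nlinarith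
      have h3 : 1 ≤ Real.exp (2 * T) * T ^ 3 * Gf X y := by
        unfold Gf
        rw [← mul_div_assoc, one_le_div (by positivity)]
        have h4 : 1 ≤ Real.exp (2 * T) * Real.exp (-(Real.log X / Real.log y)) := by
          rw [← Real.exp_add]; exact Real.one_le_exp (by linarith)
        have h5 : Real.log X ^ 3 ≤ T ^ 3 := pow_le_pow_left₀ ht.le h1 3
        calc Real.log X ^ 3 ≤ T ^ 3 * 1 := by linarith
          _ ≤ T ^ 3 * (Real.exp (2 * T) * Real.exp (-(Real.log X / Real.log y))) :=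
            mul_le_mul_of_nonneg_left h4 (by positivity)
          _ = _ := by ring
      have h6 : (2 : ℝ) ^ y * y ≤ 2 ^ w1 * w1 :=
        mul_le_mul (pow_le_pow_right₀ (by norm_num) hy) hyw hy0.le (by positivity)
      calc Nn e X 2 y ≤ 2 ^ w1 * w1 * 1 := by rw [mul_one]; exact (Nn_le_card e X y).trans h6
        _ ≤ 2 ^ w1 * w1 * (Real.exp (2 * T) * T ^ 3 * Gf X y) :=
          mul_le_mul_of_nonneg_left h3 (by positivity)
        _ = _ := by ring
  have hq0 := (qq_pos e hs).le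
  have hV : Vp y * qq e (Real.log X / Real.log y) ≤ K * (6 * (w1 : ℝ) ^ 3) * Gf X y := by
    have h1 := exp_le_Gf hv
    rw [div_le_iff₀ (by positivity)] at h1
    have h2 : Real.log y ^ 3 ≤ (w1 : ℝ) ^ 3 := pow_le_pow_left₀ hL.le hLw 3
    have h3 : 6 * Gf X y * Real.log y ^ 3 ≤ 6 * Gf X y * (w1 : ℝ) ^ 3 :=
      mul_le_mul_of_nonneg_left h2 (by positivity)
    calc Vp y * qq e (Real.log X / Real.log y) ≤ 1 * qq e (Real.log X / Real.log y) :=
          mul_le_mul_of_nonneg_right (Vp_le_one y) hq0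
      _ ≤ K * Real.exp (-3 * (Real.log X / Real.log y)) := by rw [one_mul]; exact hq e _ hs
      _ ≤ K * (6 * Gf X y * (w1 : ℝ) ^ 3) := mul_le_mul_of_nonneg_left (h1.trans h3) hK.le
      _ = _ := by ring
  have hN0 := Nn_nonneg e X 2 y
  have hV0 : 0 ≤ Vp y * qq e (Real.log X / Real.log y) := mul_nonneg (Vp_pos y).le hq0
  rw [add_mul, abs_le]
  constructor <;> linarith

open Classical in
/-- the recursion step -/
theorem step (hM : MerStmt) : ∃ C : ℝ, 0 ≤ C ∧ ∀ (e : ℕ) (X : ℝ) (y : ℕ), valid e X y →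
    |Nn e X 2 y - Vp y * qq e (Real.log X / Real.log y)| ≤ C * Gf X y +
      ∑ p ∈ (Pr 2 y).filter (ok e X),
        |Nn (e + 1) (X / p) 2 p - Vp p * qq (e + 1) (Real.log (X / p) / Real.log p)| / p := by
  obtain ⟨A, hA, hc⟩ := qq_child
  obtain ⟨K, hK, hp2⟩ := psum2 hM
  refine ⟨K * A * 6, by positivity, fun e X y hv => ?_⟩
  obtain ⟨hL, hLt, hs, hse⟩ := hv.one_le
  obtain ⟨hanti, hbd⟩ := hc e _ hs hse
  have h1 := hp2 3 (Real.log X) A (fun u => qq (e + 1) (u - 1)) y (by norm_num) hv.1 hLt hanti hbd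
  rw [← qq_eq e hs hse, mul_div_assoc, mul_div_cancel_left₀ _ (by linarith)] at h1
  have h2 : K * A * Real.exp (-3 * (Real.log X / Real.log y)) / Real.log y ^ 3 ≤
      K * A * 6 * Gf X y := by
    rw [mul_div_assoc, mul_assoc (K * A)]
    exact mul_le_mul_of_nonneg_left (exp_le_Gf hv) (by positivity)
  have h3 : |Nn e X 2 y - ∑ p ∈ Pr 2 y, Vp p * qq (e + 1) (Real.log X / Real.log p - 1) / p| ≤
      ∑ p ∈ (Pr 2 y).filter (ok e X),
        |Nn (e + 1) (X / p) 2 p - Vp p * qq (e + 1) (Real.log (X / p) / Real.log p)| / p := by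
    rw [Nn_rec, ← sum_sub_distrib, sum_filter]
    refine (abs_sum_le_sum_abs _ _).trans (sum_le_sum fun p hp => ?_)
    obtain ⟨hp2, hpy, -⟩ := mem_Pr.1 hp
    have hp0 : (0 : ℝ) < p := by exact_mod_cast (by omega : 0 < p)
    have hpX : (p : ℝ) < X := lt_of_lt_of_le (by exact_mod_cast hpy) hv.2.1
    by_cases hok : ok e X p
    · rw [if_pos hok, if_pos hok, (child_eq e hp2 hpX).2.1, ← sub_div, abs_div, abs_of_pos hp0]
    · rw [if_neg hok, if_neg hok]
      unfold ok at hok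
      push Not at hok
      have hlp : 0 < Real.log p := by have := log_half hp2; linarith
      have h4 : Real.log X / Real.log p - 1 ≤ 2 := by
        have h5 : Real.log X ≤ Real.log ((p : ℝ) ^ 3) :=
          Real.log_le_log (lt_trans hp0 hpX) hok.2.le
        rw [Real.log_pow] at h5
        have h6 : Real.log X / Real.log p ≤ 3 := by
          rw [div_le_iff₀ hlp]; exact_mod_cast h5
        linarith
      have h7 : qq (e + 1) (Real.log X / Real.log p - 1) = 1 := by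
        unfold qq
        rw [if_pos hok.1.add_one]
        exact isQF.b_one _ h4
      rw [h7]; simp
  have h4 := abs_sub_le (Nn e X 2 y)
    (∑ p ∈ Pr 2 y, Vp p * qq (e + 1) (Real.log X / Real.log p - 1) / p)
    (Vp y * qq e (Real.log X / Real.log y))
  linarith

theorem hh_le' : ∃ K : ℝ, 0 < K ∧ ∀ (e : ℕ) (X : ℝ) (y : ℕ), valid e X y →
    hh e X y ≤ K / Real.log X ^ 2 := by
  obtain ⟨K, hK, h⟩ := hh_le
  refine ⟨K, hK, fun e X y hv => (h e X y hv).trans ?_⟩
  obtain ⟨hL, hLt, hs, -⟩ := hv.one_le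
  refine div_le_div_of_nonneg_right ?_ (by positivity)
  have : Real.exp (-2 * (Real.log X / Real.log y)) ≤ 1 := Real.exp_le_one_iff.2 (by linarith)
  nlinarith

end SupD
open SupD

/-- The linear sieve with Iwaniec's error term. Apply `sup0` with `w = 2`, `u = 1/2` to
`F e X y = |Nn e X 2 y - Vp y qq e s|`. For `y ≤ w1`: a dropped chain has `X < pd s · p³ ≤ w1! · w1³`, so
`Nn` vanishes unless `X` is bounded, and `Vp y qq e s ≤ K e^{-3s}`; both are `≤ l Gf X y / 2`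
(`s ≥ log X / log w1`). For `y > w1`: `Nn_rec`; for a dropped `p`, `qq (e+1) (u-1) = qb (u-1) = 1`
(`u < 3`), so `Nn e X 2 y - ∑ Vp p qq (e+1) (u_p - 1)/p` is the sum of the children's differences; `psum2`
(`μ = 3`, `qq_child`) and `qq_eq` finish: `e^{-3s}/log³ y ≤ K e^{-s}/t³`. -/
theorem Nn_est (hM : MerStmt) : ∃ K : ℝ, 0 < K ∧ ∀ (X : ℝ) (e y : ℕ), valid e X y →
    |Nn e X 2 y - Vp y * qq e (Real.log X / Real.log y)| ≤ K * (hh e X y + Gf X y) := by
  obtain ⟨c, w1, hc, hs⟩ := sup0 hM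
  obtain ⟨C1, hC1, hb⟩ := base w1
  obtain ⟨C2, hC2, hst⟩ := step hM
  set l : ℝ := 8 * (C1 + C2 + 1) with hl
  have hl0 : 0 < l := by positivity
  have hθ : ∀ (e : ℕ) (X : ℝ) (y : ℕ), valid e X y →
      0 ≤ 1 / 2 / Real.log X ∧ 1 / 2 / Real.log X ≤ 1 := by
    intro e X y hv
    obtain ⟨hL, hLt, -, -⟩ := hv.one_le
    have := log_half hv.1
    have ht : 0 < Real.log X := by linarith
    refine ⟨by positivity, ?_⟩
    rw [div_le_one ht]; linarith
  have key := hs 2 (1 / 2) l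
    (fun e X y => |Nn e X 2 y - Vp y * qq e (Real.log X / Real.log y)|) le_rfl le_rfl hl0.le
    (fun e X y hv _ hy => by
      have h1 := hb e X y hv hy
      have h2 := hh_nonneg hv
      have h3 := Gf_pos hv
      obtain ⟨h4, h5⟩ := hθ e X y hv
      have h6 : 0 ≤ c * (2 - 1 / 2 / Real.log X) * hh e X y :=
        mul_nonneg (mul_nonneg (by linarith) (by linarith)) h2
      unfold EE
      have h7 : C1 * Gf X y ≤ l * (1 / 2 * Gf X y) := by rw [hl]; nlinarith
      have h8 := mul_nonneg hl0.le h6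
      show |Nn e X 2 y - Vp y * qq e (Real.log X / Real.log y)| ≤ _
      rw [mul_add]; linarith)
    (fun e X y hv h2y _ => by
      have h1 := hst e X y hv
      have h2 : 0 ≤ hh e X 2 := hh_nonneg (hv.mono le_rfl h2y le_rfl)
      have h3 := Gf_pos hv
      obtain ⟨h4, h5⟩ := hθ e X y hv
      have h6 : 0 ≤ c * (2 - 1 / 2 / Real.log X) * hh e X 2 :=
        mul_nonneg (mul_nonneg (by linarith) (by linarith)) h2
      have h7 : C2 * Gf X y ≤ l * (1 / 2 / 4 * Gf X y) := by rw [hl]; nlinarith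
      have h8 := mul_nonneg hl0.le h6
      show |Nn e X 2 y - Vp y * qq e (Real.log X / Real.log y)| ≤ _
      rw [mul_add]; linarith)
  refine ⟨l * (2 * c), by positivity, fun X e y hv => (key e X y hv hv.1).trans ?_⟩
  rw [mul_assoc l]
  refine mul_le_mul_of_nonneg_left ?_ hl0.le
  have h2 := hh_nonneg hv
  have h3 := Gf_pos hv
  obtain ⟨h4, h5⟩ := hθ e X y hv
  unfold EE
  have h6 : 0 ≤ c * (1 / 2 / Real.log X) * hh e X y :=
    mul_nonneg (mul_nonneg (by linarith) h4) h2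
  nlinarith

theorem Nn_err (hM : MerStmt) : ∃ K : ℝ, 0 < K ∧ ∀ (X : ℝ) (e y : ℕ), valid e X y →
    |Nn e X 2 y - Vp y * qq e (Real.log X / Real.log y)| ≤ K / Real.log X ^ 2 := by
  obtain ⟨K, hK, h⟩ := Nn_est hM
  obtain ⟨K2, hK2, h2⟩ := hh_le'
  refine ⟨K * (K2 + 2), by positivity, fun X e y hv => (h X e y hv).trans ?_⟩
  obtain ⟨hL, hLt, hs, -⟩ := hv.one_le
  have hh2 := log_half hv.1
  have ht : 0 < Real.log X := by linarith
  have h3 : Gf X y ≤ 2 / Real.log X ^ 2 := by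
    unfold Gf
    rw [div_le_div_iff₀ (by positivity) (by positivity)]
    have h4 : Real.exp (-(Real.log X / Real.log y)) ≤ 1 := Real.exp_le_one_iff.2 (by linarith)
    have h5 : 0 < Real.log X ^ 2 := by positivity
    nlinarith
  rw [mul_div_assoc, add_div]
  exact mul_le_mul_of_nonneg_left (add_le_add (h2 e X y hv) h3) hK.le

theorem Nn_le (hM : MerStmt) : ∃ K : ℝ, 0 < K ∧ ∀ (X : ℝ) (e y : ℕ), valid e X y →
    Nn e X 2 y ≤ K * Real.log y * Wf e X y := by
  obtain ⟨K, hK, h⟩ := Nn_est hM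
  obtain ⟨c, K1, hc, hK1, hV⟩ := Vp_bounds hM
  obtain ⟨K2, hK2, h2⟩ := qq_le_GG
  refine ⟨K1 * K2 + 4 * K, by positivity, fun X e y hv => ?_⟩
  obtain ⟨hL, hLt, hs, -⟩ := hv.one_le
  have hh2 := log_half hv.1
  have h1 := (abs_le.1 (h X e y hv)).2
  have hh0 := hh_nonneg hv
  have hG := Gf_pos hv
  have hGG := GG_pos hv
  have h3 : Vp y * qq e (Real.log X / Real.log y) ≤ K1 * K2 * Real.log y * GG X y := by
    calc Vp y * qq e (Real.log X / Real.log y) ≤
          K1 / Real.log y * qq e (Real.log X / Real.log y) :=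
          mul_le_mul_of_nonneg_right (hV y hv.1).2 (qq_pos e hs).le
      _ = K1 * (qq e (Real.log X / Real.log y) / Real.log y) := by ring
      _ ≤ K1 * (K2 * Real.log y * GG X y) := mul_le_mul_of_nonneg_left (h2 e X y hv) hK1.le
      _ = _ := by ring
  have h4 : hh e X y ≤ 4 * Real.log y * hh e X y := by nlinarith
  have h5 : Gf X y ≤ 4 * Real.log y * GG X y := by
    unfold GG
    have : 1 ≤ 4 * Real.log y * Real.log y := by nlinarith
    nlinarith
  have h6 : K * (hh e X y + Gf X y) ≤ K * (4 * Real.log y * hh e X y + 4 * Real.log y * GG X y) :=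
    mul_le_mul_of_nonneg_left (add_le_add h4 h5) hK.le
  have h7 : 0 ≤ K1 * K2 * Real.log y * hh e X y := by positivity
  unfold Wf
  nlinarith

/-- the upper bound sieve: `Mn_eq`, `Nn_mono`, `Nn_err` -/
theorem Mn_upper (hM : MerStmt) : ∃ K : ℝ, 0 < K ∧ ∀ (X : ℝ) (w y : ℕ), 2 ≤ w → w ≤ y → (y : ℝ) ≤ X →
    Mn 1 X w y ≤ K * (Real.log w / Real.log y) := by
  obtain ⟨K, hK, h⟩ := Nn_err hM
  obtain ⟨c, K1, hc, hK1, hV⟩ := Vp_bounds hM
  obtain ⟨K2, hK2, h2⟩ := qq_le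
  refine ⟨(K1 * (1 + K2) + 2 * K) / c, by positivity, fun X w y hw hwy hX => ?_⟩
  have hv : valid 1 X y := ⟨hw.trans hwy, hX, fun h => absurd h (by decide)⟩
  obtain ⟨hL, hLt, hs, -⟩ := hv.one_le
  have hh2 := log_half hv.1
  have hw2 := log_half hw
  have hlw : 0 < Real.log w := by linarith
  have h1 := (abs_le.1 (h X 1 y hv)).2
  have h3 := Mn_eq 1 X hw hwy
  have h4 := Nn_mono 1 X hw y
  have h5 : qq 1 (Real.log X / Real.log y) ≤ K2 := by
    refine (h2 1 _ hs).trans ?_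
    have : Real.exp (-3 * (Real.log X / Real.log y)) ≤ 1 := Real.exp_le_one_iff.2 (by linarith)
    nlinarith
  have h6 : K / Real.log X ^ 2 ≤ 2 * K / Real.log y := by
    rw [div_le_div_iff₀ (by nlinarith) hL]
    have : Real.log y ≤ 2 * Real.log X ^ 2 := by nlinarith
    nlinarith
  have h7 : Vp y * (1 + K2) ≤ K1 / Real.log y * (1 + K2) :=
    mul_le_mul_of_nonneg_right (hV y hv.1).2 (by positivity)
  have h8 : Vp y * qq 1 (Real.log X / Real.log y) ≤ Vp y * K2 :=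
    mul_le_mul_of_nonneg_left h5 (Vp_pos y).le
  have h9 : Vp w * Mn 1 X w y ≤ (K1 * (1 + K2) + 2 * K) / Real.log y := by
    have e1 : (K1 * (1 + K2) + 2 * K) / Real.log y =
        K1 / Real.log y * (1 + K2) + 2 * K / Real.log y := by ring
    rw [e1, h3]; linarith
  have hB : 0 ≤ (K1 * (1 + K2) + 2 * K) / Real.log y := by positivity
  have hVw := Vp_pos w
  have h10 : 1 ≤ Vp w * (Real.log w / c) := by
    have := (hV w hw).1
    rw [div_le_iff₀ hlw] at this
    rw [← mul_div_assoc, one_le_div hc]; exact this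
  have h11 : Mn 1 X w y ≤ (K1 * (1 + K2) + 2 * K) / Real.log y * (Real.log w / c) := by
    refine le_of_mul_le_mul_left (h9.trans ?_) hVw
    calc (K1 * (1 + K2) + 2 * K) / Real.log y = (K1 * (1 + K2) + 2 * K) / Real.log y * 1 := by ring
      _ ≤ (K1 * (1 + K2) + 2 * K) / Real.log y * (Vp w * (Real.log w / c)) :=
        mul_le_mul_of_nonneg_left h10 hB
      _ = _ := by ring
  refine h11.trans (le_of_eq ?_)
  ring

/-- the lower bound sieve at the sifting limit (`qb ≤ 1`) -/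
theorem Mn_lower (hM : MerStmt) : ∃ K : ℝ, 0 < K ∧ ∀ (X : ℝ) (y : ℕ), valid 0 X y →
    -(K / Real.log X ^ 2) ≤ Mn 0 X 2 y := by
  obtain ⟨K, hK, h⟩ := Nn_err hM
  refine ⟨K, hK, fun X y hv => ?_⟩
  obtain ⟨hL, hLt, hs, hse⟩ := hv.one_le
  have h1 := (abs_le.1 (h X 0 y hv)).2
  have h3 := Mn_eq 0 X le_rfl hv.1
  have h4 : Vp 2 = 1 := by simp [Vp, Pr]
  have h5 : qq 0 (Real.log X / Real.log y) ≤ 1 := by
    unfold qq
    rw [if_pos (by decide), ← isQF.b_one 2 le_rfl]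
    exact isQF.b_anti (hse (by decide))
  have h6 : Vp y * qq 0 (Real.log X / Real.log y) ≤ Vp y * 1 :=
    mul_le_mul_of_nonneg_left h5 (Vp_pos y).le
  rw [h4] at h3
  simp only [pow_zero, one_mul] at h3
  linarith

/-- the gain from a larger level: `Nn_err` twice, `qq_gain`, `Vp_bounds`, `hh_le`
(for `X' = ⌊X⌋` use `log X' ≥ log w`, `X' ≤ w^σ`; the reward is compared with `hh e X w ≤ K / log² w`) -/
theorem Nn_gain (hM : MerStmt) (σ : ℕ) : ∃ (c : ℝ) (w1 : ℕ), 0 < c ∧ ∀ (X X' : ℝ) (e w : ℕ), w1 ≤ w →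
    valid e X w → valid e X' w → X' ≤ (w : ℝ) ^ σ →
    c * Real.log w * hh e X w ≤ Nn e X' 2 w - Nn e (w * X') 2 w := by
  obtain ⟨K, hK, h⟩ := Nn_err hM
  obtain ⟨c0, K1, hc0, hK1, hV⟩ := Vp_bounds hM
  obtain ⟨c1, hc1, hg⟩ := qq_gain (σ : ℝ)
  obtain ⟨K2, hK2, h2⟩ := hh_le'
  refine ⟨c0 * c1 / (2 * K2), ⌈Real.exp (4 * K / (c0 * c1))⌉₊, by positivity,
    fun X X' e w hw hv hv' hX' => ?_⟩
  obtain ⟨hL, hLt, -, -⟩ := hv.one_le
  obtain ⟨-, hLt', hs', hse'⟩ := hv'.one_le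
  have hw1 : (1 : ℝ) ≤ w := by exact_mod_cast (by have := hv.1; omega : 1 ≤ w)
  have hX0 : 0 < X' := lt_of_lt_of_le (by linarith) hv'.2.1
  have hv2 : valid e (w * X') w := hv'.mono hv.1 le_rfl (by nlinarith)
  obtain ⟨-, hLt2, -, -⟩ := hv2.one_le
  have e1 : Real.log (w * X') / Real.log w = Real.log X' / Real.log w + 1 := by
    rw [Real.log_mul (by linarith) hX0.ne']; field_simp; ring
  have hσ : Real.log X' / Real.log w ≤ σ := by
    rw [div_le_iff₀ hL, ← Real.log_pow]; exact Real.log_le_log hX0 hX'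
  have h3 := (abs_le.1 (h X' e w hv')).1
  have h4 := (abs_le.1 (h (w * X') e w hv2)).2
  rw [e1] at h4
  have h5 := hg e _ hs' hse' hσ
  have hsq : ∀ {B t : ℝ}, 0 ≤ B → Real.log w ≤ t → B / t ^ 2 ≤ B / Real.log w ^ 2 :=
    fun hB ht => div_le_div_of_nonneg_left hB (by positivity) (pow_le_pow_left₀ hL.le ht 2)
  have h6 := hsq hK.le hLt'
  have h7 := hsq hK.le hLt2
  have h8 := (h2 e X w hv).trans (hsq hK2.le hLt)
  have h9 : c0 / Real.log w * c1 ≤
      Vp w * (qq e (Real.log X' / Real.log w) - qq e (Real.log X' / Real.log w + 1)) :=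
    mul_le_mul (hV w hv.1).1 h5 hc1.le (Vp_pos w).le
  have h10 : 4 * K / (c0 * c1) ≤ Real.log w := by
    rw [Real.le_log_iff_exp_le (by linarith)]
    exact (Nat.le_ceil _).trans (by exact_mod_cast hw)
  have h11 : 2 * (K / Real.log w ^ 2) ≤ c0 / Real.log w * c1 / 2 := by
    rw [div_le_iff₀ (by positivity)] at h10
    have e2 : c0 / Real.log w * c1 / 2 = Real.log w * (c0 * c1) / 2 / Real.log w ^ 2 := by
      field_simp
    rw [e2, ← mul_div_assoc]
    exact div_le_div_of_nonneg_right (by linarith) (by positivity)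
  have h12 : c0 * c1 / (2 * K2) * Real.log w * hh e X w ≤ c0 / Real.log w * c1 / 2 := by
    calc c0 * c1 / (2 * K2) * Real.log w * hh e X w ≤
          c0 * c1 / (2 * K2) * Real.log w * (K2 / Real.log w ^ 2) :=
          mul_le_mul_of_nonneg_left h8 (by positivity)
      _ = _ := by field_simp
  rw [mul_sub] at h9
  linarith

end Crest.Agent.R1
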