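import Crest.Agent.R1.Cnt
import Crest.Agent.R1.SupD

/-! Row 1: the hybrid sieve and its main term. -/

set_option autoImplicit false

namespace Crest.Agent.R1
open Finset MeasureTheory Filter

namespace Asm1

theorem w0_le {Q : Par} (ho : Q.Ord) : Q.w0 ≤ Q.y0 :=
  ho.w1.trans ((ho.mono (Nat.zero_le _)).trans (ho.w2.trans ho.w3))

theorem valid0 {Q : Par} (ho : Q.Ord) : valid 0 Q.D0 Q.y0 := by
  have h2 : 2 ≤ Q.y0 := ho.w0.trans (w0_le ho)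
  have h3 : Q.y0 ≤ Q.D0 := le_trans (Nat.le_self_pow (by norm_num) _) ho.v1
  exact ⟨h2, by exact_mod_cast h3, fun _ => by exact_mod_cast ho.v1⟩

theorem prime_of_mem {e : ℕ} {X : ℝ} {w y : ℕ} {s : Finset ℕ} (hs : s ∈ Ch e X w y) :
    ∀ p ∈ s, p.Prime := fun _ hp => (mem_Pr.1 ((mem_Ch.1 hs).1 hp)).2.2

theorem valid_floor {e D d w : ℕ} (hd : 0 < d) (h : valid e ((D : ℝ) / d) w) :
    valid e ((D / d : ℕ) : ℝ) w := by
  have hd' : (0 : ℝ) < d := by exact_mod_cast hd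
  have key : ∀ z : ℕ, (z : ℝ) ≤ (D : ℝ) / d → (z : ℝ) ≤ ((D / d : ℕ) : ℝ) := fun z hz => by
    rw [le_div_iff₀ hd'] at hz
    have : z * d ≤ D := by exact_mod_cast hz
    exact_mod_cast (Nat.le_div_iff_mul_le hd).2 this
  refine ⟨h.1, key _ h.2.1, fun he => ?_⟩
  have := key (w ^ 2) (by exact_mod_cast h.2.2 he)
  exact_mod_cast this

theorem Vp_two : Vp 2 = 1 := by simp [Vp, Pr]

open Classical in
theorem point (Q : Par) (ho : Q.Ord) (n : ℤ) :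
    ∑ g ∈ Q.C1, ∑ e ∈ Q.C2 g, (-1 : ℝ) ^ (g.card + e.card) *
        (if ((pd g * pd e : ℕ) : ℤ) ∣ n then (1 : ℝ) else 0) ≤
      if ∀ p ∈ Pr 2 Q.y0, ¬ (p : ℤ) ∣ n then (1 : ℝ) else 0 := by
  have h1 : ∀ g ∈ Q.C1, ∑ e ∈ Q.C2 g, (-1 : ℝ) ^ (g.card + e.card) *
      (if ((pd g * pd e : ℕ) : ℤ) ∣ n then (1 : ℝ) else 0) ≤
      (if ∀ p ∈ Pr 2 Q.w0, ¬ (p : ℤ) ∣ n then (1 : ℝ) else 0) *
        (if ∀ p ∈ g, (p : ℤ) ∣ n then (-1 : ℝ) ^ g.card else 0) := fun g hg => by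
    have hb := buch_le (fun p : ℕ => (p : ℤ) ∣ n) g.card (Q.lev g) 2 Q.w0
    have hc : ∀ e ∈ Q.C2 g, (((pd g * pd e : ℕ) : ℤ) ∣ n ↔
        (∀ p ∈ g, (p : ℤ) ∣ n) ∧ ∀ p ∈ e, (p : ℤ) ∣ n) := fun e he => by
      rw [← pd_union (ChainB.disj_Ch hg he), pd_dvd, Finset.forall_mem_union]
      rw [Finset.forall_mem_union]
      exact ⟨prime_of_mem hg, prime_of_mem he⟩
    by_cases hgn : ∀ p ∈ g, (p : ℤ) ∣ n
    · rw [if_pos hgn, mul_comm]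
      refine le_trans (le_of_eq ?_) (le_trans hb (le_of_eq ?_))
      · rw [Finset.mul_sum]
        refine Finset.sum_congr rfl fun e he => ?_
        by_cases hen : ∀ p ∈ e, (p : ℤ) ∣ n
        · rw [if_pos ((hc e he).2 ⟨hgn, hen⟩), if_pos hen, pow_add, mul_one]
        · rw [if_neg (fun h => hen ((hc e he).1 h).2), if_neg hen, mul_zero, mul_zero]
      · congr
    · rw [if_neg hgn, mul_zero]
      refine le_of_eq (Finset.sum_eq_zero fun e he => ?_)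
      rw [if_neg (fun h => hgn ((hc e he).1 h).1), mul_zero]
  refine (Finset.sum_le_sum h1).trans ?_
  rw [← Finset.mul_sum]
  have hb := buch_le (fun p : ℕ => (p : ℤ) ∣ n) 0 Q.D0 Q.w0 Q.y0
  rw [pow_zero, one_mul, one_mul] at hb
  by_cases h0 : ∀ p ∈ Pr 2 Q.w0, ¬ (p : ℤ) ∣ n
  · rw [if_pos h0, one_mul]
    refine le_trans (le_of_eq ?_) (le_trans hb (le_of_eq ?_))
    · refine Finset.sum_congr rfl fun g _ => ?_
      congr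
    · rw [ChainB.Pr_union ho.w0 (w0_le ho)]
      by_cases h1 : ∀ p ∈ Pr Q.w0 Q.y0, ¬ (p : ℤ) ∣ n
      · rw [if_pos h1, if_pos (Finset.forall_mem_union.2 ⟨h1, h0⟩)]
      · rw [if_neg h1, if_neg (fun h => h1 (Finset.forall_mem_union.1 h).1)]
  · rw [if_neg h0, zero_mul]
    split_ifs <;> norm_num

end Asm1

open Asm1

/-- The hybrid sieve inequality. Pointwise in `n` (`B p := p ∣ N + n`):
`1[no p < y0] = 1[no p < w0] · 1[no p ∈ [w0, y0)] ≥ 1[no p < w0] ∑_g (-1)^#g 1[g ∣ n]` (`buch_le`, `e = 0`) and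
`(-1)^#g 1[no p < w0] ≥ (-1)^#g ∑_e (-1)^#e 1[e ∣ n]` (`buch_le`, `e = #g`); `pd_union`, `pd_dvd`. -/
theorem asm1 (Q : Par) (ho : Q.Ord) :
    ∑ g ∈ Q.C1, ∑ e ∈ Q.C2 g, (-1 : ℝ) ^ (g.card + e.card) * cnt Q.N Q.m (pd g * pd e) ≤
      Tn Q.N Q.m ∅ Q.y0 := by
  classical
  have h1 : ∀ d : ℕ, (cnt Q.N Q.m d : ℝ) =
      ∑ n ∈ Icc 1 Q.m, if (d : ℤ) ∣ Q.N + n then (1 : ℝ) else 0 := fun d => by
    rw [cnt, Finset.card_filter]
    push_cast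
    rfl
  have h2 : (Tn Q.N Q.m ∅ Q.y0 : ℝ) =
      ∑ n ∈ Icc 1 Q.m, if ∀ p ∈ Pr 2 Q.y0, ¬ (p : ℤ) ∣ Q.N + n then (1 : ℝ) else 0 := by
    rw [Tn, Finset.card_filter]
    push_cast
    refine Finset.sum_congr rfl fun n _ => ?_
    simp [ChainB.pd_empty]
  rw [h2]
  simp only [h1, Finset.mul_sum]
  refine le_trans (le_of_eq ?_) (Finset.sum_le_sum fun n _ => by
    convert point Q ho (Q.N + (n : ℕ)))
  rw [Finset.sum_comm]
  refine Finset.sum_congr rfl fun g _ => ?_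
  rw [Finset.sum_comm]

open Classical in
/-- The main term. The double sum is `∑_g (-1)^#g / pd g · Mn #g (lev g) 2 w0`; with `lev g` replaced by
`D0 / pd g` it is `Mn 0 D0 2 y0` (`Mn_comp`, `Ch_natdiv`) `≥ -K/log² D0` (`Mn_lower`). By `Mn_eq` (`Vp 2 = 1`) an
eligible `g` gains `(Nn #g X' 2 w0 - Nn #g (w0 X') 2 w0)/pd g`, `X' = ⌊D0 / pd g⌋`: `Nn_gain`, `valid_base`
(`w0 ≤ X → w0 ≤ ⌊X⌋`). -/
theorem asm2 (hM : MerStmt) : ∃ K : ℝ, 0 < K ∧ ∀ σ1 : ℕ, ∃ (c : ℝ) (w1 : ℕ), 0 < c ∧ ∀ Q : Par, Q.Ord →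
    Q.σ1 = σ1 → w1 ≤ Q.w0 →
    -(K / Real.log Q.D0 ^ 2) + c * Real.log Q.w0 * ∑ g ∈ Q.C1.filter Q.elig, hw 0 Q.D0 Q.w0 g ≤
      ∑ g ∈ Q.C1, ∑ e ∈ Q.C2 g, (-1 : ℝ) ^ (g.card + e.card) / ((pd g * pd e : ℕ) : ℝ) := by
  obtain ⟨K, hK, hL⟩ := Mn_lower hM
  refine ⟨K, hK, fun σ1 => ?_⟩
  obtain ⟨c, w1, hc, hG⟩ := Nn_gain hM σ1
  refine ⟨c, w1, hc, fun Q ho hσ hw1 => ?_⟩
  have hv := valid0 ho
  have h1 := hL _ _ hv
  rw [Mn_comp 0 _ ho.w0 (w0_le ho)] at h1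
  refine le_trans (add_le_add h1 le_rfl) ?_
  rw [Finset.sum_filter, Finset.mul_sum, Par.C1, ← Finset.sum_add_distrib]
  refine Finset.sum_le_sum fun g hg => ?_
  have hp := pd_pos (prime_of_mem hg)
  have hp' : (0 : ℝ) < pd g := by exact_mod_cast hp
  have e1 : ∑ e ∈ Q.C2 g, (-1 : ℝ) ^ (g.card + e.card) / ((pd g * pd e : ℕ) : ℝ) =
      (-1 : ℝ) ^ g.card / pd g * Mn g.card (Q.lev g) 2 Q.w0 := by
    rw [Mn, Finset.mul_sum]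
    refine Finset.sum_congr rfl fun e _ => ?_
    rw [pow_add, Nat.cast_mul, div_mul_div_comm]
  have e2 : Mn (0 + g.card) ((Q.D0 : ℝ) / pd g) 2 Q.w0 =
      Mn g.card ((Q.D0 / pd g : ℕ) : ℝ) 2 Q.w0 := by
    rw [zero_add, Mn, Mn, Ch_natdiv _ _ _ _ _ hp]
  rw [e1, e2, Par.lev]
  split_ifs with hel
  · have hvb := valid_base hv hg ho.w0 (w0_le ho)
      (fun p hp => (mem_Pr.1 ((mem_Ch.1 hg).1 hp)).1)
    rw [zero_add] at hvb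
    have h3 := hG _ _ _ _ hw1 hvb (valid_floor hp hvb)
      (by rw [← hσ]; exact_mod_cast hel.2.2.2.le)
    have m1 := Mn_eq g.card ((Q.D0 / pd g : ℕ) : ℝ) le_rfl ho.w0
    have m2 := Mn_eq g.card ((Q.w0 : ℝ) * ((Q.D0 / pd g : ℕ) : ℝ)) le_rfl ho.w0
    rw [Vp_two, one_mul] at m1 m2
    rw [Nat.cast_mul, m1, m2, hw, zero_add]
    have hs : (-1 : ℝ) ^ g.card * (-1 : ℝ) ^ g.card = 1 := by
      rw [← mul_pow]
      norm_num
    have h4 := div_le_div_of_nonneg_right h3 hp'.le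
    have h5 : ∀ x : ℝ, (-1 : ℝ) ^ g.card / pd g * (Vp Q.w0 - (-1 : ℝ) ^ g.card * x) =
        (-1 : ℝ) ^ g.card / pd g * Vp Q.w0 - x / pd g := fun x => by
      calc _ = (-1 : ℝ) ^ g.card / pd g * Vp Q.w0 -
            (-1 : ℝ) ^ g.card * (-1 : ℝ) ^ g.card * x / pd g := by ring
        _ = _ := by rw [hs, one_mul]
    rw [h5, h5]
    rw [sub_div, mul_div_assoc] at h4
    linarith
  · rw [mul_zero, add_zero]

end Crest.Agent.R1
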