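import Crest.Agent.R1.FpF

/-! Row 1, fingerprint lemma: the pigeonhole step. -/

set_option autoImplicit false

namespace Crest.Agent.R1
namespace Fp
open Finset

namespace FpG

theorem sum_inv_le (w : ℕ) : ∑ x ∈ range w, 1 / (x : ℝ) ≤ 1 + Real.log w := by
  have h1 : ∑ x ∈ range w, 1 / (x : ℝ) ≤ ∑ x ∈ range (w + 1), 1 / (x : ℝ) := by
    rw [sum_range_succ]
    exact le_add_of_nonneg_right (by positivity)
  have h2 : ∑ x ∈ range (w + 1), 1 / (x : ℝ) = (harmonic w : ℝ) := by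
    rw [sum_range_succ', harmonic]
    push_cast
    simp
  exact h1.trans (h2.le.trans (harmonic_le_one_add_log w))

theorem sum_prod_le (s w : ℕ) :
    ∑ β ∈ Fintype.piFinset (fun _ : Fin s => range w), ∏ i, 1 / (β i : ℝ) ≤
      (1 + Real.log w) ^ s := by
  rw [← prod_univ_sum (fun _ : Fin s => range w) fun _ x => 1 / (x : ℝ), prod_const, card_univ,
    Fintype.card_fin]
  exact pow_le_pow_left₀ (sum_nonneg fun x _ => by positivity) (sum_inv_le w) s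

theorem log_le {w : ℕ} (hw : 1 ≤ w) : ((Nat.log 2 w + 1 : ℕ) : ℝ) ≤ 2 * (1 + Real.log w) := by
  have h1 : (2 : ℝ) ^ Nat.log 2 w ≤ w := by exact_mod_cast Nat.pow_log_le_self 2 (by omega)
  have h2 := Real.log_le_log (by positivity) h1
  rw [Real.log_pow] at h2
  have h3 := Real.log_two_gt_d9
  have h4 : (0 : ℝ) ≤ Nat.log 2 w := Nat.cast_nonneg _
  push_cast
  nlinarith

theorem sum_dy {Wn : ℕ → ℕ} {w : ℕ} (hw : Wn 1 ≤ w) (f : ℕ → ℝ) :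
    ∑ p ∈ win Wn 0, f p = ∑ j ∈ range (Nat.log 2 w + 1), ∑ p ∈ dy Wn j, f p := by
  rw [← sum_fiberwise_of_maps_to (g := Nat.log 2) (t := range (Nat.log 2 w + 1))]
  · refine sum_congr rfl fun j _ => sum_congr ?_ fun _ _ => rfl
    rw [dy]
    refine filter_congr fun p hp => ?_
    exact Nat.log_eq_iff (Or.inr ⟨one_lt_two, (mem_win.1 hp).2.2.ne_zero⟩)
  · intro p hp
    have h1 := (mem_win.1 hp).2.1
    rw [zero_add] at h1
    exact mem_range.2 (Nat.lt_succ_of_le (Nat.log_mono_right (by omega)))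

open Classical in
theorem block {m s t : ℕ} {Wn : ℕ → ℕ} {Λ : ℝ} (hn : FpNum m s t Wn Λ) (N : ℤ)
    {b : ℕ → (Fin s → ℕ) → ℝ} (hb : ∀ p τ, |b p τ| ≤ 1) {G : ℕ} (hA : Adm m s Wn Λ b G)
    (j : ℕ) (β : Fin s → ℕ)
    (h : 2 ^ j < Wn 1 → Wn 0 ≤ 2 ^ (j + 1) → (((dy Wn j).filter fun p => ¬ p ∣ G ∧
        (t : ℝ) ^ s / Λ ^ 4 ≤ |Zfp Wn s t b (cnt N m G) (root N G) β p (root N G p)|).card : ℝ) <
        (2 : ℝ) ^ j / Λ ^ 4) :
    ∑ p ∈ dy Wn j, |Zfp Wn s t b (cnt N m G) (root N G) β p (root N G p)| ≤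
      2 * m / (Λ ^ 3 * G) * ∏ i, 1 / (β i : ℝ) := by
  have hΛ : 0 < Λ := by linarith [hn.l1]
  have hG : (0 : ℝ) < G := by exact_mod_cast hA.1
  by_cases h0 : ∀ p ∈ dy Wn j, ∀ τ ∈ blk Wn s t β, b p τ = 0
  · rw [sum_eq_zero]
    · exact mul_nonneg (by positivity) (prod_nonneg fun i _ => by positivity)
    intro p hp
    rw [Zfp_eq, sum_eq_zero, abs_zero]
    intro τ hτ
    rw [h0 p hp τ hτ, zero_mul]
  push Not at h0
  obtain ⟨p0, hp0, τ, hτ, hne⟩ := h0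
  obtain ⟨w0, w1, w2⟩ := mem_dy.1 hp0
  obtain ⟨w3, w4, -⟩ := mem_win.1 w0
  rw [zero_add] at w4
  have h1 := h (w1.trans_lt w4) (w3.trans w2.le)
  have ht0 : (0 : ℝ) ≤ (t : ℝ) ^ s := by positivity
  have h2 : ∑ p ∈ dy Wn j, |Zfp Wn s t b (cnt N m G) (root N G) β p (root N G p)| ≤
      2 * (2 ^ j * (t : ℝ) ^ s) / Λ ^ 4 := by
    rw [← sum_filter_add_sum_filter_not (dy Wn j) fun p => ¬ p ∣ G ∧
      (t : ℝ) ^ s / Λ ^ 4 ≤ |Zfp Wn s t b (cnt N m G) (root N G) β p (root N G p)|]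
    have a1 := sum_le_card_nsmul ((dy Wn j).filter fun p => ¬ p ∣ G ∧
      (t : ℝ) ^ s / Λ ^ 4 ≤ |Zfp Wn s t b (cnt N m G) (root N G) β p (root N G p)|)
      (fun p => |Zfp Wn s t b (cnt N m G) (root N G) β p (root N G p)|) ((t : ℝ) ^ s)
      fun p hp => by
        have hp' := (mem_dy.1 (mem_filter.1 hp).1).1
        exact abs_Zfp_le hn.mono hn.t1 hb _ _ β hp' (root_lt N G (mem_win.1 hp').2.2)
    have a2 := sum_le_card_nsmul ((dy Wn j).filter fun p => ¬ (¬ p ∣ G ∧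
      (t : ℝ) ^ s / Λ ^ 4 ≤ |Zfp Wn s t b (cnt N m G) (root N G) β p (root N G p)|))
      (fun p => |Zfp Wn s t b (cnt N m G) (root N G) β p (root N G p)|) ((t : ℝ) ^ s / Λ ^ 4)
      fun p hp => by
        obtain ⟨hp1, hp2⟩ := mem_filter.1 hp
        have hp' := (mem_dy.1 hp1).1
        by_cases hd : p ∣ G
        · rw [Zfp_eq, sum_eq_zero, abs_zero]
          · positivity
          intro σ hσ
          by_cases hz : b p σ = 0
          · rw [hz, zero_mul]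
          have hc := (hA.2.2 p hp' σ (blk_subset _ _ _ _ hσ) hz).1
          have := Nat.eq_one_of_dvd_coprimes hc hd (dvd_mul_left _ _)
          exact absurd this (mem_win.1 hp').2.2.ne_one
        · exact (not_le.1 fun hh => hp2 ⟨hd, hh⟩).le
    rw [nsmul_eq_mul] at a1 a2
    have a3 : (((dy Wn j).filter fun p => ¬ (¬ p ∣ G ∧ (t : ℝ) ^ s / Λ ^ 4 ≤
        |Zfp Wn s t b (cnt N m G) (root N G) β p (root N G p)|)).card : ℝ) ≤ 2 ^ j := by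
      exact_mod_cast (card_filter_le _ _).trans (card_dy Wn j)
    have a4 := mul_le_mul_of_nonneg_right h1.le ht0
    have a5 := mul_le_mul_of_nonneg_right a3 (show 0 ≤ (t : ℝ) ^ s / Λ ^ 4 by positivity)
    have a6 : 2 * (2 ^ j * (t : ℝ) ^ s) / Λ ^ 4 =
        2 ^ j / Λ ^ 4 * (t : ℝ) ^ s + 2 ^ j * ((t : ℝ) ^ s / Λ ^ 4) := by ring
    linarith
  have hτ' := blk_subset _ _ _ _ hτ
  have b1 : ∀ i, t * β i ≤ τ i := fun i => by
    rw [← (mem_blk.1 hτ i).2]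
    exact Nat.mul_div_le _ _
  have b2 : ∀ i, 1 ≤ β i := fun i => by
    rw [← (mem_blk.1 hτ i).2]
    exact (Nat.le_div_iff_mul_le hn.t1).2 (by
      rw [one_mul]; exact hn.t2.trans (tup_ge hn.mono hτ' i))
  have b3 : t ^ s * ∏ i, β i ≤ ∏ i, τ i := by
    have := prod_le_prod' (s := univ) fun i _ => b1 i
    rwa [prod_mul_distrib, prod_const, card_univ, Fintype.card_fin] at this
  have b4 : G * (2 ^ j * t ^ s * ∏ i, β i) ≤ G * (∏ i, τ i) * p0 := by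
    rw [mul_assoc G, mul_assoc, mul_comm _ p0]
    exact Nat.mul_le_mul_left _ (Nat.mul_le_mul w1 b3)
  have b5 : (G : ℝ) * (2 ^ j * (t : ℝ) ^ s * ∏ i, (β i : ℝ)) ≤ Λ * m := by
    refine le_trans ?_ (hA.2.2 p0 w0 τ hτ' hne).2
    exact_mod_cast b4
  have b6 : (0 : ℝ) < ∏ i, (β i : ℝ) := prod_pos fun i _ => by exact_mod_cast b2 i
  refine h2.trans ?_
  rw [prod_div_distrib, prod_const_one, mul_one_div, div_div, div_le_div_iff₀ (by positivity)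
    (by positivity)]
  have b7 := mul_le_mul_of_nonneg_left b5 (show 0 ≤ 2 * Λ ^ 3 by positivity)
  calc 2 * (2 ^ j * (t : ℝ) ^ s) * (Λ ^ 3 * G * ∏ i, (β i : ℝ))
      = 2 * Λ ^ 3 * ((G : ℝ) * (2 ^ j * (t : ℝ) ^ s * ∏ i, (β i : ℝ))) := by ring
    _ ≤ 2 * Λ ^ 3 * (Λ * m) := b7
    _ = 2 * m * Λ ^ 4 := by ring

end FpG

open Classical in
/-- Suppose not. By `Zs_eq`, grouping `p ∈ win Wn 0` by `j = Nat.log 2 p ≤ Nat.log 2 w2` (then `p ∈ dy Wn j`,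
`2^j ≤ p < Wn 1`, `Wn 0 ≤ p < 2^(j+1)`; an empty `dy Wn j` contributes nothing),
`|Zs| ≤ ∑_j ∑_β B(j, β)`, `B(j, β) = ∑_{p ∈ dy j} |Zfp β p (root N G p)|`. In `B(j, β)` the primes `p ∣ G` give `0`
(all `b p τ = 0` by `Adm`), the fewer than `2^j/Λ⁴` atypical primes give `≤ t^s` each (`abs_Zfp_le`, `root_lt`), the
others `≤ t^s/Λ⁴` each (`card_dy`), so `B(j, β) ≤ 2 · 2^j t^s/Λ⁴`. If `B(j, β) ≠ 0` some `b p τ ≠ 0`, `p ∈ dy j`,
`τ ∈ blk β`; then `t β i ≤ τ i`, `β i ≥ 1` (`t ≤ Wn 1 ≤ τ i`), `2^j t^s ∏ β i ≤ p ∏ τ i ≤ Λ m/G`. So always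
`B(j, β) ≤ (2m/(Λ³ G)) ∏ (1/β i)` (with `1/0 = 0`), and `∑_β ∏ 1/β i = (∑_{x < w2} 1/x)^s ≤ (1 + log w2)^s`
(`Finset.prod_univ_sum`, `harmonic_le_one_add_log`), `#j ≤ 1 + log w2/log 2 ≤ 2 (1 + log w2)`; by `l4`
`|Zs| ≤ 2m/(Λ² G) ≤ m/(Λ G)`. -/
theorem pigeon {m s t : ℕ} {Wn : ℕ → ℕ} {Λ : ℝ} (hn : FpNum m s t Wn Λ) (N : ℤ)
    {b : ℕ → (Fin s → ℕ) → ℝ} (hb : ∀ p τ, |b p τ| ≤ 1) {G : ℕ} (hA : Adm m s Wn Λ b G)
    (hZ : m / (Λ * G) < |Zs N m Wn s b G|) :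
    ∃ (j : ℕ) (β : Fin s → ℕ), 2 ^ j < Wn 1 ∧ Wn 0 ≤ 2 ^ (j + 1) ∧ (∀ i, β i < Wn (s + 1)) ∧
      (2 : ℝ) ^ j / Λ ^ 4 ≤ (((dy Wn j).filter fun p => ¬ p ∣ G ∧
        (t : ℝ) ^ s / Λ ^ 4 ≤ |Zfp Wn s t b (cnt N m G) (root N G) β p (root N G p)|).card : ℝ) := by
  by_contra hcon
  push Not at hcon
  have hΛ : 0 < Λ := by linarith [hn.l1]
  have hG : (0 : ℝ) < G := by exact_mod_cast hA.1
  have hw : Wn 1 ≤ Wn (s + 1) := hn.mono (by omega)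
  have hw1 : 1 ≤ Wn (s + 1) := hn.t1.trans (hn.t2.trans hw)
  have hl : 0 ≤ 1 + Real.log (Wn (s + 1)) := by
    have := Real.log_natCast_nonneg (Wn (s + 1))
    linarith
  have hc : 0 ≤ 2 * (m : ℝ) / (Λ ^ 3 * G) := by positivity
  have h1 : |Zs N m Wn s b G| ≤ ∑ p ∈ win Wn 0,
      ∑ β ∈ Fintype.piFinset (fun _ : Fin s => range (Wn (s + 1))),
        |Zfp Wn s t b (cnt N m G) (root N G) β p (root N G p)| := by
    rw [Zs_eq (t := t) hn.mono N hA]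
    exact (abs_sum_le_sum_abs _ _).trans (sum_le_sum fun p _ => abs_sum_le_sum_abs _ _)
  rw [FpG.sum_dy hw] at h1
  have h2 : ∀ j ∈ range (Nat.log 2 (Wn (s + 1)) + 1), ∑ p ∈ dy Wn j,
      ∑ β ∈ Fintype.piFinset (fun _ : Fin s => range (Wn (s + 1))),
        |Zfp Wn s t b (cnt N m G) (root N G) β p (root N G p)| ≤
      2 * m / (Λ ^ 3 * G) * (1 + Real.log (Wn (s + 1))) ^ s := by
    intro j _
    rw [sum_comm]
    refine le_trans (sum_le_sum fun β hβ => FpG.block hn N hb hA j β fun a1 a2 =>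
      hcon j β a1 a2 fun i => mem_range.1 (Fintype.mem_piFinset.1 hβ i)) ?_
    rw [← mul_sum]
    exact mul_le_mul_of_nonneg_left (FpG.sum_prod_le s _) hc
  have h3 := sum_le_card_nsmul _ _ _ h2
  rw [card_range, nsmul_eq_mul] at h3
  have h4 := mul_le_mul_of_nonneg_right (FpG.log_le hw1)
    (mul_nonneg hc (pow_nonneg hl s))
  have h5 := mul_le_mul_of_nonneg_left hn.l4 hc
  have h6 : 2 * (m : ℝ) / (Λ ^ 3 * G) * Λ ≤ m / (Λ * G) := by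
    rw [div_mul_eq_mul_div, div_le_div_iff₀ (by positivity) (by positivity)]
    have : 0 ≤ (m : ℝ) * (Λ ^ 2 * G) * (Λ - 2) :=
      mul_nonneg (by positivity) (by linarith [hn.l1])
    nlinarith
  have h7 : 2 * (1 + Real.log (Wn (s + 1))) *
      (2 * m / (Λ ^ 3 * G) * (1 + Real.log (Wn (s + 1))) ^ s) =
      2 * (m : ℝ) / (Λ ^ 3 * G) * (2 * (1 + Real.log (Wn (s + 1))) ^ (s + 1)) := by ring
  linarith

end Fp
end Crest.Agent.R1
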