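import Crest.Agent.R1.FpE

/-! Row 1, fingerprint lemma: triples of nodes. -/

set_option autoImplicit false

namespace Crest.Agent.R1
namespace Fp
open Finset

namespace FpH

/-- the incidence relation between pairs `(p, c0)` and nodes -/
def Inc (N : ℤ) (a : ℕ × ℕ) (G : ℕ) : Prop := ¬ a.1 ∣ G ∧ root N G a.1 = a.2

instance (N : ℤ) (a : ℕ × ℕ) (G : ℕ) : Decidable (Inc N a G) := by
  unfold Inc; infer_instance

theorem dvd_of_inc (N : ℤ) {a : ℕ × ℕ} (hp : a.1.Prime) {G : ℕ} (h : Inc N a G) :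
    (a.1 : ℤ) ∣ N + fst N G + (a.2 : ℕ) * (G : ℤ) := by
  refine (root_spec N hp h.1 a.2).2 ?_
  rw [← h.2]
  exact Nat.mod_eq_of_lt (root_lt N G hp)

theorem dvd_det (N : ℤ) {a : ℕ × ℕ} (hp : a.1.Prime) {G₁ G₂ G₃ : ℕ} (h1 : Inc N a G₁)
    (h2 : Inc N a G₂) (h3 : Inc N a G₃) : (a.1 : ℤ) ∣ det3 N G₁ G₂ G₃ := by
  have e1 := dvd_of_inc N hp h1
  have e2 := dvd_of_inc N hp h2
  have e3 := dvd_of_inc N hp h3
  have e : det3 N G₁ G₂ G₃ =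
      ((N + fst N G₂ + (a.2 : ℕ) * (G₂ : ℤ)) - (N + fst N G₁ + (a.2 : ℕ) * (G₁ : ℤ))) * ((G₃ : ℤ) - G₁) -
      ((N + fst N G₃ + (a.2 : ℕ) * (G₃ : ℤ)) - (N + fst N G₁ + (a.2 : ℕ) * (G₁ : ℤ))) * ((G₂ : ℤ) - G₁) := by
    rw [det3]; ring
  rw [e]
  exact dvd_sub ((dvd_sub e2 e1).mul_right _) ((dvd_sub e3 e1).mul_right _)

theorem abs_det_le (N : ℤ) {m G₁ G₂ G₃ : ℕ} (h1 : G₁ ∈ Icc 1 m) (h2 : G₂ ∈ Icc 1 m)
    (h3 : G₃ ∈ Icc 1 m) : |det3 N G₁ G₂ G₃| ≤ 2 * (m : ℤ) ^ 2 := by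
  rw [mem_Icc] at h1 h2 h3
  obtain ⟨a1, b1, -⟩ := fst_spec N h1.1
  obtain ⟨a2, b2, -⟩ := fst_spec N h2.1
  obtain ⟨a3, b3, -⟩ := fst_spec N h3.1
  have k1 : |(fst N G₂ : ℤ) - fst N G₁| ≤ m := by rw [abs_le]; constructor <;> omega
  have k2 : |(fst N G₃ : ℤ) - fst N G₁| ≤ m := by rw [abs_le]; constructor <;> omega
  have k3 : |(G₃ : ℤ) - G₁| ≤ m := by rw [abs_le]; constructor <;> omega
  have k4 : |(G₂ : ℤ) - G₁| ≤ m := by rw [abs_le]; constructor <;> omega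
  have hm : (0 : ℤ) ≤ m := Int.natCast_nonneg m
  rw [det3]
  refine (abs_sub _ _).trans ?_
  rw [abs_mul, abs_mul]
  have p1 := mul_le_mul k1 k3 (abs_nonneg _) hm
  have p2 := mul_le_mul k2 k4 (abs_nonneg _) hm
  nlinarith

/-- the number of pairs incident with three given nodes -/
theorem card_common (N : ℤ) {m P : ℕ} {Λ : ℝ} (hΛ : 100 ≤ Λ) (hm : Real.log m ≤ Λ)
    (D : Finset ℕ) (hD : D.card ≤ P) (hD' : ∀ p ∈ D, p.Prime) (𝒜 : Finset (ℕ × ℕ))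
    (hA : ∀ a ∈ 𝒜, a.1 ∈ D) {G₁ G₂ G₃ : ℕ} (h1 : G₁ ∈ Icc 1 m) (h2 : G₂ ∈ Icc 1 m)
    (h3 : G₃ ∈ Icc 1 m) :
    ((𝒜.filter fun a => Inc N a G₁ ∧ Inc N a G₂ ∧ Inc N a G₃).card : ℝ) ≤
      3 * Λ + P * (if det3 N G₁ G₂ G₃ = 0 then 1 else 0) := by
  have hc : (𝒜.filter fun a => Inc N a G₁ ∧ Inc N a G₂ ∧ Inc N a G₃).card ≤
      (D.filter fun p : ℕ => (p : ℤ) ∣ det3 N G₁ G₂ G₃).card := by
    refine card_le_card_of_injOn (fun a => a.1) (fun a ha => ?_) (fun a ha b hb hab => ?_)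
    · have ha' := mem_filter.1 (mem_coe.1 ha)
      exact mem_coe.2 (mem_filter.2 ⟨hA a ha'.1,
        dvd_det N (hD' _ (hA a ha'.1)) ha'.2.1 ha'.2.2.1 ha'.2.2.2⟩)
    · have ha' := mem_filter.1 (mem_coe.1 ha)
      have hb' := mem_filter.1 (mem_coe.1 hb)
      have hab' : a.1 = b.1 := hab
      refine Prod.ext hab' ?_
      rw [← ha'.2.1.2, ← hb'.2.1.2, hab']
  have hc' : ((𝒜.filter fun a => Inc N a G₁ ∧ Inc N a G₂ ∧ Inc N a G₃).card : ℝ) ≤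
      ((D.filter fun p : ℕ => (p : ℤ) ∣ det3 N G₁ G₂ G₃).card : ℝ) := by exact_mod_cast hc
  refine hc'.trans ?_
  split_ifs with h0
  · have : ((D.filter fun p : ℕ => (p : ℤ) ∣ det3 N G₁ G₂ G₃).card : ℝ) ≤ P := by
      exact_mod_cast (card_filter_le _ _).trans hD
    linarith
  · have k1 := card_primes_dvd D hD' h0
    have k2 : |((det3 N G₁ G₂ G₃ : ℤ) : ℝ)| ≤ 2 * (m : ℝ) ^ 2 := by
      exact_mod_cast abs_det_le N h1 h2 h3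
    have k3 : (0 : ℝ) < |((det3 N G₁ G₂ G₃ : ℤ) : ℝ)| := abs_pos.2 (by exact_mod_cast h0)
    have hm1 : (1 : ℝ) ≤ m := by
      have := mem_Icc.1 h1
      exact_mod_cast this.1.trans this.2
    have k4 : Real.log |((det3 N G₁ G₂ G₃ : ℤ) : ℝ)| ≤ Real.log 2 + 2 * Λ := by
      refine (Real.log_le_log k3 k2).trans ?_
      rw [Real.log_mul (by norm_num) (by positivity), Real.log_pow]
      push_cast
      linarith
    have k5 := Real.log_two_gt_d9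
    have k6 := Real.log_two_lt_d9
    rw [mul_zero, add_zero]
    by_contra hlt
    push Not at hlt
    nlinarith

theorem card_zero (N : ℤ) {m H Ms : ℕ} (hH : 1 ≤ H) (hM : m ≤ H * Ms) (Y : Finset ℕ)
    (hY : ∀ G ∈ Y, G ∈ Icc 1 m ∧ ¬ onRich N m H Ms G) :
    ∑ G₁ ∈ Y, ∑ G₂ ∈ Y, ∑ G₃ ∈ Y, (if det3 N G₁ G₂ G₃ = 0 then (1 : ℝ) else 0) ≤
      (Y.card : ℝ) ^ 2 * (Ms + 2) := by
  have k : ∀ G₁ ∈ Y, ∀ G₂ ∈ Y, ∑ G₃ ∈ Y, (if det3 N G₁ G₂ G₃ = 0 then (1 : ℝ) else 0) ≤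
      (Ms + 1) + (if G₁ = G₂ then (Y.card : ℝ) else 0) := by
    intro G₁ h1 G₂ h2
    rw [sum_boole]
    split_ifs with h
    · have : ((Y.filter fun G₃ => det3 N G₁ G₂ G₃ = 0).card : ℝ) ≤ Y.card := by
        exact_mod_cast card_filter_le _ _
      have h0 : (0 : ℝ) ≤ Ms := Nat.cast_nonneg _
      linarith
    · have h3 := line_count N hH hM (hY _ h1).1 (hY _ h2).1 h (hY _ h1).2
      have h4 : (Y.filter fun G₃ => det3 N G₁ G₂ G₃ = 0).card ≤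
          ((Icc 1 m).filter fun G => det3 N G₁ G₂ G = 0).card :=
        card_le_card (filter_subset_filter _ fun G hG => (hY G hG).1)
      rw [add_zero]
      exact_mod_cast h4.trans h3
  calc _ ≤ ∑ G₁ ∈ Y, ∑ G₂ ∈ Y, ((Ms + 1 : ℝ) + (if G₁ = G₂ then (Y.card : ℝ) else 0)) :=
        sum_le_sum fun G₁ h1 => sum_le_sum fun G₂ h2 => k G₁ h1 G₂ h2
    _ = ∑ _G₁ ∈ Y, ((Y.card : ℝ) * (Ms + 1) + Y.card) := by
        refine sum_congr rfl fun G₁ h1 => ?_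
        rw [sum_add_distrib, sum_const, nsmul_eq_mul, sum_ite_eq, if_pos h1]
    _ = _ := by
        rw [sum_const, nsmul_eq_mul]; ring

theorem cube_eq (N : ℤ) (Y : Finset ℕ) (𝒜 : Finset (ℕ × ℕ)) :
    ∑ a ∈ 𝒜, ((Y.filter fun G => Inc N a G).card : ℝ) ^ 3 =
      ∑ G₁ ∈ Y, ∑ G₂ ∈ Y, ∑ G₃ ∈ Y,
        ((𝒜.filter fun a => Inc N a G₁ ∧ Inc N a G₂ ∧ Inc N a G₃).card : ℝ) := by
  have k : ∀ a : ℕ × ℕ, ((Y.filter fun G => Inc N a G).card : ℝ) ^ 3 =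
      ∑ G₁ ∈ Y, ∑ G₂ ∈ Y, ∑ G₃ ∈ Y,
        (if Inc N a G₁ ∧ Inc N a G₂ ∧ Inc N a G₃ then (1 : ℝ) else 0) := by
    intro a
    rw [← sum_boole, pow_three, sum_mul_sum, sum_mul]
    refine sum_congr rfl fun G₁ _ => ?_
    rw [mul_sum]
    refine sum_congr rfl fun G₂ _ => ?_
    rw [mul_sum]
    refine sum_congr rfl fun G₃ _ => ?_
    by_cases h1 : Inc N a G₁ <;> by_cases h2 : Inc N a G₂ <;> by_cases h3 : Inc N a G₃ <;>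
      simp [h1, h2, h3]
  simp only [k]
  rw [sum_comm]
  refine sum_congr rfl fun G₁ _ => ?_
  rw [sum_comm]
  refine sum_congr rfl fun G₂ _ => ?_
  rw [sum_comm]
  refine sum_congr rfl fun G₃ _ => ?_
  rw [sum_boole]

theorem sum_eq (N : ℤ) (Y : Finset ℕ) (𝒜 : Finset (ℕ × ℕ)) :
    ∑ a ∈ 𝒜, ((Y.filter fun G => Inc N a G).card : ℝ) =
      ∑ G ∈ Y, ((𝒜.filter fun a => Inc N a G).card : ℝ) := by
  simp only [← sum_boole]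
  exact sum_comm

end FpH

open Classical in
/-- For `a = (p, c0) ∈ 𝒜` let `Y_a = {G ∈ Y : p ∤ G, root N G p = c0}`. Double counting gives
`∑_a #Y_a ≥ (P/Λ⁴) #Y`, and Hölder (`pow_sum_le_card_mul_sum_pow` / `inner_le_nnorm_mul_nnorm`) gives
`(∑ #Y_a)³ ≤ #𝒜² ∑ #Y_a³`, so `∑ #Y_a³ ≥ P #Y³/Λ^36 ≥ (Λ⁴/2) #Y³` (if `Y ≠ ∅`). On the other hand
`∑_a #Y_a³ = ∑_{G₁,G₂,G₃ ∈ Y} #{a : G₁, G₂, G₃ ∈ Y_a}`; `a ↦ a.1` is injective on this set (`a.2 = root N G₁ a.1`) and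
`p ∣ det3 N G₁ G₂ G₃` (`root_spec` with `j = c0`, `root_lt`: `p ∣ N + fst G_i + c0 G_i`). If `det3 ≠ 0`
(`|det3| ≤ 2 m²`) there are at most `log (2m²)/log 2 ≤ 3Λ` such primes (`card_primes_dvd`); if `det3 = 0` at most
`#D ≤ P`, and there are at most `#Y² (Ms + 2)` such triples (`G₁ = G₂`, or `line_count`). Hence
`(Λ⁴/2) #Y³ ≤ 3Λ #Y³ + P #Y² (Ms + 2)`. -/
theorem triples (N : ℤ) {m H Ms P : ℕ} {Λ : ℝ} (hΛ : 100 ≤ Λ) (hm : Real.log m ≤ Λ) (hH : 1 ≤ H)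
    (hM : m ≤ H * Ms) (hP : Λ ^ 40 ≤ 2 * P) (Y : Finset ℕ)
    (hY : ∀ G ∈ Y, G ∈ Icc 1 m ∧ ¬ onRich N m H Ms G) (D : Finset ℕ) (hD : D.card ≤ P)
    (hD' : ∀ p ∈ D, p.Prime) (𝒜 : Finset (ℕ × ℕ)) (hA : ∀ a ∈ 𝒜, a.1 ∈ D)
    (hcard : (𝒜.card : ℝ) ≤ P * Λ ^ 12)
    (hhit : ∀ G ∈ Y, (P : ℝ) / Λ ^ 4 ≤ ((𝒜.filter fun a => ¬ a.1 ∣ G ∧ root N G a.1 = a.2).card : ℝ)) :
    Y.card ≤ P * (Ms + 2) := by
  rcases Nat.eq_zero_or_pos Y.card with h0 | h0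
  · rw [h0]; exact Nat.zero_le _
  set y : ℝ := (Y.card : ℝ) with hy
  have hy0 : 0 < y := by rw [hy]; exact_mod_cast h0
  have hΛ0 : 0 < Λ := by linarith
  have hP0 : (0 : ℝ) < P := by
    have : 0 < Λ ^ 40 := by positivity
    linarith
  set T : ℝ := ∑ a ∈ 𝒜, ((Y.filter fun G => FpH.Inc N a G).card : ℝ) ^ 3 with hT
  have hT0 : 0 ≤ T := sum_nonneg fun a _ => by positivity
  -- lower bound
  have l1 : y * ((P : ℝ) / Λ ^ 4) ≤ ∑ a ∈ 𝒜, ((Y.filter fun G => FpH.Inc N a G).card : ℝ) := by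
    rw [FpH.sum_eq, hy, ← nsmul_eq_mul]
    refine card_nsmul_le_sum _ _ _ fun G hG => (hhit G hG).trans (le_of_eq ?_)
    congr 1
  have l2 : (∑ a ∈ 𝒜, ((Y.filter fun G => FpH.Inc N a G).card : ℝ)) ^ 3 ≤ (𝒜.card : ℝ) ^ 2 * T :=
    pow_sum_le_card_mul_sum_pow (fun a _ => Nat.cast_nonneg _) 2
  have l3 : (y * ((P : ℝ) / Λ ^ 4)) ^ 3 ≤ ((P : ℝ) * Λ ^ 12) ^ 2 * T := by
    refine (pow_le_pow_left₀ (by positivity) l1 3).trans (l2.trans ?_)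
    exact mul_le_mul_of_nonneg_right (pow_le_pow_left₀ (Nat.cast_nonneg _) hcard 2) hT0
  have l4 : y ^ 3 * P ≤ Λ ^ 36 * T := by
    have e1 : (y * ((P : ℝ) / Λ ^ 4)) ^ 3 = ((P : ℝ) ^ 2 / Λ ^ 12) * (y ^ 3 * P) := by
      field_simp
    have e2 : ((P : ℝ) * Λ ^ 12) ^ 2 * T = ((P : ℝ) ^ 2 / Λ ^ 12) * (Λ ^ 36 * T) := by
      field_simp
    rw [e1, e2] at l3
    exact le_of_mul_le_mul_left l3 (by positivity)
  have l5 : Λ ^ 4 * y ^ 3 ≤ 2 * T := by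
    have h36 : 0 < Λ ^ 36 := by positivity
    refine le_of_mul_le_mul_left ?_ h36
    have e1 : Λ ^ 36 * (Λ ^ 4 * y ^ 3) = y ^ 3 * Λ ^ 40 := by ring
    have e2 : y ^ 3 * Λ ^ 40 ≤ y ^ 3 * (2 * P) := mul_le_mul_of_nonneg_left hP (by positivity)
    rw [e1]
    linarith
  -- upper bound
  have u1 : T ≤ 3 * Λ * y ^ 3 + P * (y ^ 2 * (Ms + 2)) := by
    rw [hT, FpH.cube_eq]
    calc _ ≤ ∑ G₁ ∈ Y, ∑ G₂ ∈ Y, ∑ G₃ ∈ Y,
          (3 * Λ + P * (if det3 N G₁ G₂ G₃ = 0 then (1 : ℝ) else 0)) :=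
          sum_le_sum fun G₁ h1 => sum_le_sum fun G₂ h2 => sum_le_sum fun G₃ h3 =>
            FpH.card_common N hΛ hm D hD hD' 𝒜 hA (hY _ h1).1 (hY _ h2).1 (hY _ h3).1
      _ = 3 * Λ * y ^ 3 + P * ∑ G₁ ∈ Y, ∑ G₂ ∈ Y, ∑ G₃ ∈ Y,
          (if det3 N G₁ G₂ G₃ = 0 then (1 : ℝ) else 0) := by
          simp only [sum_add_distrib, sum_const, nsmul_eq_mul, ← mul_sum]
          rw [hy]; ring
      _ ≤ _ := by
          have := FpH.card_zero N hH hM Y hY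
          have := mul_le_mul_of_nonneg_left this hP0.le
          linarith
  have hΛ4 : 6 * Λ + 2 ≤ Λ ^ 4 := by
    have h2 : 10000 ≤ Λ ^ 2 := by nlinarith
    have h3 : 100 * Λ ≤ Λ ^ 2 := by nlinarith
    have : Λ ^ 4 = Λ ^ 2 * Λ ^ 2 := by ring
    nlinarith
  have f1 : y ^ 2 * y ≤ y ^ 2 * (P * (Ms + 2)) := by
    have := mul_le_mul_of_nonneg_right hΛ4 (show 0 ≤ y ^ 3 by positivity)
    have e : y ^ 2 * y = y ^ 3 := by ring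
    rw [e]
    nlinarith
  have f2 : y ≤ P * (Ms + 2) := le_of_mul_le_mul_left f1 (by positivity)
  rw [hy] at f2
  exact_mod_cast f2

end Fp
end Crest.Agent.R1
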