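import Crest.Agent.R1.FpD
import Crest.Agent.R1.FpG
import Crest.Agent.R1.FpH

/-! Row 1: the fingerprint lemma. -/

set_option autoImplicit false

namespace Crest.Agent.R1
open Finset MeasureTheory Filter

namespace Fp

theorem Zfp_congr {Wn : ℕ → ℕ} {s t : ℕ} (ht : 1 ≤ t) (b : ℕ → (Fin s → ℕ) → ℝ) (l : ℕ)
    {c c' : ℕ → ℕ} {β : Fin s → ℕ}
    (h : ∀ (i : Fin s) (k : Fin t), t * β i + k ∈ win Wn (i + 1) → c (t * β i + k) = c' (t * β i + k))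
    (p c0 : ℕ) : Zfp Wn s t b l c β p c0 = Zfp Wn s t b l c' β p c0 := by
  rw [Zfp_eq, Zfp_eq]
  refine sum_congr rfl fun τ hτ => ?_
  have h1 : Aset l c τ = Aset l c' τ := by
    refine filter_congr fun j _ => forall_congr' fun i => ?_
    obtain ⟨h2, h3⟩ := mem_blk.1 hτ i
    have h4 : t * β i + τ i % t = τ i := by rw [← h3]; exact Nat.div_add_mod _ _
    have h5 := h i ⟨τ i % t, Nat.mod_lt _ ht⟩ (by simpa only [h4] using h2)
    simp only [h4] at h5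
    rw [h5]
  rw [h1]

open Classical in
theorem fiber (N : ℤ) {m s t H Ms : ℕ} {Wn : ℕ → ℕ} {Λ : ℝ} (hn : FpNum m s t Wn Λ) (hH : 1 ≤ H)
    (hM : m ≤ H * Ms) {b : ℕ → (Fin s → ℕ) → ℝ} (hb : ∀ p τ, |b p τ| ≤ 1) (l j : ℕ) (c : ℕ → ℕ)
    (β : Fin s → ℕ) (hj1 : 2 ^ j < Wn 1) (hj2 : Wn 0 ≤ 2 ^ (j + 1)) (Y : Finset ℕ)
    (hY : ∀ G ∈ Y, G ∈ Icc 1 m ∧ ¬ onRich N m H Ms G)
    (hhit : ∀ G ∈ Y, (2 : ℝ) ^ j / Λ ^ 4 ≤ (((dy Wn j).filter fun p => ¬ p ∣ G ∧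
      (t : ℝ) ^ s / Λ ^ 4 ≤ |Zfp Wn s t b l c β p (root N G p)|).card : ℝ)) :
    Y.card ≤ Wn (s + 1) * (Ms + 2) := by
  have h1 : Y.card ≤ 2 ^ j * (Ms + 2) := by
    refine triples N hn.l1 hn.l3 hH hM ?_ Y hY (dy Wn j) (card_dy Wn j)
      (fun p hp => (mem_win.1 (mem_dy.1 hp).1).2.2) (Lst Wn s t Λ b l c β j)
      (fun a ha => (mem_product.1 (mem_filter.1 ha).1).1) ?_ fun G hG => ?_
    · refine hn.l2.trans ?_
      have : (Wn 0 : ℝ) ≤ ((2 ^ (j + 1) : ℕ) : ℝ) := by exact_mod_cast hj2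
      refine this.trans_eq ?_
      push_cast
      ring
    · have := card_Lst hn hb l c β hj1
      push_cast
      exact this
    · push_cast
      refine (hhit G hG).trans ?_
      refine Nat.cast_le.2 (card_le_card_of_injOn (fun p => (p, root N G p)) (fun p hp => ?_)
        fun p _ q _ h => congrArg Prod.fst h)
      obtain ⟨h2, h3, h4⟩ := mem_filter.1 (mem_coe.1 hp)
      have h5 := mem_dy.1 h2
      have h6 := root_lt N G (mem_win.1 h5.1).2.2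
      refine mem_coe.2 (mem_filter.2 ⟨mem_filter.2 ⟨mem_product.2 ⟨h2, mem_range.2 ?_⟩, h6, h4⟩, h3, rfl⟩)
      exact h6.trans h5.2.2
  refine h1.trans (Nat.mul_le_mul_right _ ?_)
  exact hj1.le.trans (hn.mono (by omega))

end Fp

open Classical in
/-- **The fingerprint lemma.** Notation: `w2 = Wn (s+1)`, `l = cnt N m G`, `c = root N G`.

(0) If `b p τ ≠ 0` then (`cnt_mul`, `root_spec`; the primes `τ i`, `p` are distinct and prime to `G`)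
`cnt (G ∏τ) = #Aset l c τ` and `cnt (G ∏τ p) = #{j ∈ Aset l c τ : j % p = c p}`. So
`Zs G = ∑_j ∑_{p ∈ dy j} ∑_β Zfp β p (c p)`, and each term of `Zs`/`Zfp` is `≤ 1` in absolute value (`Aset` is a
progression `α + d u`, `u < U`, `d = ∏ τ i`, `p ∤ d`); `#blk ≤ t^s`.

(B) Pigeonhole. If `m/(ΛG) < |Zs G|` there are `j`, `β` with `2^j < Wn 1`, `Wn 0 ≤ 2^(j+1)`, `β i < w2` and
`#{p ∈ dy j : p ∤ G, t^s/Λ⁴ ≤ |Zfp β p (c p)|} ≥ 2^j/Λ⁴`. Otherwise every block `(j, β)` contributes at most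
`2 · 2^j t^s/Λ⁴`; a block in which some `b p τ ≠ 0` has `2^j t^s ∏ β i ≤ p ∏ τ i ≤ Λ m/G` and `β i ≥ 1` (`t ≤ Wn 1`),
so `|Zs G| ≤ (2m/(Λ³G)) · #j · (1 + log w2)^s ≤ 2m/(Λ² G)` by `l4`.

(A) Second moment, `P = 2^j`, `T = blk β`. For fixed `b`, `l`, `c`:
`∑_{p ∈ dy j} ∑_{c0 < p} Zfp² ≤ 2 P² #T + 2 #T² P (1 + log P)² ω`, `ω ≤ Λ` the maximal number of primes dividing a
non-zero integer of size `≤ 2 P w2^s`. (Parseval mod `p`: the `(τ, τ')` term is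
`(1/p) ∑_{h ≠ 0} S_τ(h) conj S_τ'(h)`, `|S_τ(h)| ≤ p/(2|h₁|)` with `h₁ ≡ h d`, `|h₁| ≤ p/2`; `h₂ ≡ h d'` gives
`p ∣ h₁ d' - h₂ d`, which is `≠ 0` for `τ ≠ τ'` because a prime `τ i ≥ Wn 1 > P ≥ |h₁|` divides `d` but not `d'`.
The diagonal terms are `≤ p` each.) (E) Hence the list `𝒜 = {(p, c0) : p ∈ dy j, c0 < p, t^s/Λ⁴ ≤ |Zfp β p c0|}`
has at most `Λ⁸ (2P²/t^s + 2PΛ³) ≤ P Λ^12` elements (`t3`).

(D) For `G₁ ≠ G₂` in `[1, m]`, `G₁` not `onRich`, at most `Ms + 1` nodes `G ∈ [1, m]` have `(fst G, G)` on the line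
through the two nodes: let `(u, v)`, `v ≥ 1`, be the primitive direction; the count is `≤ m/v + 1` and `≤ m/|u| + 1`
(`1 ≤ fst G ≤ G ≤ m`); if `v, |u| ≤ H` the line `(v, u, u G₁ - v fst G₁)` is in the box of `Rich` and not rich.

(C) Triples. Let `Y` be the set of `G` with the same fingerprint `(θ G, l, j, β, c on the ≤ s t numbers of the block)`,
`Y_a = {G ∈ Y : p ∤ G, root N G p = c0}` for `a = (p, c0) ∈ 𝒜`. `∑ #Y_a ≥ (P/Λ⁴) #Y`, so by Hölder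
`∑ #Y_a³ ≥ (P #Y/Λ⁴)³/#𝒜² ≥ 6Λ #Y³` (`P ≥ Λ^40/2`). Three nodes in `Y_a` have `p ∣ det [1, fst G_i, G_i]`
(`p ∣ N + fst G + c0 G`); a non-zero determinant (`≤ 6 m²`) has `≤ 3Λ` prime factors, and at most `#Y² (Ms + 2)`
triples have determinant `0`, each counted for `≤ P` elements `a`. So `#Y ≤ P (Ms + 2) ≤ w2 (Ms + 2)`.

(F) Number of fingerprints: `m/(ΛG) < |Zs| ≤ w2^(s+1)` gives `l ≤ 2Λ w2^(s+1)` (`≤ 4Λ w2^(s+1)` values), `j < w2`,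
`β i < w2`, `c < w2`. -/
theorem fp (N : ℤ) (m s t H Ms : ℕ) (Wn : ℕ → ℕ) (Λ : ℝ) (hn : FpNum m s t Wn Λ) (hH : 1 ≤ H)
    (hM : m ≤ H * Ms) {ι : Type} (Th : Finset ι) (b : ι → ℕ → (Fin s → ℕ) → ℝ)
    (hb : ∀ θ p τ, |b θ p τ| ≤ 1) (θ : ℕ → ι) (𝒢 : Finset ℕ) (hθ : ∀ G ∈ 𝒢, θ G ∈ Th)
    (hA : ∀ G ∈ 𝒢, Adm m s Wn Λ (b (θ G)) G) :
    ((𝒢.filter fun G : ℕ => m / (Λ * G) < |Zs N m Wn s (b (θ G)) G| ∧ ¬ onRich N m H Ms G).card : ℝ) ≤
      Th.card * (4 * Λ) * (Wn (s + 1) : ℝ) ^ (2 * s + 3 + s * t) * (Ms + 2) := by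
  set S := 𝒢.filter fun G : ℕ => m / (Λ * G) < |Zs N m Wn s (b (θ G)) G| ∧ ¬ onRich N m H Ms G with hS
  set w := Wn (s + 1) with hw
  have hS1 : ∀ G ∈ S, G ∈ 𝒢 := fun G hG => (mem_filter.1 hG).1
  have hp := fun G (hG : G ∈ S) => Fp.pigeon hn N (hb (θ G)) (hA G (hS1 G hG)) (mem_filter.1 hG).2.1
  choose! J B hJ1 hJ2 hB hC using hp
  let cf : ℕ → Fin s → Fin t → ℕ := fun G i k =>
    if t * B G i + k ∈ win Wn (i + 1) then root N G (t * B G i + k) else 0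
  let φ : ℕ → ι × ℕ × ℕ × (Fin s → ℕ) × (Fin s → Fin t → ℕ) := fun G =>
    (θ G, cnt N m G, J G, B G, cf G)
  set K := ⌊2 * Λ * (w : ℝ) ^ (s + 1)⌋₊ + 1 with hK
  let Tgt : Finset (ι × ℕ × ℕ × (Fin s → ℕ) × (Fin s → Fin t → ℕ)) :=
    Th ×ˢ range K ×ˢ range w ×ˢ Fintype.piFinset (fun _ => range w) ×ˢ
      Fintype.piFinset (fun _ => Fintype.piFinset fun _ => range w)
  have hΛ := hn.l1
  have hw1 : Wn 1 ≤ w := hn.mono (by omega)
  have hw0 : 1 ≤ w := (hn.t1.trans hn.t2).trans hw1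
  have hmaps : ∀ G ∈ S, φ G ∈ Tgt := by
    intro G hG
    simp only [Tgt, φ, mem_product, mem_range, Fintype.mem_piFinset]
    refine ⟨hθ G (hS1 G hG), ?_, ?_, hB G hG, fun i k => ?_⟩
    · exact Nat.lt_succ_of_le (Nat.le_floor
        (Fp.cnt_le hn N (hb (θ G)) (hA G (hS1 G hG)) (mem_filter.1 hG).2.1))
    · exact (Nat.lt_two_pow_self.trans (hJ1 G hG)).trans_le hw1
    · simp only [cf]
      split_ifs with h
      · have h1 := Fp.mem_win.1 h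
        exact ((root_lt N G h1.2.2).trans h1.2.1).trans_le (hn.mono (by omega))
      · omega
  have hfib : ∀ x ∈ Tgt, (S.filter fun G => φ G = x).card ≤ w * (Ms + 2) := by
    intro x _
    rcases (S.filter fun G => φ G = x).eq_empty_or_nonempty with h | ⟨G₀, h₀⟩
    · rw [h]; simp
    have h0 := mem_filter.1 h₀
    refine Fp.fiber N hn hH hM (hb (θ G₀)) (cnt N m G₀) (J G₀) (root N G₀) (B G₀) (hJ1 _ h0.1)
      (hJ2 _ h0.1) _ (fun G hG => ?_) fun G hG => ?_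
    · have h1 := (mem_filter.1 hG).1
      have h2 := hA G (hS1 G h1)
      exact ⟨mem_Icc.2 ⟨h2.1, h2.2.1⟩, (mem_filter.1 h1).2.2⟩
    · have h1 := mem_filter.1 hG
      have h2 : φ G = φ G₀ := h1.2.trans h0.2.symm
      simp only [φ, Prod.mk.injEq] at h2
      obtain ⟨e1, e2, e3, e4, e5⟩ := h2
      have h3 := hC G h1.1
      rw [e1, e2, e3, e4] at h3
      have h4 : ∀ p c0, Zfp Wn s t (b (θ G₀)) (cnt N m G₀) (root N G) (B G₀) p c0 =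
          Zfp Wn s t (b (θ G₀)) (cnt N m G₀) (root N G₀) (B G₀) p c0 := by
        refine Fp.Zfp_congr hn.t1 _ _ fun i k hk => ?_
        have h5 := congrFun (congrFun e5 i) k
        simp only [cf, e4, if_pos hk] at h5
        exact h5
      simpa only [h4] using h3
  have hcard := card_le_mul_card_image_of_maps_to hmaps _ hfib
  have hT : Tgt.card = Th.card * (K * (w * (w ^ s * w ^ (s * t)))) := by
    simp only [Tgt, card_product, card_range, Fintype.card_piFinset, prod_const, card_univ,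
      Fintype.card_fin, ← pow_mul, mul_comm t s]
  have hwR : (1 : ℝ) ≤ w := by exact_mod_cast hw0
  have hKle : (K : ℝ) ≤ 4 * Λ * (w : ℝ) ^ (s + 1) := by
    have h1 : (1 : ℝ) ≤ (w : ℝ) ^ (s + 1) := one_le_pow₀ hwR
    have h2 : (⌊2 * Λ * (w : ℝ) ^ (s + 1)⌋₊ : ℝ) ≤ 2 * Λ * (w : ℝ) ^ (s + 1) :=
      Nat.floor_le (by positivity)
    rw [hK]
    push_cast
    nlinarith
  have h1 : (S.card : ℝ) ≤ w * (Ms + 2) * (Th.card * (K * (w * (w ^ s * w ^ (s * t))))) := by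
    rw [hT] at hcard
    exact_mod_cast hcard
  refine h1.trans ?_
  calc (w : ℝ) * (Ms + 2) * (Th.card * (K * (w * (w ^ s * w ^ (s * t)))))
      ≤ w * (Ms + 2) * (Th.card * ((4 * Λ * (w : ℝ) ^ (s + 1)) * (w * (w ^ s * w ^ (s * t))))) := by
        gcongr
    _ = _ := by ring

end Crest.Agent.R1
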