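import Crest.Agent.R1.Asm3a
import Crest.Agent.R1.Fp

/-! Row 1: the remainder. -/

set_option autoImplicit false

namespace Crest.Agent.R1
open Finset MeasureTheory Filter

namespace Asm3

theorem w0_le_y0 (Q : Par) (ho : Q.Ord) : Q.w0 ≤ Q.y0 :=
  ho.w1.trans ((ho.mono (Nat.zero_le _)).trans (ho.w2.trans ho.w3))

theorem valid0 (Q : Par) (ho : Q.Ord) : valid 0 Q.D0 Q.y0 := by
  have h2 : 2 ≤ Q.y0 := ho.w0.trans (w0_le_y0 Q ho)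
  have h3 : Q.y0 ≤ Q.D0 := (Nat.le_self_pow (by norm_num) _).trans ho.v1
  refine ⟨h2, by exact_mod_cast h3, fun _ => by exact_mod_cast ho.v1⟩

theorem card_Ch (Q : Par) (ho : Q.Ord) : (Ch 0 Q.D0 2 Q.y0).card ≤ Q.D0 := by
  have h : (Ch 0 Q.D0 2 Q.y0).card ≤ (Icc 1 Q.D0).card := by
    refine card_le_card_of_injOn pd (fun s hs => ?_) (fun s hs s' hs' h => ?_)
    · have hs' := mem_coe.1 hs
      have h1 := pd_le (valid0 Q ho) hs'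
      have h2 := pd_pos (s := s) fun p hp => (mem_Pr.1 ((mem_Ch.1 hs').1 hp)).2.2
      exact mem_coe.2 (mem_Icc.2 ⟨h2, by exact_mod_cast h1⟩)
    · have h1 := primeFactors_pd (s := s) fun p hp =>
        (mem_Pr.1 ((mem_Ch.1 (mem_coe.1 hs)).1 hp)).2.2
      have h2 := primeFactors_pd (s := s') fun p hp =>
        (mem_Pr.1 ((mem_Ch.1 (mem_coe.1 hs')).1 hp)).2.2
      rw [← h1, ← h2, h]
  simpa using h

theorem sum_split (𝒢 B : Finset ℕ) (f g : ℕ → ℝ) (K : ℝ) (hB : B ⊆ 𝒢) (hg : ∀ G ∈ 𝒢, 0 ≤ g G)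
    (h1 : ∀ G ∈ 𝒢, G ∉ B → f G ≤ g G) (h2 : ∀ G ∈ 𝒢, f G ≤ K) :
    ∑ G ∈ 𝒢, f G ≤ ∑ G ∈ 𝒢, g G + B.card * K := by
  rw [← sum_sdiff hB]
  refine add_le_add ?_ ?_
  · calc ∑ G ∈ 𝒢 \ B, f G ≤ ∑ G ∈ 𝒢 \ B, g G :=
          sum_le_sum fun G hG => h1 G (mem_sdiff.1 hG).1 (mem_sdiff.1 hG).2
      _ ≤ ∑ G ∈ 𝒢, g G :=
          sum_le_sum_of_subset_of_nonneg sdiff_subset fun G hG _ => hg G hG
  · have h := sum_le_card_nsmul B f K fun G hG => h2 G (hB hG)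
    rwa [nsmul_eq_mul] at h

theorem sum_harm (𝒢 : Finset ℕ) (m : ℕ) {Λ : ℝ} (hΛ : 0 < Λ) (h : ∀ G ∈ 𝒢, 1 ≤ G ∧ G ≤ m) :
    ∑ G ∈ 𝒢, (m : ℝ) / (Λ * G) ≤ m * (1 + Real.log m) / Λ := by
  have h1 : ∑ G ∈ 𝒢, (m : ℝ) / (Λ * G) ≤ ∑ G ∈ Icc 1 m, (m : ℝ) / (Λ * G) :=
    sum_le_sum_of_subset_of_nonneg (fun G hG => mem_Icc.2 (h G hG)) fun G _ _ => by positivity
  have h2 : ∑ G ∈ Icc 1 m, (m : ℝ) / (Λ * G) = m / Λ * ((harmonic m : ℚ) : ℝ) := by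
    rw [harmonic_eq_sum_Icc]
    push_cast
    rw [mul_sum]
    refine sum_congr rfl fun G _ => ?_
    rw [← div_div, div_eq_mul_inv (m / Λ : ℝ)]
  have h3 := harmonic_le_one_add_log m
  have h4 : (0 : ℝ) ≤ m / Λ := by positivity
  calc _ ≤ _ := h1
    _ = _ := h2
    _ ≤ m / Λ * (1 + Real.log m) := mul_le_mul_of_nonneg_left h3 h4
    _ = _ := by ring

theorem card_win {Wn : ℕ → ℕ} (hW : Monotone Wn) {i s : ℕ} (h : i ≤ s) :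
    (win Wn i).card ≤ Wn (s + 1) := by
  have h1 : (win Wn i).card ≤ (Ico (Wn i) (Wn (i + 1))).card := card_filter_le _ _
  have h2 : Wn (i + 1) ≤ Wn (s + 1) := hW (by omega)
  rw [Nat.card_Ico] at h1
  omega

theorem card_tup {Wn : ℕ → ℕ} (hW : Monotone Wn) (s : ℕ) :
    (tup Wn s).card ≤ Wn (s + 1) ^ s := by
  rw [tup, Fintype.card_piFinset]
  have h := prod_le_pow_card (univ : Finset (Fin s)) (fun i => (win Wn (i + 1)).card) (Wn (s + 1))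
    fun i _ => card_win hW (by omega)
  simpa using h

theorem tup_pos {Wn : ℕ → ℕ} {s : ℕ} {τ : Fin s → ℕ} (hτ : τ ∈ tup Wn s) : 0 < ∏ i, τ i :=
  prod_pos fun i _ => (mem_Pr.1 (Fintype.mem_piFinset.1 hτ i)).2.2.pos

theorem not_dvd_tup {Wn : ℕ → ℕ} (hW : Monotone Wn) {s : ℕ} {τ : Fin s → ℕ} (hτ : τ ∈ tup Wn s)
    {p : ℕ} (hp : p ∈ win Wn 0) : ¬ p ∣ ∏ i, τ i := by
  have hpr : p.Prime := (mem_Pr.1 hp).2.2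
  intro h
  obtain ⟨i, -, hi⟩ := (hpr.prime.dvd_finsetProd_iff _).1 h
  have h1 : τ i ∈ win Wn (i + 1) := Fintype.mem_piFinset.1 hτ i
  have h2 : p = τ i := (Nat.prime_dvd_prime_iff_eq hpr (mem_Pr.1 h1).2.2).1 hi
  have h3 : Wn 1 ≤ Wn (i + 1) := hW (by omega)
  have h4 := (mem_Pr.1 hp).2.1
  have h5 := (mem_Pr.1 h1).1
  simp only [zero_add] at h4
  omega

theorem abs_Zs (N : ℤ) (m : ℕ) {Wn : ℕ → ℕ} (hW : Monotone Wn) (s : ℕ) {Λ : ℝ}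
    {b : ℕ → (Fin s → ℕ) → ℝ} (hb : ∀ p τ, |b p τ| ≤ 1) {G : ℕ} (hA : Adm m s Wn Λ b G) :
    |Zs N m Wn s b G| ≤ (Wn (s + 1) : ℝ) ^ (s + 1) := by
  have key : ∀ p ∈ win Wn 0, ∀ τ ∈ tup Wn s,
      |b p τ * ((cnt N m (G * (∏ i, τ i) * p) : ℝ) - (cnt N m (G * ∏ i, τ i) : ℝ) / p)| ≤ 1 := by
    intro p hp τ hτ
    by_cases h0 : b p τ = 0
    · rw [h0, zero_mul, abs_zero]
      exact zero_le_one
    have hpr : p.Prime := (mem_Pr.1 hp).2.2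
    have h1 := (hA.2.2 p hp τ hτ h0).1
    have h2 : ¬ p ∣ G := (Nat.Prime.coprime_iff_not_dvd hpr).1 (Nat.Coprime.coprime_mul_left_right h1).symm
    have h3 : ¬ p ∣ G * ∏ i, τ i := fun h =>
      ((Nat.Prime.dvd_mul hpr).1 h).elim h2 (not_dvd_tup hW hτ hp)
    have h4 := cnt_prime N m (Nat.mul_pos hA.1 (tup_pos hτ)) hpr h3
    rw [abs_mul]
    exact mul_le_one₀ (hb p τ) (abs_nonneg _) h4
  have h1 : ((win Wn 0).card : ℝ) ≤ Wn (s + 1) := by exact_mod_cast card_win hW (Nat.zero_le s)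
  have h2 : ((tup Wn s).card : ℝ) ≤ (Wn (s + 1) : ℝ) ^ s := by exact_mod_cast card_tup hW s
  calc |Zs N m Wn s b G| ≤ ∑ p ∈ win Wn 0, ∑ τ ∈ tup Wn s, (1 : ℝ) := by
        refine (abs_sum_le_sum_abs _ _).trans (sum_le_sum fun p hp => ?_)
        exact (abs_sum_le_sum_abs _ _).trans (sum_le_sum fun τ hτ => key p hp τ hτ)
    _ = (win Wn 0).card * (tup Wn s).card := by simp
    _ ≤ (Wn (s + 1) : ℝ) * (Wn (s + 1) : ℝ) ^ s := by gcongr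
    _ = _ := by ring

theorem adm_mono {m s : ℕ} {Wn : ℕ → ℕ} {Λ Λ' : ℝ} (h : Λ ≤ Λ') {b : ℕ → (Fin s → ℕ) → ℝ} {G : ℕ}
    (hA : Adm m s Wn Λ b G) : Adm m s Wn Λ' b G :=
  ⟨hA.1, hA.2.1, fun p hp τ hτ h0 => ⟨(hA.2.2 p hp τ hτ h0).1,
    (hA.2.2 p hp τ hτ h0).2.trans (mul_le_mul_of_nonneg_right h (Nat.cast_nonneg _))⟩⟩

/-- the second parts -/
theorem abs_second (N : ℤ) (m : ℕ) {Wn : ℕ → ℕ} (h0 : 0 < Wn 0) {s : ℕ}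
    (b : ℕ → (Fin s → ℕ) → ℝ) {G : ℕ} (hG : 1 ≤ G) :
    |∑ p ∈ win Wn 0, ∑ τ ∈ tup Wn s,
      b p τ * (((cnt N m (G * ∏ i, τ i) : ℝ) - m / ((G * ∏ i, τ i : ℕ) : ℝ)) / p)| ≤
      (∑ p ∈ win Wn 0, ∑ τ ∈ tup Wn s, |b p τ|) / Wn 0 := by
  rw [sum_div]
  refine (abs_sum_le_sum_abs _ _).trans (sum_le_sum fun p hp => ?_)
  rw [sum_div]
  refine (abs_sum_le_sum_abs _ _).trans (sum_le_sum fun τ hτ => ?_)
  have h1 := cnt_err N m (Nat.mul_pos hG (tup_pos hτ))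
  have h2 : (Wn 0 : ℝ) ≤ p := by exact_mod_cast (mem_Pr.1 hp).1
  have h3 : (0 : ℝ) < Wn 0 := by exact_mod_cast h0
  rw [abs_mul, abs_div, Nat.abs_cast, div_eq_mul_one_div |b p τ|]
  refine mul_le_mul_of_nonneg_left ?_ (abs_nonneg _)
  exact div_le_div₀ zero_le_one h1 h3 h2

theorem split_F (N : ℤ) (m : ℕ) (Wn : ℕ → ℕ) (s : ℕ) (b : ℕ → (Fin s → ℕ) → ℝ) (G : ℕ) :
    ∑ p ∈ win Wn 0, ∑ τ ∈ tup Wn s, b p τ *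
      ((cnt N m (G * (∏ i, τ i) * p) : ℝ) - m / ((G * (∏ i, τ i) * p : ℕ) : ℝ)) =
    Zs N m Wn s b G + ∑ p ∈ win Wn 0, ∑ τ ∈ tup Wn s,
      b p τ * (((cnt N m (G * ∏ i, τ i) : ℝ) - m / ((G * ∏ i, τ i : ℕ) : ℝ)) / p) := by
  rw [Zs, ← sum_add_distrib]
  refine sum_congr rfl fun p _ => ?_
  rw [← sum_add_distrib]
  refine sum_congr rfl fun τ _ => ?_
  rw [Nat.cast_mul (G * ∏ i, τ i) p, ← div_div]
  ring

end Asm3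

open Classical in
/-- non-eligible `g`: `g ∪ e ∈ Ch 0 D0 2 y0` (`union_mem_Ch`, `Ch_natdiv`), `(g, e) ↦ pd (g ∪ e) ∈ [1, D0]` is
injective, `cnt_err` -/
theorem rem_nonelig (Q : Par) (ho : Q.Ord) :
    |∑ g ∈ Q.C1.filter (fun g => ¬ Q.elig g), ∑ e ∈ Q.C2 g, (-1 : ℝ) ^ (g.card + e.card) *
      ((cnt Q.N Q.m (pd g * pd e) : ℝ) - Q.m / ((pd g * pd e : ℕ) : ℝ))| ≤ Q.D0 := by
  have h1 : ∀ g ∈ Q.C1.filter (fun g => ¬ Q.elig g),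
      |∑ e ∈ Q.C2 g, (-1 : ℝ) ^ (g.card + e.card) *
        ((cnt Q.N Q.m (pd g * pd e) : ℝ) - Q.m / ((pd g * pd e : ℕ) : ℝ))| ≤
      ∑ e ∈ Ch (0 + g.card) ((Q.D0 : ℝ) / pd g) 2 Q.w0, (1 : ℝ) := by
    intro g hg
    obtain ⟨hg1, hg2⟩ := mem_filter.1 hg
    have hg0 : 0 < pd g := pd_pos fun p hp => (mem_Pr.1 ((mem_Ch.1 hg1).1 hp)).2.2
    have h2 : Q.C2 g = Ch (0 + g.card) ((Q.D0 : ℝ) / pd g) 2 Q.w0 := by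
      rw [Ch_natdiv _ _ _ _ _ hg0, Par.C2, Par.lev, if_neg hg2, zero_add]
    rw [h2]
    refine (abs_sum_le_sum_abs _ _).trans (sum_le_sum fun e he => ?_)
    have he0 : 0 < pd e := pd_pos fun p hp => (mem_Pr.1 ((mem_Ch.1 he).1 hp)).2.2
    rw [abs_mul, abs_pow, abs_neg, abs_one, one_pow, one_mul]
    exact cnt_err Q.N Q.m (Nat.mul_pos hg0 he0)
  have h3 := sum_Ch_comp 0 (Q.D0 : ℝ) ho.w0 (Asm3.w0_le_y0 Q ho) (fun _ => (1 : ℝ))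
  have h4 : ((Ch 0 Q.D0 2 Q.y0).card : ℝ) ≤ Q.D0 := by exact_mod_cast Asm3.card_Ch Q ho
  calc _ ≤ _ := abs_sum_le_sum_abs _ _
    _ ≤ _ := sum_le_sum h1
    _ ≤ ∑ g ∈ Q.C1, ∑ e ∈ Ch (0 + g.card) ((Q.D0 : ℝ) / pd g) 2 Q.w0, (1 : ℝ) :=
        sum_le_sum_of_subset_of_nonneg (filter_subset _ _) fun g _ _ =>
          sum_nonneg fun _ _ => zero_le_one
    _ = (Ch 0 Q.D0 2 Q.y0).card := by
        rw [Par.C1, ← h3]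
        simp
    _ ≤ _ := h4

/-- The remainder. For eligible `g` use `reindex` with `F d = cnt d - m/d` and
`F (d p) = (cnt (d p) - cnt d / p) + (cnt d - m/d)/p`, `d = G ∏ τ`. The second parts add up to at most `w0 D0 / Wn 0`
(`cnt_err`), the first ones to `∑_G Zs G`. `∑_{G ≤ m} m/(ΛG) ≤ m (1 + log m)/Λ`; the other `G` are counted by `fp`, and
`|Zs G| ≤ w2^(s+1)` (`cnt_prime`; `#win i ≤ w2`; `p ∤ ∏ τ` by `win_disj`). -/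
theorem asm3 (Q : Par) (ho : Q.Ord) (t : ℕ) (Λ : ℝ) (hn : FpNum Q.m Q.s t Q.Wn Λ) (hw : (Q.w0 : ℝ) ≤ Λ)
    (hH : 1 ≤ Q.H) (hM : Q.m ≤ Q.H * Q.Ms) :
    |∑ g ∈ Q.C1, ∑ e ∈ Q.C2 g, (-1 : ℝ) ^ (g.card + e.card) *
      ((cnt Q.N Q.m (pd g * pd e) : ℝ) - Q.m / ((pd g * pd e : ℕ) : ℝ))| ≤
      Q.D0 + Q.w0 * Q.D0 / Q.Wn 0 + Q.m * (1 + Real.log Q.m) / Λ +
        8 * Λ * (Q.w2 : ℝ) ^ (2 * Q.σ2 + 3 * Q.s + 4 + Q.s * t) * (Q.Ms + 2) := by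
  classical
  obtain ⟨b, θ, Th, 𝒢, hTh, hb, hθ, hA, hF, hS⟩ := reindex Q ho
  have hΛ : 0 < Λ := by linarith [hn.l1]
  have hW0 : 0 < Q.Wn 0 := lt_of_lt_of_le (by norm_num) (ho.w0.trans ho.w1)
  have hA' : ∀ G ∈ 𝒢, Adm Q.m Q.s Q.Wn Λ (b (θ G)) G := fun G hG => Asm3.adm_mono hw (hA G hG).1
  have hfp := fp Q.N Q.m Q.s t Q.H Q.Ms Q.Wn Λ hn hH hM Th b hb θ 𝒢 hθ hA'
  have h1 := rem_nonelig Q ho
  have h2 := hF fun d => (cnt Q.N Q.m d : ℝ) - Q.m / (d : ℝ)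
  have h3 : ∑ G ∈ 𝒢, |Zs Q.N Q.m Q.Wn Q.s (b (θ G)) G| ≤ Q.m * (1 + Real.log Q.m) / Λ +
      8 * Λ * (Q.w2 : ℝ) ^ (2 * Q.σ2 + 3 * Q.s + 4 + Q.s * t) * (Q.Ms + 2) := by
    refine (Asm3.sum_split 𝒢 _ _ (fun G => (Q.m : ℝ) / (Λ * G)) ((Q.w2 : ℝ) ^ (Q.s + 1))
      (filter_subset (fun G : ℕ => Q.m / (Λ * G) < |Zs Q.N Q.m Q.Wn Q.s (b (θ G)) G| ∧
        ¬ onRich Q.N Q.m Q.H Q.Ms G) 𝒢) (fun G _ => by positivity) (fun G hG hB => ?_)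
      (fun G hG => Asm3.abs_Zs Q.N Q.m ho.mono Q.s (hb _) (hA' G hG))).trans ?_
    · by_contra hlt
      exact hB (mem_filter.2 ⟨hG, not_le.1 hlt, (hA G hG).2⟩)
    · refine add_le_add (Asm3.sum_harm 𝒢 Q.m hΛ fun G hG => ⟨(hA' G hG).1, (hA' G hG).2.1⟩) ?_
      have h4 : (Th.card : ℝ) ≤ 2 * (Q.w2 : ℝ) ^ (2 * Q.σ2) := by exact_mod_cast hTh
      calc _ ≤ Th.card * (4 * Λ) * (Q.w2 : ℝ) ^ (2 * Q.s + 3 + Q.s * t) * (Q.Ms + 2) *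
            (Q.w2 : ℝ) ^ (Q.s + 1) := mul_le_mul_of_nonneg_right hfp (by positivity)
        _ ≤ 2 * (Q.w2 : ℝ) ^ (2 * Q.σ2) * (4 * Λ) * (Q.w2 : ℝ) ^ (2 * Q.s + 3 + Q.s * t) *
            (Q.Ms + 2) * (Q.w2 : ℝ) ^ (Q.s + 1) := by gcongr
        _ = _ := by ring
  have h5 : ∑ G ∈ 𝒢, |∑ p ∈ win Q.Wn 0, ∑ τ ∈ tup Q.Wn Q.s, b (θ G) p τ *
      (((cnt Q.N Q.m (G * ∏ i, τ i) : ℝ) - Q.m / ((G * ∏ i, τ i : ℕ) : ℝ)) / p)| ≤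
      Q.w0 * Q.D0 / Q.Wn 0 := by
    refine (sum_le_sum fun G hG => Asm3.abs_second Q.N Q.m hW0 (b (θ G)) (hA' G hG).1).trans ?_
    rw [← sum_div]
    exact div_le_div_of_nonneg_right hS (Nat.cast_nonneg _)
  have h6 : |∑ g ∈ Q.C1.filter Q.elig, ∑ e ∈ Q.C2 g, (-1 : ℝ) ^ (g.card + e.card) *
      ((cnt Q.N Q.m (pd g * pd e) : ℝ) - Q.m / ((pd g * pd e : ℕ) : ℝ))| ≤
      Q.m * (1 + Real.log Q.m) / Λ +
        8 * Λ * (Q.w2 : ℝ) ^ (2 * Q.σ2 + 3 * Q.s + 4 + Q.s * t) * (Q.Ms + 2) +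
        Q.w0 * Q.D0 / Q.Wn 0 := by
    rw [h2]
    refine (abs_sum_le_sum_abs _ _).trans (le_trans ?_ (add_le_add h3 h5))
    rw [← sum_add_distrib]
    refine sum_le_sum fun G _ => ?_
    rw [Asm3.split_F]
    exact abs_add_le _ _
  rw [← sum_filter_add_sum_filter_not Q.C1 Q.elig]
  refine (abs_add_le _ _).trans ?_
  linarith

end Crest.Agent.R1
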