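import Crest.Agent.R1.ChainA

/-! Row 1: dropped chains and Buchstab identities. -/

set_option autoImplicit false

namespace Crest.Agent.R1
open Finset MeasureTheory Filter

namespace ChainB

theorem Pr_mono {w w' y : ℕ} (h : w ≤ w') : Pr w' y ⊆ Pr w y := fun p hp => by
  rw [mem_Pr] at hp ⊢
  exact ⟨h.trans hp.1, hp.2⟩

theorem Pr_union {w w' y : ℕ} (h1 : w ≤ w') (h2 : w' ≤ y) : Pr w y = Pr w' y ∪ Pr w w' := by
  ext p
  simp only [mem_union, mem_Pr]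
  constructor
  · rintro ⟨a, b, c⟩
    by_cases h : p < w'
    · exact Or.inr ⟨a, h, c⟩
    · exact Or.inl ⟨not_lt.1 h, b, c⟩
  · rintro (⟨a, b, c⟩ | ⟨a, b, c⟩)
    · exact ⟨h1.trans a, b, c⟩
    · exact ⟨a, b.trans_le h2, c⟩

theorem Pr_disj (w w' y : ℕ) : Disjoint (Pr w' y) (Pr w w') := by
  rw [Finset.disjoint_left]
  intro p h1 h2
  rw [mem_Pr] at h1 h2
  omega

theorem not_mem {e : ℕ} {X : ℝ} {w p : ℕ} {s : Finset ℕ} (hs : s ∈ Ch e X w p) : p ∉ s :=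
  fun h => lt_irrefl p (mem_Pr.1 ((mem_Ch.1 hs).1 h)).2.1

theorem pd_insert {s : Finset ℕ} {p : ℕ} (h : p ∉ s) : (pd (insert p s) : ℝ) = p * pd s := by
  unfold pd
  rw [prod_insert h, Nat.cast_mul]

theorem pd_empty : pd ∅ = 1 := by simp [pd]

theorem disj_Ch {e e' : ℕ} {X X' : ℝ} {w w' y : ℕ} {s1 s2 : Finset ℕ} (h1 : s1 ∈ Ch e X w' y)
    (h2 : s2 ∈ Ch e' X' w w') : Disjoint s1 s2 :=
  (filter_union_eq (mem_Ch.1 h1).1 (mem_Ch.1 h2).1).2

theorem pd_union' {s s' : Finset ℕ} (h : Disjoint s s') : (pd (s ∪ s') : ℝ) = pd s * pd s' := by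
  rw [pd_union h, Nat.cast_mul]

theorem prod_inv (s : Finset ℕ) : ∏ p ∈ s, 1 / (p : ℝ) = 1 / (pd s : ℝ) := by
  unfold pd
  rw [Nat.cast_prod, prod_div_distrib, prod_const_one]

open Classical in
theorem sum_Dr (e : ℕ) (X : ℝ) (w y : ℕ) (F : Finset ℕ × ℕ → ℝ) :
    ∑ a ∈ Dr e X w y, F a = ∑ q ∈ Pr w y, ∑ s ∈ Ch e X (q + 1) y,
      if ok (e + s.card) (X / pd s) q then 0 else F (s, q) := by
  unfold Dr
  rw [sum_filter, sum_product_right]
  refine sum_congr rfl fun q hq => ?_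
  have hsub : Ch e X (q + 1) y ⊆ (Pr w y).powerset := fun s hs =>
    mem_powerset.2 ((mem_Ch.1 hs).1.trans (Pr_mono ((mem_Pr.1 hq).1.trans q.le_succ)))
  rw [← sum_subset hsub fun s _ hs => if_neg fun h => hs h.1]
  refine sum_congr rfl fun s hs => ?_
  by_cases h : ok (e + s.card) (X / pd s) q
  · rw [if_pos h, if_neg fun h' => h'.2 h]
  · rw [if_neg h, if_pos ⟨hs, h⟩]

theorem Vp_split {w y : ℕ} (h2 : 2 ≤ w) (h : w ≤ y) :
    Vp y = Vp w * ∏ p ∈ Pr w y, (1 - 1 / (p : ℝ)) := by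
  unfold Vp
  rw [Pr_union h2 h, prod_union (Pr_disj _ _ _), mul_comm]

theorem telescope (ρ : ℕ → ℝ) (w y : ℕ) :
    ∏ p ∈ Pr w y, (1 - ρ p) = 1 - ∑ p ∈ Pr w y, ρ p * ∏ q ∈ Pr w p, (1 - ρ q) := by
  rw [prod_one_sub_ordered]
  congr 1
  refine sum_congr rfl fun p hp => ?_
  congr 2
  ext q
  simp only [mem_filter, mem_Pr]
  have := (mem_Pr.1 hp).2.1
  constructor
  · rintro ⟨⟨a, _, c⟩, d⟩
    exact ⟨a, d, c⟩
  · rintro ⟨a, b, c⟩
    exact ⟨⟨a, b.trans this, c⟩, b⟩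

end ChainB

open ChainB

theorem mem_Dr {e : ℕ} {X : ℝ} {w y : ℕ} {a : Finset ℕ × ℕ} :
    a ∈ Dr e X w y ↔ a.2 ∈ Pr w y ∧ a.1 ∈ Ch e X (a.2 + 1) y ∧ Odd (e + a.1.card) ∧
      X / pd a.1 < (a.2 : ℝ) ^ 3 := by
  classical
  unfold Dr ok
  simp only [mem_filter, mem_product, mem_powerset, Classical.not_imp, not_le]
  constructor
  · rintro ⟨⟨_, h2⟩, h3, h4, h5⟩
    exact ⟨h2, h3, h4, h5⟩
  · rintro ⟨h2, h3, h4, h5⟩
    exact ⟨⟨(mem_Ch.1 h3).1.trans (Pr_mono ((mem_Pr.1 h2).1.trans a.2.le_succ)), h2⟩, h3, h4, h5⟩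

theorem Dr_mono (e : ℕ) (X : ℝ) {w w' : ℕ} (h : w ≤ w') (y : ℕ) : Dr e X w' y ⊆ Dr e X w y := by
  intro a ha
  rw [mem_Dr] at ha ⊢
  exact ⟨Pr_mono h ha.1, ha.2⟩

open Classical in
/-- split off the largest prime -/
theorem sum_Dr_rec (e : ℕ) (X : ℝ) (w y : ℕ) (F : Finset ℕ × ℕ → ℝ) :
    ∑ a ∈ Dr e X w y, F a = ∑ p ∈ Pr w y, if ok e X p then
      ∑ a ∈ Dr (e + 1) (X / p) w p, F (insert p a.1, a.2) else F (∅, p) := by
  have h1 : ∀ p ∈ Pr w y, (if ok e X p then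
      ∑ a ∈ Dr (e + 1) (X / p) w p, F (insert p a.1, a.2) else F (∅, p)) =
      (if ok e X p then 0 else F (∅, p)) + if ok e X p then ∑ q ∈ Pr w p,
        ∑ s ∈ Ch (e + 1) (X / p) (q + 1) p,
          (if ok (e + 1 + s.card) (X / p / pd s) q then 0 else F (insert p s, q)) else 0 := by
    intro p _
    split_ifs with h
    · rw [sum_Dr, zero_add]
    · rw [add_zero]
  rw [sum_congr rfl h1, sum_add_distrib, ← sum_filter (ok e X) (fun p => ∑ q ∈ Pr w p,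
        ∑ s ∈ Ch (e + 1) (X / p) (q + 1) p,
          (if ok (e + 1 + s.card) (X / p / pd s) q then 0 else F (insert p s, q))), sum_Dr,
    sum_comm' (s := (Pr w y).filter (ok e X)) (t := fun p => Pr w p) (t' := Pr w y)
      (s' := fun q => (Pr (q + 1) y).filter (ok e X)), ← sum_add_distrib]
  · refine sum_congr rfl fun q _ => ?_
    rw [sum_Ch_rec]
    congr 1
    · simp [pd_empty]
    · refine sum_congr rfl fun p _ => sum_congr rfl fun s hs => ?_
      rw [card_insert_of_notMem (not_mem hs), pd_insert (not_mem hs), div_div,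
        show e + (s.card + 1) = e + 1 + s.card by ring]
  · intro p q
    simp only [mem_filter, mem_Pr]
    constructor
    · rintro ⟨⟨⟨a, b, c⟩, d⟩, f, g, h⟩
      exact ⟨⟨⟨g, b, c⟩, d⟩, f, g.trans b, h⟩
    · rintro ⟨⟨⟨a, b, c⟩, d⟩, f, g, h⟩
      exact ⟨⟨⟨by omega, b, c⟩, d⟩, f, a, h⟩

theorem sum_Dr_comp (e : ℕ) (X : ℝ) {w w' y : ℕ} (h1 : w ≤ w') (h2 : w' ≤ y)
    (F : Finset ℕ × ℕ → ℝ) :
    ∑ a ∈ Dr e X w y, F a = ∑ a ∈ Dr e X w' y, F a +
      ∑ s ∈ Ch e X w' y, ∑ a ∈ Dr (e + s.card) (X / pd s) w w', F (s ∪ a.1, a.2) := by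
  rw [sum_Dr, sum_Dr, Pr_union h1 h2, sum_union (Pr_disj _ _ _)]
  congr 1
  simp only [sum_Dr]
  rw [sum_comm]
  refine sum_congr rfl fun q hq => ?_
  rw [sum_Ch_comp e X (w' := w') (mem_Pr.1 hq).2.1 h2]
  refine sum_congr rfl fun s1 hs1 => sum_congr rfl fun s2 hs2 => ?_
  have hd := disj_Ch hs1 hs2
  rw [card_union_of_disjoint hd, pd_union' hd, div_div, add_assoc]

/-- Buchstab's identity iterated. Strong induction on `y` (for all `e`, `X`) from
`∏_{Pr w y} (1 - ρ) = 1 - ∑_{p ∈ Pr w y} ρ p ∏_{Pr w p} (1 - ρ)`, `sum_Ch_rec`, `sum_Dr_rec`. -/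
theorem buch (ρ : ℕ → ℝ) (e : ℕ) (X : ℝ) (w y : ℕ) :
    ∏ p ∈ Pr w y, (1 - ρ p) = ∑ s ∈ Ch e X w y, (-1 : ℝ) ^ s.card * ∏ p ∈ s, ρ p +
      (-1 : ℝ) ^ e * ∑ a ∈ Dr e X w y, (∏ p ∈ a.1, ρ p) * ρ a.2 * ∏ p ∈ Pr w a.2, (1 - ρ p) := by
  classical
  induction y using Nat.strong_induction_on generalizing e X with
  | _ y ih =>
    rw [telescope, sum_Ch_rec, sum_Dr_rec, sum_filter, mul_sum, add_assoc, ← sum_add_distrib,
      sub_eq_add_neg, ← sum_neg_distrib]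
    congr 1
    · simp
    · refine sum_congr rfl fun p hp => ?_
      by_cases h : ok e X p
      · rw [if_pos h, if_pos h, ih p (mem_Pr.1 hp).2.1 (e + 1) (X / p), mul_add, neg_add, mul_sum,
          ← sum_neg_distrib]
        congr 1
        · refine sum_congr rfl fun s hs => ?_
          rw [card_insert_of_notMem (not_mem hs), prod_insert (not_mem hs)]
          ring
        · simp only [mul_sum, ← sum_neg_distrib]
          refine sum_congr rfl fun a ha => ?_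
          rw [prod_insert (not_mem (mem_Dr.1 ha).2.1)]
          ring
      · have ho : Odd e := by
          by_contra h'
          exact h fun h'' => absurd h'' h'
        rw [if_neg h, if_neg h, ho.neg_one_pow]
        simp

open Classical in
/-- the pointwise identity (`ρ` the indicator of `B`) -/
theorem buch_ind (B : ℕ → Prop) (e : ℕ) (X : ℝ) (w y : ℕ) :
    (if ∀ p ∈ Pr w y, ¬ B p then (1 : ℝ) else 0) =
      ∑ s ∈ Ch e X w y, (if ∀ p ∈ s, B p then (-1 : ℝ) ^ s.card else 0) +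
      (-1 : ℝ) ^ e * ∑ a ∈ Dr e X w y,
        if (∀ p ∈ insert a.2 a.1, B p) ∧ ∀ p ∈ Pr w a.2, ¬ B p then (1 : ℝ) else 0 := by
  have h := buch (fun p => if B p then (1 : ℝ) else 0) e X w y
  have h1 : ∀ s : Finset ℕ, ∏ p ∈ s, (1 - if B p then (1 : ℝ) else 0) =
      if ∀ p ∈ s, ¬ B p then (1 : ℝ) else 0 := by
    intro s
    split_ifs with hs
    · exact prod_eq_one fun p hp => by rw [if_neg (hs p hp), sub_zero]
    · push Not at hs
      obtain ⟨p, hp, hB⟩ := hs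
      exact prod_eq_zero hp (by rw [if_pos hB, sub_self])
  have h2 : ∀ s : Finset ℕ, ∏ p ∈ s, (if B p then (1 : ℝ) else 0) =
      if ∀ p ∈ s, B p then (1 : ℝ) else 0 := by
    intro s
    split_ifs with hs
    · exact prod_eq_one fun p hp => if_pos (hs p hp)
    · push Not at hs
      obtain ⟨p, hp, hB⟩ := hs
      exact prod_eq_zero hp (if_neg hB)
  rw [← h1, h]
  congr 1
  · refine sum_congr rfl fun s _ => ?_
    rw [h2]
    split_ifs <;> simp
  · congr 1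
    refine sum_congr rfl fun a _ => ?_
    rw [h1, h2]
    simp only [forall_mem_insert]
    by_cases c1 : ∀ p ∈ a.1, B p <;> by_cases c2 : B a.2 <;>
      by_cases c3 : ∀ p ∈ Pr w a.2, ¬ B p <;>
      simp only [c1, c2, c3, if_true, if_false, mul_one, mul_zero, and_true, and_false,
        eq_true c1, eq_true c3]

open Classical in
/-- the sieve inequality: lower bound for even `e`, upper bound for odd `e` -/
theorem buch_le (B : ℕ → Prop) (e : ℕ) (X : ℝ) (w y : ℕ) :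
    (-1 : ℝ) ^ e * ∑ s ∈ Ch e X w y, (if ∀ p ∈ s, B p then (-1 : ℝ) ^ s.card else 0) ≤
      (-1 : ℝ) ^ e * (if ∀ p ∈ Pr w y, ¬ B p then (1 : ℝ) else 0) := by
  rw [buch_ind B e X w y, mul_add, ← mul_assoc, ← mul_pow, neg_one_mul, neg_neg, one_pow, one_mul]
  refine le_add_of_nonneg_right (sum_nonneg fun a _ => ?_)
  split_ifs <;> norm_num

theorem Vp_pos (y : ℕ) : 0 < Vp y := by
  refine prod_pos fun p hp => ?_
  have h : (2 : ℝ) ≤ p := by exact_mod_cast (mem_Pr.1 hp).1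
  rw [sub_pos, div_lt_one (by linarith)]
  linarith

theorem Vp_le_one (y : ℕ) : Vp y ≤ 1 := by
  refine prod_le_one (fun p hp => ?_) fun p hp => ?_
  · have h : (2 : ℝ) ≤ p := by exact_mod_cast (mem_Pr.1 hp).1
    rw [sub_nonneg, div_le_one (by linarith)]
    linarith
  · have : (0 : ℝ) ≤ 1 / p := by positivity
    linarith

theorem Nn_nonneg (e : ℕ) (X : ℝ) (w y : ℕ) : 0 ≤ Nn e X w y :=
  sum_nonneg fun a _ => div_nonneg (Vp_pos a.2).le (by positivity)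

theorem Mn_eq (e : ℕ) (X : ℝ) {w y : ℕ} (h2 : 2 ≤ w) (h : w ≤ y) :
    Vp w * Mn e X w y = Vp y - (-1 : ℝ) ^ e * Nn e X w y := by
  rw [Vp_split h2 h, buch (fun p => 1 / (p : ℝ)) e X w y, mul_add, eq_sub_iff_add_eq]
  unfold Mn Nn
  congr 1
  · congr 1
    refine sum_congr rfl fun s _ => ?_
    rw [prod_inv]
    ring
  · rw [mul_left_comm]
    congr 1
    rw [mul_sum]
    refine sum_congr rfl fun a ha => ?_
    rw [Vp_split h2 (mem_Pr.1 (mem_Dr.1 ha).1).1, prod_inv]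
    ring

theorem Nn_mono (e : ℕ) (X : ℝ) {w w' : ℕ} (h : w ≤ w') (y : ℕ) : Nn e X w' y ≤ Nn e X w y :=
  sum_le_sum_of_subset_of_nonneg (Dr_mono e X h y) fun a _ _ =>
    div_nonneg (Vp_pos a.2).le (by positivity)

open Classical in
theorem Nn_rec (e : ℕ) (X : ℝ) (w y : ℕ) :
    Nn e X w y = ∑ p ∈ Pr w y, (if ok e X p then Nn (e + 1) (X / p) w p else Vp p) / p := by
  unfold Nn
  rw [sum_Dr_rec]
  refine sum_congr rfl fun p _ => ?_
  split_ifs with h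
  · rw [sum_div]
    refine sum_congr rfl fun a ha => ?_
    rw [pd_insert (not_mem (mem_Dr.1 ha).2.1)]
    ring
  · simp [pd_empty]

theorem Nn_comp (e : ℕ) (X : ℝ) {w w' y : ℕ} (h1 : w ≤ w') (h2 : w' ≤ y) :
    Nn e X w y = Nn e X w' y + Phi e X w' y fun e X => Nn e X w w' := by
  unfold Phi Nn
  rw [sum_Dr_comp e X h1 h2]
  congr 1
  refine sum_congr rfl fun s hs => ?_
  rw [sum_div]
  refine sum_congr rfl fun a ha => ?_
  rw [pd_union' (disj_Ch hs (mem_Dr.1 ha).2.1)]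
  ring

theorem Mn_comp (e : ℕ) (X : ℝ) {w w' y : ℕ} (h1 : w ≤ w') (h2 : w' ≤ y) :
    Mn e X w y = ∑ s ∈ Ch e X w' y, (-1 : ℝ) ^ s.card / pd s * Mn (e + s.card) (X / pd s) w w' := by
  unfold Mn
  rw [sum_Ch_comp e X h1 h2]
  refine sum_congr rfl fun s hs => ?_
  rw [mul_sum]
  refine sum_congr rfl fun s' hs' => ?_
  have hd := disj_Ch hs hs'
  rw [pd_union' hd, card_union_of_disjoint hd]
  ring

open Classical in
theorem Phi_rec (e : ℕ) (X : ℝ) (w y : ℕ) (R : ℕ → ℝ → ℝ) :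
    Phi e X w y R = R e X + ∑ p ∈ (Pr w y).filter (ok e X), Phi (e + 1) (X / p) w p R / p := by
  unfold Phi
  rw [sum_Ch_rec]
  congr 1
  · simp [pd_empty]
  · refine sum_congr rfl fun p _ => ?_
    rw [sum_div]
    refine sum_congr rfl fun s hs => ?_
    rw [card_insert_of_notMem (not_mem hs), pd_insert (not_mem hs), div_div X,
      show e + (s.card + 1) = e + 1 + s.card by ring]
    ring

theorem Phi_comp (e : ℕ) (X : ℝ) {w w' y : ℕ} (h1 : w ≤ w') (h2 : w' ≤ y) (R : ℕ → ℝ → ℝ) :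
    Phi e X w y R = Phi e X w' y fun e X => Phi e X w w' R := by
  unfold Phi
  rw [sum_Ch_comp e X h1 h2]
  refine sum_congr rfl fun s hs => ?_
  rw [sum_div]
  refine sum_congr rfl fun s' hs' => ?_
  have hd := disj_Ch hs hs'
  rw [pd_union' hd, card_union_of_disjoint hd, div_div X, add_assoc]
  ring

theorem Phi_mono {e : ℕ} {X : ℝ} {w y : ℕ} (hv : valid e X y) (h2 : 2 ≤ w) (h : w ≤ y)
    {R R' : ℕ → ℝ → ℝ} (hR : ∀ e X, valid e X w → R e X ≤ R' e X) :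
    Phi e X w y R ≤ Phi e X w y R' := by
  refine sum_le_sum fun s hs => div_le_div_of_nonneg_right (hR _ _ ?_) (by positivity)
  exact valid_base hv hs h2 h fun p hp => (mem_Pr.1 ((mem_Ch.1 hs).1 hp)).1

end Crest.Agent.R1
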