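import Crest.Agent.R1.Cnt

/-! Row 1: rich lines. -/

set_option autoImplicit false

namespace Crest.Agent.R1
open Finset MeasureTheory Filter

/-- for fixed `(v, u)` the lines are disjoint subsets of `[1, m]` with at least `Ms` elements each, so there are
at most `m / Ms ≤ H` values of `a` -/
theorem card_Rich (N : ℤ) {m H Ms : ℕ} (hMs : 1 ≤ Ms) (h : m ≤ H * Ms) :
    (Rich N m H Ms).card ≤ 3 * H ^ 3 := by
  classical
  have h1 : (Rich N m H Ms).card ≤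
      H * ((Rich N m H Ms).image fun r => (r.1, r.2.1)).card := by
    refine Finset.card_le_mul_card_image _ _ fun b _ => ?_
    set F := (Rich N m H Ms).filter (fun r => (r.1, r.2.1) = b) with hF
    have hd : (F : Set (ℕ × ℤ × ℤ)).PairwiseDisjoint fun r => (Icc 1 m).filter (onL N r) := by
      intro r hr r' hr' hne
      rw [Function.onFun, Finset.disjoint_left]
      intro g hg hg'
      have e1 := (Finset.mem_filter.1 hr).2
      have e2 := (Finset.mem_filter.1 hr').2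
      have e3 : (r.1, r.2.1) = (r'.1, r'.2.1) := e1.trans e2.symm
      obtain ⟨e4, e5⟩ := Prod.mk.inj e3
      have o1 := (Finset.mem_filter.1 hg).2
      have o2 := (Finset.mem_filter.1 hg').2
      unfold onL at o1 o2
      rw [e4, e5, o2] at o1
      exact hne (Prod.ext e4 (Prod.ext e5 (neg_injective o1).symm))
    have h2 : F.card * Ms ≤ (F.biUnion fun r => (Icc 1 m).filter (onL N r)).card := by
      rw [Finset.card_biUnion hd, ← smul_eq_mul]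
      refine Finset.card_nsmul_le_sum _ _ _ fun r hr => ?_
      have := (Finset.mem_filter.1 (Finset.mem_filter.1 hr).1).2
      convert this
    have h3 : (F.biUnion fun r => (Icc 1 m).filter (onL N r)).card ≤ m := by
      have : (F.biUnion fun r => (Icc 1 m).filter (onL N r)) ⊆ Icc 1 m :=
        Finset.biUnion_subset.2 fun r _ => Finset.filter_subset _ _
      simpa using Finset.card_le_card this
    exact Nat.le_of_mul_le_mul_right (h2.trans (h3.trans h)) hMs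
  have h2 : ((Rich N m H Ms).image fun r => (r.1, r.2.1)) ⊆ Icc 1 H ×ˢ Icc (-(H : ℤ)) H := by
    intro b hb
    obtain ⟨r, hr, rfl⟩ := Finset.mem_image.1 hb
    have := Finset.mem_product.1 (Finset.mem_filter.1 hr).1
    exact Finset.mem_product.2 ⟨this.1, (Finset.mem_product.1 this.2).1⟩
  have h3 := Finset.card_le_card h2
  rw [Finset.card_product, Nat.card_Icc, Int.card_Icc] at h3
  have h4 : ((H : ℤ) + 1 - -(H : ℤ)).toNat = 2 * H + 1 := by omega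
  rw [h4, Nat.add_sub_cancel] at h3
  rcases Nat.eq_zero_or_pos H with h0 | h0
  · subst h0
    simpa using h1
  · calc _ ≤ H * (H * (2 * H + 1)) := h1.trans (Nat.mul_le_mul_left _ h3)
      _ ≤ H * (H * (3 * H)) := by gcongr; omega
      _ = 3 * H ^ 3 := by ring

theorem mem_Rich {N : ℤ} {m H Ms : ℕ} {r : ℕ × ℤ × ℤ} (h : r ∈ Rich N m H Ms) :
    1 ≤ r.1 ∧ r.1 ≤ H ∧ |r.2.2| ≤ 2 * H * m := by
  classical
  have := Finset.mem_product.1 (Finset.mem_filter.1 h).1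
  have h1 := Finset.mem_Icc.1 this.1
  have h2 := Finset.mem_Icc.1 (Finset.mem_product.1 this.2).2
  exact ⟨h1.1, h1.2, abs_le.2 h2⟩

/-- `v N - a = v (N + fst G) - u G` -/
theorem onL_inS {N : ℤ} {r : ℕ × ℤ × ℤ} {G l : ℕ} (hG : 1 ≤ G) (h : onL N r G) (hl : l ∣ G) :
    inS N r l := by
  have h1 : (G : ℤ) ∣ N + fst N G := by
    have := fst_spec N hG
    tauto
  have h2 : (l : ℤ) ∣ G := Int.natCast_dvd_natCast.2 hl
  unfold onL at h
  have h3 : (r.1 : ℤ) * N - r.2.2 = r.1 * (N + fst N G) - r.2.1 * G := by linear_combination -h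
  unfold inS
  rw [h3]
  exact dvd_sub (Dvd.dvd.mul_left (h2.trans h1) _) (Dvd.dvd.mul_left h2 _)

namespace Line

theorem card_primeFactors_le {n M : ℕ} (h : n ≤ M) : n.primeFactors.card ≤ Nat.log 2 M := by
  rcases Nat.eq_zero_or_pos n with h0 | h0
  · simp [h0]
  · have h1 : 2 ^ n.primeFactors.card ≤ ∏ p ∈ n.primeFactors, p :=
      Finset.pow_card_le_prod _ _ _ fun p hp => (Nat.prime_of_mem_primeFactors hp).two_le
    have h2 := Nat.le_of_dvd h0 (Nat.prod_primeFactors_dvd n)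
    exact Nat.le_log_of_pow_le (by norm_num) (h1.trans (h2.trans h))

/-- the exceptional primes -/
noncomputable def O (N : ℤ) (m H Ms : ℕ) : Finset ℕ :=
  (Rich N m H Ms ×ˢ Rich N m H Ms).biUnion fun x =>
    (x.2.2.2 * x.1.1 - x.1.2.2 * x.2.1 : ℤ).natAbs.primeFactors

theorem card_O (N : ℤ) {m H Ms : ℕ} (hMs : 1 ≤ Ms) (h : m ≤ H * Ms) :
    (O N m H Ms).card ≤ 9 * H ^ 6 * Nat.log 2 (4 * H ^ 2 * m) := by
  have h1 : (O N m H Ms).card ≤
      (Rich N m H Ms ×ˢ Rich N m H Ms).card * Nat.log 2 (4 * H ^ 2 * m) := by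
    refine Finset.card_biUnion_le_card_mul _ _ _ fun x hx => card_primeFactors_le ?_
    obtain ⟨hx1, hx2⟩ := Finset.mem_product.1 hx
    obtain ⟨a1, a2, a3⟩ := mem_Rich hx1
    obtain ⟨b1, b2, b3⟩ := mem_Rich hx2
    have a2' : |(x.1.1 : ℤ)| ≤ H := by rw [abs_of_nonneg (by positivity)]; exact_mod_cast a2
    have b2' : |(x.2.1 : ℤ)| ≤ H := by rw [abs_of_nonneg (by positivity)]; exact_mod_cast b2
    have h3 : |(x.2.2.2 * x.1.1 - x.1.2.2 * x.2.1 : ℤ)| ≤ 4 * H ^ 2 * m := by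
      calc _ ≤ |x.2.2.2 * (x.1.1 : ℤ)| + |x.1.2.2 * (x.2.1 : ℤ)| := abs_sub _ _
        _ = |x.2.2.2| * |(x.1.1 : ℤ)| + |x.1.2.2| * |(x.2.1 : ℤ)| := by rw [abs_mul, abs_mul]
        _ ≤ (2 * H * m) * H + (2 * H * m) * H := by gcongr
        _ = 4 * H ^ 2 * m := by ring
    have h4 : (((x.2.2.2 * x.1.1 - x.1.2.2 * x.2.1 : ℤ).natAbs : ℕ) : ℤ) ≤
        ((4 * H ^ 2 * m : ℕ) : ℤ) := by
      rw [Int.natCast_natAbs]
      exact_mod_cast h3
    exact_mod_cast h4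
  have h2 := card_Rich N hMs h
  rw [Finset.card_product] at h1
  calc _ ≤ _ := h1
    _ ≤ (3 * H ^ 3) * (3 * H ^ 3) * Nat.log 2 (4 * H ^ 2 * m) := by gcongr
    _ = _ := by ring

theorem transfer {N : ℤ} {m H Ms p₁ p₂ : ℕ} {r r₀ : ℕ × ℤ × ℤ} (hr : r ∈ Rich N m H Ms)
    (hr₀ : r₀ ∈ Rich N m H Ms) (hp₁ : p₁.Prime) (hp₂ : p₂.Prime) (hH : H < p₁)
    (hO : p₂ ∉ O N m H Ms) (h1 : inS N r p₁) (h2 : inS N r p₂) (h0 : inS N r₀ p₂) :
    inS N r₀ p₁ := by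
  unfold inS at *
  have hd : (p₂ : ℤ) ∣ r₀.2.2 * r.1 - r.2.2 * r₀.1 := by
    have : r₀.2.2 * r.1 - r.2.2 * r₀.1 =
        r₀.1 * ((r.1 : ℤ) * N - r.2.2) - r.1 * ((r₀.1 : ℤ) * N - r₀.2.2) := by ring
    rw [this]
    exact dvd_sub (Dvd.dvd.mul_left h2 _) (Dvd.dvd.mul_left h0 _)
  have hz : r₀.2.2 * r.1 - r.2.2 * r₀.1 = 0 := by
    by_contra hne
    refine hO (Finset.mem_biUnion.2 ⟨(r, r₀), Finset.mem_product.2 ⟨hr, hr₀⟩, ?_⟩)
    exact Nat.mem_primeFactors.2 ⟨hp₂, Int.natCast_dvd.1 hd, Int.natAbs_ne_zero.2 hne⟩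
  have h3 : (p₁ : ℤ) ∣ r.1 * ((r₀.1 : ℤ) * N - r₀.2.2) := by
    have : r.1 * ((r₀.1 : ℤ) * N - r₀.2.2) = r₀.1 * ((r.1 : ℤ) * N - r.2.2) := by
      linear_combination -hz
    rw [this]
    exact Dvd.dvd.mul_left h1 _
  rcases (Nat.prime_iff_prime_int.1 hp₁).dvd_or_dvd h3 with h4 | h4
  · obtain ⟨a1, a2, -⟩ := mem_Rich hr
    have := Nat.le_of_dvd a1 (Int.natCast_dvd_natCast.1 h4)
    omega
  · exact h4

end Line

open Classical in
/-- Pairs of primes without common rich line. Let `O` be the set of the primes dividing some non-zero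
`a' v - a v'`, `r, r'` rich (`|a' v - a v'| ≤ 4 H² m`, so `#O ≤ 9 H⁶ log₂ (4 H² m)`). Fix `p₂ ∈ Pr y5 y6`, `p₂ ∉ O`.
If `inS r p₂` and `inS r' p₂` then `p₂ ∣ a' v - a v'`, so `a' v = a v'`, and then `inS r p ↔ inS r' p` for all primes
`p > H` (`v' (v N - a) = v (v' N - a')`). So either no rich line contains `p₂` (all `p₁` count, `hc`), or all
`p₁` foreign to one line `r₀ ∋ p₂` count (`hf`). -/
theorem pairs (N : ℤ) {m H Ms y5 y6 y0 : ℕ} {c0 : ℝ} (hMs : 1 ≤ Ms) (h : m ≤ H * Ms) (hH : H < y5)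
    (h56 : y5 ≤ y6) (h0 : 0 ≤ c0) (hc : c0 ≤ ∑ p ∈ Pr y6 y0, 1 / (p : ℝ))
    (hf : ∀ r ∈ Rich N m H Ms, c0 ≤ fm N r y6 y0) :
    c0 * (∑ p ∈ Pr y5 y6, 1 / (p : ℝ) - 9 * (H : ℝ) ^ 6 * (Nat.log 2 (4 * H ^ 2 * m) + 1) / y5) ≤
      ∑ a ∈ (Pr y6 y0 ×ˢ Pr y5 y6).filter
        (fun a => ¬ ∃ r ∈ Rich N m H Ms, inS N r a.1 ∧ inS N r a.2), 1 / ((a.1 : ℝ) * a.2) := by
  have hy5 : (0 : ℝ) < y5 := by exact_mod_cast (Nat.zero_le H).trans_lt hH
  have mem : ∀ {w y p : ℕ}, p ∈ Pr w y → w ≤ p ∧ p.Prime := fun hp =>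
    ⟨(Finset.mem_Ico.1 (Finset.mem_filter.1 hp).1).1, (Finset.mem_filter.1 hp).2⟩
  -- the inner sums
  have inner : ∀ p₂ ∈ Pr y5 y6, p₂ ∉ Line.O N m H Ms → c0 ≤ ∑ p₁ ∈ (Pr y6 y0).filter
      (fun p₁ => ¬ ∃ r ∈ Rich N m H Ms, inS N r p₁ ∧ inS N r p₂), 1 / (p₁ : ℝ) := by
    intro p₂ hp₂ hO
    by_cases hex : ∃ r₀ ∈ Rich N m H Ms, inS N r₀ p₂
    · obtain ⟨r₀, hr₀, h2⟩ := hex
      refine (hf r₀ hr₀).trans (Finset.sum_le_sum_of_subset_of_nonneg ?_ fun _ _ _ => by positivity)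
      intro p₁ hp₁
      obtain ⟨a1, a2⟩ := Finset.mem_filter.1 hp₁
      refine Finset.mem_filter.2 ⟨a1, ?_⟩
      rintro ⟨r, hr, b1, b2⟩
      exact a2 (Line.transfer hr hr₀ (mem a1).2 (mem hp₂).2
        (hH.trans_le (h56.trans (mem a1).1)) hO b1 b2 h2)
    · rw [Finset.filter_true_of_mem]
      · exact hc
      · rintro p₁ - ⟨r, hr, -, b2⟩
        exact hex ⟨r, hr, b2⟩
  have e1 : ∑ a ∈ (Pr y6 y0 ×ˢ Pr y5 y6).filter
        (fun a => ¬ ∃ r ∈ Rich N m H Ms, inS N r a.1 ∧ inS N r a.2), 1 / ((a.1 : ℝ) * a.2) =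
      ∑ p₂ ∈ Pr y5 y6, (∑ p₁ ∈ (Pr y6 y0).filter
        (fun p₁ => ¬ ∃ r ∈ Rich N m H Ms, inS N r p₁ ∧ inS N r p₂), 1 / (p₁ : ℝ)) * (1 / p₂) := by
    rw [Finset.sum_filter, Finset.sum_product_right]
    refine Finset.sum_congr rfl fun p₂ _ => ?_
    rw [Finset.sum_mul, Finset.sum_filter]
    refine Finset.sum_congr rfl fun p₁ _ => ?_
    split_ifs
    · rfl
    · rw [one_div_mul_one_div]
  have e2 : ∑ p ∈ (Pr y5 y6).filter (fun p => p ∈ Line.O N m H Ms), 1 / (p : ℝ) ≤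
      9 * (H : ℝ) ^ 6 * (Nat.log 2 (4 * H ^ 2 * m) + 1) / y5 := by
    have h1 : ∑ p ∈ (Pr y5 y6).filter (fun p => p ∈ Line.O N m H Ms), 1 / (p : ℝ) ≤
        ((Pr y5 y6).filter (fun p => p ∈ Line.O N m H Ms)).card • (1 / (y5 : ℝ)) := by
      refine Finset.sum_le_card_nsmul _ _ _ fun p hp => ?_
      have : (y5 : ℝ) ≤ p := by exact_mod_cast (mem (Finset.mem_filter.1 hp).1).1
      exact one_div_le_one_div_of_le hy5 this
    have h2 : ((Pr y5 y6).filter (fun p => p ∈ Line.O N m H Ms)).card ≤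
        9 * H ^ 6 * Nat.log 2 (4 * H ^ 2 * m) :=
      (Finset.card_le_card fun p hp => (Finset.mem_filter.1 hp).2).trans (Line.card_O N hMs h)
    have h3 : (((Pr y5 y6).filter (fun p => p ∈ Line.O N m H Ms)).card : ℝ) ≤
        9 * (H : ℝ) ^ 6 * (Nat.log 2 (4 * H ^ 2 * m) + 1) := by
      have : (((Pr y5 y6).filter (fun p => p ∈ Line.O N m H Ms)).card : ℝ) ≤
          9 * (H : ℝ) ^ 6 * Nat.log 2 (4 * H ^ 2 * m) := by exact_mod_cast h2
      have h4 : (0 : ℝ) ≤ 9 * (H : ℝ) ^ 6 := by positivity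
      nlinarith
    rw [nsmul_eq_mul, mul_one_div] at h1
    exact h1.trans (div_le_div_of_nonneg_right h3 hy5.le)
  have e3 := Finset.sum_filter_add_sum_filter_not (Pr y5 y6) (fun p => p ∈ Line.O N m H Ms)
    (fun p => 1 / (p : ℝ))
  rw [e1]
  calc _ ≤ c0 * ∑ p ∈ (Pr y5 y6).filter (fun p => ¬ p ∈ Line.O N m H Ms), 1 / (p : ℝ) :=
        mul_le_mul_of_nonneg_left (by linarith) h0
    _ = ∑ p ∈ (Pr y5 y6).filter (fun p => ¬ p ∈ Line.O N m H Ms), c0 * (1 / (p : ℝ)) :=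
        Finset.mul_sum _ _ _
    _ ≤ ∑ p₂ ∈ (Pr y5 y6).filter (fun p => ¬ p ∈ Line.O N m H Ms), (∑ p₁ ∈ (Pr y6 y0).filter
        (fun p₁ => ¬ ∃ r ∈ Rich N m H Ms, inS N r p₁ ∧ inS N r p₂), 1 / (p₁ : ℝ)) * (1 / p₂) := by
        refine Finset.sum_le_sum fun p hp => ?_
        obtain ⟨a1, a2⟩ := Finset.mem_filter.1 hp
        exact mul_le_mul_of_nonneg_right (inner p a1 a2) (by positivity)
    _ ≤ _ := Finset.sum_le_sum_of_subset_of_nonneg (Finset.filter_subset _ _) fun p _ _ =>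
        mul_nonneg (Finset.sum_nonneg fun _ _ => by positivity) (by positivity)

end Crest.Agent.R1
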