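import Crest.Agent.R1.Sel
import Crest.Agent.R1.Line
import Crest.Agent.R1.ChainB

/-! Row 1: reindexing of the eligible chains. -/

set_option autoImplicit false

namespace Crest.Agent.R1
open Finset MeasureTheory Filter

namespace Par
variable (Q : Par)

open Classical in
/-- the sets `g ∪ e`, `g` eligible -/
noncomputable def SS : Finset (Finset ℕ) := (Pr 2 Q.y0).powerset.filter fun S =>
  S.filter (Q.w0 ≤ ·) ∈ Q.C1.filter Q.elig ∧ S.filter (· < Q.w0) ∈ Q.C2 (S.filter (Q.w0 ≤ ·))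

/-- the part of the conditions seen by the primes `≥ w2` -/
def top (g0 : Finset ℕ) : Prop :=
  g0 ∈ Ch 0 Q.D0 Q.w2 Q.y0 ∧ ¬ Q.pure g0 ∧ Q.D0 / pd g0 < Q.w2 ^ Q.σ2

/-- the part of the conditions seen by the primes `< w2`, from the state `(ε, X)` -/
def bot (ε X : ℕ) (S1 : Finset ℕ) : Prop :=
  S1.filter (Q.w0 ≤ ·) ∈ Ch ε X Q.w0 Q.w2 ∧ (∀ i ≤ Q.s, ∃ p ∈ S1, p ∈ win Q.Wn i) ∧
    X / pd (S1.filter (Q.w0 ≤ ·)) < Q.w0 ^ Q.σ1 ∧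
    S1.filter (· < Q.w0) ∈ Ch (ε + (S1.filter (Q.w0 ≤ ·)).card)
      ((Q.w0 * (X / pd (S1.filter (Q.w0 ≤ ·))) : ℕ) : ℝ) 2 Q.w0

end Par

namespace Asm3a

theorem filter_lt {w w' y : ℕ} {s1 s2 : Finset ℕ} (hs1 : s1 ⊆ Pr w' y) (hs2 : s2 ⊆ Pr w w') :
    (s1 ∪ s2).filter (· < w') = s2 := by
  rw [filter_union, filter_false_of_mem (s := s1) fun p hp => (mem_Pr.1 (hs1 hp)).1.not_gt,
    filter_true_of_mem (s := s2) fun p hp => (mem_Pr.1 (hs2 hp)).2.1, empty_union]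

theorem split (S : Finset ℕ) (w : ℕ) : S.filter (w ≤ ·) ∪ S.filter (· < w) = S := by
  ext p
  simp only [mem_union, mem_filter]
  constructor
  · rintro (h | h) <;> exact h.1
  · intro h
    rcases le_or_gt w p with h' | h'
    · exact Or.inl ⟨h, h'⟩
    · exact Or.inr ⟨h, h'⟩

theorem w02 {Q : Par} (ho : Q.Ord) : Q.w0 ≤ Q.w2 := ho.w1.trans (ho.mono (Nat.zero_le _))

theorem w2y {Q : Par} (ho : Q.Ord) : Q.w2 ≤ Q.y0 := ho.w2.trans ho.w3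

theorem mem_SS' (Q : Par) {S : Finset ℕ} : S ∈ Q.SS ↔ S ⊆ Pr 2 Q.y0 ∧
    (S.filter (Q.w0 ≤ ·) ∈ Q.C1 ∧ Q.elig (S.filter (Q.w0 ≤ ·))) ∧
      S.filter (· < Q.w0) ∈ Q.C2 (S.filter (Q.w0 ≤ ·)) := by
  classical
  unfold Par.SS
  rw [mem_filter, mem_powerset, mem_filter]

theorem C2_eq (Q : Par) {g : Finset ℕ} (h : Q.elig g) :
    Q.C2 g = Ch g.card ((Q.w0 * (Q.D0 / pd g) : ℕ) : ℝ) 2 Q.w0 := by
  unfold Par.C2 Par.lev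
  rw [if_pos h]

end Asm3a

open Classical in
/-- `(g, e) ↦ g ∪ e` is a bijection (`filter_union_eq`, `pd_union`) -/
theorem sum_SS (Q : Par) (ho : Q.Ord) (F : ℕ → ℝ) :
    ∑ g ∈ Q.C1.filter Q.elig, ∑ e ∈ Q.C2 g, (-1 : ℝ) ^ (g.card + e.card) * F (pd g * pd e) =
      ∑ S ∈ Q.SS, (-1 : ℝ) ^ S.card * F (pd S) := by
  have hw : Q.w0 ≤ Q.y0 := (Asm3a.w02 ho).trans (Asm3a.w2y ho)
  have key : ∀ a ∈ (Q.C1.filter Q.elig).sigma Q.C2, a.1 ⊆ Pr Q.w0 Q.y0 ∧ a.2 ⊆ Pr 2 Q.w0 :=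
    fun a ha => ⟨(mem_Ch.1 (mem_filter.1 (mem_sigma.1 ha).1).1).1, (mem_Ch.1 (mem_sigma.1 ha).2).1⟩
  rw [sum_sigma']
  refine sum_bij (fun a _ => a.1 ∪ a.2) ?_ ?_ ?_ ?_
  · intro a ha
    obtain ⟨h1, h2⟩ := key a ha
    rw [Asm3a.mem_SS', (filter_union_eq h1 h2).1, Asm3a.filter_lt h1 h2]
    refine ⟨union_subset (fun p hp => ?_) fun p hp => ?_, mem_filter.1 (mem_sigma.1 ha).1,
      (mem_sigma.1 ha).2⟩
    · exact mem_Pr.2 ⟨ho.w0.trans (mem_Pr.1 (h1 hp)).1, (mem_Pr.1 (h1 hp)).2⟩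
    · exact mem_Pr.2 ⟨(mem_Pr.1 (h2 hp)).1, (mem_Pr.1 (h2 hp)).2.1.trans_le hw,
        (mem_Pr.1 (h2 hp)).2.2⟩
  · rintro ⟨g, e⟩ ha ⟨g', e'⟩ ha' h
    obtain ⟨h1, h2⟩ := key _ ha
    obtain ⟨h1', h2'⟩ := key _ ha'
    have e1 : g = g' := (filter_union_eq h1 h2).1.symm.trans
      ((congrArg (filter (Q.w0 ≤ ·)) h).trans (filter_union_eq h1' h2').1)
    have e2 : e = e' := (Asm3a.filter_lt h1 h2).symm.trans
      ((congrArg (filter (· < Q.w0)) h).trans (Asm3a.filter_lt h1' h2'))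
    subst e1 e2
    rfl
  · intro S hS
    obtain ⟨-, h1, h2⟩ := (Asm3a.mem_SS' Q).1 hS
    exact ⟨⟨S.filter (Q.w0 ≤ ·), S.filter (· < Q.w0)⟩, mem_sigma.2 ⟨mem_filter.2 h1, h2⟩,
      Asm3a.split S Q.w0⟩
  · intro a ha
    obtain ⟨h1, h2⟩ := key a ha
    rw [card_union_of_disjoint (filter_union_eq h1 h2).2, pd_union (filter_union_eq h1 h2).2]

/-- `pd e ≤ lev g = w0 ⌊D0 / pd g⌋` (`valid_base`, `pd_le`) -/
theorem SS_le (Q : Par) (ho : Q.Ord) {S : Finset ℕ} (hS : S ∈ Q.SS) : pd S ≤ Q.w0 * Q.D0 := by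
  obtain ⟨-, ⟨h1, h2⟩, h3⟩ := (Asm3a.mem_SS' Q).1 hS
  rw [Asm3a.C2_eq Q h2] at h3
  set g := S.filter (Q.w0 ≤ ·) with hg
  set e := S.filter (· < Q.w0) with he
  have hw : Q.w0 ≤ Q.y0 := (Asm3a.w02 ho).trans (Asm3a.w2y ho)
  have hy : 2 ≤ Q.y0 := ho.w0.trans hw
  have hv : valid 0 (Q.D0 : ℝ) Q.y0 := by
    refine ⟨hy, ?_, fun _ => by exact_mod_cast ho.v1⟩
    have : Q.y0 ≤ Q.D0 := (Nat.le_self_pow two_ne_zero _).trans ho.v1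
    exact_mod_cast this
  have hsub : g ⊆ Pr Q.w0 Q.y0 := (mem_Ch.1 h1).1
  have h0 : 0 < pd g := pd_pos fun p hp => (mem_Pr.1 (hsub hp)).2.2
  have h4 := (valid_base hv h1 ho.w0 hw fun p hp => (mem_Pr.1 (hsub hp)).1).2.1
  rw [le_div_iff₀ (Nat.cast_pos.2 h0)] at h4
  have h5 : Q.w0 ≤ Q.D0 / pd g := (Nat.le_div_iff_mul_le h0).2 (by exact_mod_cast h4)
  have h6 : Q.w0 ^ 2 ≤ Q.w0 * (Q.D0 / pd g) := by
    rw [sq]
    exact Nat.mul_le_mul_left _ h5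
  have hv' : valid g.card ((Q.w0 * (Q.D0 / pd g) : ℕ) : ℝ) Q.w0 := by
    refine ⟨ho.w0, ?_, fun _ => by exact_mod_cast h6⟩
    have : Q.w0 ≤ Q.w0 * (Q.D0 / pd g) := (Nat.le_self_pow two_ne_zero _).trans h6
    exact_mod_cast this
  have h7 : pd e ≤ Q.w0 * (Q.D0 / pd g) := by exact_mod_cast pd_le hv' h3
  rw [← Asm3a.split S Q.w0, pd_union (filter_union_eq hsub (mem_Ch.1 h3).1).2]
  calc pd g * pd e ≤ pd g * (Q.w0 * (Q.D0 / pd g)) := Nat.mul_le_mul_left _ h7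
    _ = Q.w0 * (pd g * (Q.D0 / pd g)) := by ring
    _ ≤ Q.w0 * Q.D0 := Nat.mul_le_mul_left _ (Nat.mul_div_le _ _)

/-- `union_mem_Ch` at the scale `w2`, `Ch_natdiv`, `Ch_parity`, `Nat.div_div_eq_div_mul`; purity only sees the
primes `≥ y5 ≥ w2`; the windows lie in `[w0, w2)`. -/
theorem mem_SS (Q : Par) (ho : Q.Ord) {S : Finset ℕ} (hS : S ⊆ Pr 2 Q.y0) :
    S ∈ Q.SS ↔ Q.top (S.filter (Q.w2 ≤ ·)) ∧
      Q.bot ((S.filter (Q.w2 ≤ ·)).card % 2) (Q.D0 / pd (S.filter (Q.w2 ≤ ·))) (S.filter (· < Q.w2)) := by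
  have h02 := Asm3a.w02 ho
  have h2y := Asm3a.w2y ho
  set g0 := S.filter (Q.w2 ≤ ·) with hg0
  set S1 := S.filter (· < Q.w2) with hS1
  set g1 := S1.filter (Q.w0 ≤ ·) with hg1
  have s0 : g0 ⊆ Pr Q.w2 Q.y0 := fun p hp =>
    mem_Pr.2 ⟨(mem_filter.1 hp).2, (mem_Pr.1 (hS (mem_filter.1 hp).1)).2⟩
  have s1 : g1 ⊆ Pr Q.w0 Q.w2 := fun p hp =>
    mem_Pr.2 ⟨(mem_filter.1 hp).2, (mem_filter.1 (mem_filter.1 hp).1).2,
      (mem_Pr.1 (hS (mem_filter.1 (mem_filter.1 hp).1).1)).2.2⟩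
  have hg : S.filter (Q.w0 ≤ ·) = g0 ∪ g1 := by
    ext p
    simp only [hg0, hg1, hS1, mem_union, mem_filter]
    constructor
    · rintro ⟨h1, h2⟩
      rcases le_or_gt Q.w2 p with h | h
      · exact Or.inl ⟨h1, h⟩
      · exact Or.inr ⟨⟨h1, h⟩, h2⟩
    · rintro (⟨h1, h2⟩ | ⟨⟨h1, -⟩, h2⟩)
      · exact ⟨h1, h02.trans h2⟩
      · exact ⟨h1, h2⟩
  have he : S.filter (· < Q.w0) = S1.filter (· < Q.w0) := by
    ext p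
    simp only [hS1, mem_filter]
    exact ⟨fun h => ⟨⟨h.1, h.2.trans_le h02⟩, h.2⟩, fun h => ⟨h.1.1, h.2⟩⟩
  obtain ⟨hf, hd⟩ := filter_union_eq s0 s1
  have h0 : 0 < pd g0 := pd_pos fun p hp => (mem_Pr.1 (s0 hp)).2.2
  have hdiv : Q.D0 / pd (g0 ∪ g1) = Q.D0 / pd g0 / pd g1 := by
    rw [pd_union hd, Nat.div_div_eq_div_mul]
  have hC1 : g0 ∪ g1 ∈ Q.C1 ↔ g0 ∈ Ch 0 Q.D0 Q.w2 Q.y0 ∧
      g1 ∈ Ch (g0.card % 2) ((Q.D0 / pd g0 : ℕ) : ℝ) Q.w0 Q.w2 := by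
    unfold Par.C1
    rw [union_mem_Ch h02 h2y s0 s1, Ch_natdiv _ _ _ _ _ h0,
      Ch_parity (e := 0 + g0.card) (e' := g0.card % 2) (by omega)]
  have hpure : Q.pure (g0 ∪ g1) ↔ Q.pure g0 := by
    refine exists_congr fun r => and_congr_right fun _ =>
      ⟨fun h p hp => h p (mem_union_left _ hp), fun h p hp h5 => ?_⟩
    rcases mem_union.1 hp with hp | hp
    · exact h p hp h5
    · exact absurd (ho.w2.trans h5) (mem_Pr.1 (s1 hp)).2.1.not_ge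
  have hwin : (∀ i ≤ Q.s, ∃ p ∈ g0 ∪ g1, p ∈ win Q.Wn i) ↔ ∀ i ≤ Q.s, ∃ p ∈ S1, p ∈ win Q.Wn i := by
    refine forall₂_congr fun i hi => exists_congr fun p => and_congr_left fun hp => ?_
    have h1 : Q.w0 ≤ p := (ho.w1.trans (ho.mono (Nat.zero_le i))).trans (mem_Pr.1 hp).1
    have h2 : p < Q.w2 := (mem_Pr.1 hp).2.1.trans_le (ho.mono (Nat.succ_le_succ hi))
    rw [← hg, hS1, mem_filter, mem_filter]
    exact ⟨fun h => ⟨h.1, h2⟩, fun h => ⟨h.1, h1⟩⟩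
  have hel : Q.elig (g0 ∪ g1) ↔ ¬ Q.pure g0 ∧ Q.D0 / pd g0 < Q.w2 ^ Q.σ2 ∧
      (∀ i ≤ Q.s, ∃ p ∈ S1, p ∈ win Q.Wn i) ∧ Q.D0 / pd g0 / pd g1 < Q.w0 ^ Q.σ1 := by
    unfold Par.elig
    rw [hpure, hf, hwin, hdiv]
  have hC2 : Q.elig (g0 ∪ g1) → Q.C2 (g0 ∪ g1) = Ch (g0.card % 2 + g1.card)
      ((Q.w0 * (Q.D0 / pd g0 / pd g1) : ℕ) : ℝ) 2 Q.w0 := fun h => by
    rw [Asm3a.C2_eq Q h, hdiv, card_union_of_disjoint hd,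
      Ch_parity (e := g0.card + g1.card) (e' := g0.card % 2 + g1.card) (by omega)]
  rw [Asm3a.mem_SS', hg, he, hC1]
  unfold Par.top Par.bot
  constructor
  · rintro ⟨-, ⟨⟨a1, a2⟩, a3⟩, a4⟩
    rw [hC2 a3] at a4
    obtain ⟨b1, b2, b3, b4⟩ := hel.1 a3
    exact ⟨⟨a1, b1, b2⟩, a2, b3, b4, a4⟩
  · rintro ⟨⟨a1, b1, b2⟩, a2, b3, b4, a4⟩
    have a3 := hel.2 ⟨b1, b2, b3, b4⟩
    exact ⟨hS, ⟨⟨a1, a2⟩, a3⟩, by rw [hC2 a3]; exact a4⟩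

namespace Asm3aR

/-- the selection condition -/
def cond (Q : Par) (T : Finset ℕ) (p : ℕ) (τ : Fin Q.s → ℕ) : Prop :=
  below Q.Wn T p τ ∧ ext T p τ ∈ Q.SS

open Classical in
noncomputable def TT (Q : Par) : Finset (Finset ℕ) :=
  (Pr 2 Q.y0).powerset.filter fun T => ∃ p ∈ win Q.Wn 0, ∃ τ ∈ tup Q.Wn Q.s, cond Q T p τ

noncomputable def th (Q : Par) (G : ℕ) : ℕ × ℕ × ℕ :=
  ((G.primeFactors.filter (Q.w2 ≤ ·)).card % 2, Q.D0 / pd (G.primeFactors.filter (Q.w2 ≤ ·)),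
    pd (G.primeFactors.filter (· < Q.w2)))

open Classical in
noncomputable def bb (Q : Par) (a : ℕ × ℕ × ℕ) (p : ℕ) (τ : Fin Q.s → ℕ) : ℝ :=
  if below Q.Wn a.2.2.primeFactors p τ ∧ Q.bot a.1 a.2.1 (ext a.2.2.primeFactors p τ) then
    (-1 : ℝ) ^ (a.1 + (ext a.2.2.primeFactors p τ).card) else 0

variable {Q : Par}

theorem win_lt (ho : Q.Ord) {i l : ℕ} (hi : i ≤ Q.s) (hl : l ∈ win Q.Wn i) : l < Q.w2 :=
  (mem_Pr.1 hl).2.1.trans_le (ho.mono (Nat.succ_le_succ hi))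

theorem tup_mem {τ : Fin Q.s → ℕ} (hτ : τ ∈ tup Q.Wn Q.s) (i : Fin Q.s) :
    τ i ∈ win Q.Wn (i + 1) := Fintype.mem_piFinset.1 hτ i

theorem mem_ext {s : ℕ} {T : Finset ℕ} {p l : ℕ} {τ : Fin s → ℕ} :
    l ∈ ext T p τ ↔ l = p ∨ l ∈ T ∨ ∃ i, τ i = l := by
  simp [ext]

theorem ext_top (ho : Q.Ord) (T : Finset ℕ) {p : ℕ} {τ : Fin Q.s → ℕ} (hp : p ∈ win Q.Wn 0)
    (hτ : τ ∈ tup Q.Wn Q.s) : (ext T p τ).filter (Q.w2 ≤ ·) = T.filter (Q.w2 ≤ ·) := by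
  ext l
  simp only [mem_filter, mem_ext]
  constructor
  · rintro ⟨rfl | h | ⟨i, rfl⟩, h2⟩
    · exact absurd (win_lt ho (Nat.zero_le _) hp) h2.not_gt
    · exact ⟨h, h2⟩
    · exact absurd (win_lt ho i.2 (tup_mem hτ i)) h2.not_gt
  · exact fun h => ⟨Or.inr (Or.inl h.1), h.2⟩

theorem ext_bot (ho : Q.Ord) (T : Finset ℕ) {p : ℕ} {τ : Fin Q.s → ℕ} (hp : p ∈ win Q.Wn 0)
    (hτ : τ ∈ tup Q.Wn Q.s) : (ext T p τ).filter (· < Q.w2) = ext (T.filter (· < Q.w2)) p τ := by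
  ext l
  simp only [mem_filter, mem_ext]
  constructor
  · rintro ⟨h | h | h, h2⟩
    · exact Or.inl h
    · exact Or.inr (Or.inl ⟨h, h2⟩)
    · exact Or.inr (Or.inr h)
  · rintro (rfl | h | ⟨i, rfl⟩)
    · exact ⟨Or.inl rfl, win_lt ho (Nat.zero_le _) hp⟩
    · exact ⟨Or.inr (Or.inl h.1), h.2⟩
    · exact ⟨Or.inr (Or.inr ⟨i, rfl⟩), win_lt ho i.2 (tup_mem hτ i)⟩

theorem below_iff (ho : Q.Ord) (T : Finset ℕ) (p : ℕ) (τ : Fin Q.s → ℕ) :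
    below Q.Wn (T.filter (· < Q.w2)) p τ ↔ below Q.Wn T p τ := by
  constructor
  · rintro ⟨h1, h2⟩
    exact ⟨fun l hl hw => h1 l (mem_filter.2 ⟨hl, win_lt ho (Nat.zero_le _) hw⟩) hw,
      fun i l hl hw => h2 i l (mem_filter.2 ⟨hl, win_lt ho i.2 hw⟩) hw⟩
  · rintro ⟨h1, h2⟩
    exact ⟨fun l hl hw => h1 l (mem_filter.1 hl).1 hw, fun i l hl hw => h2 i l (mem_filter.1 hl).1 hw⟩

theorem ext_sub (ho : Q.Ord) {T : Finset ℕ} (hT : T ⊆ Pr 2 Q.y0) {p : ℕ} {τ : Fin Q.s → ℕ}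
    (hp : p ∈ win Q.Wn 0) (hτ : τ ∈ tup Q.Wn Q.s) : ext T p τ ⊆ Pr 2 Q.y0 := by
  have key : ∀ i ≤ Q.s, ∀ l ∈ win Q.Wn i, l ∈ Pr 2 Q.y0 := fun i hi l hl =>
    mem_Pr.2 ⟨(mem_Pr.1 hl).2.2.two_le, (win_lt ho hi hl).trans_le (ho.w2.trans ho.w3),
      (mem_Pr.1 hl).2.2⟩
  intro l hl
  rcases mem_ext.1 hl with rfl | h | ⟨i, rfl⟩
  · exact key 0 (Nat.zero_le _) _ hp
  · exact hT h
  · exact key _ i.2 _ (tup_mem hτ i)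

theorem prime_of {T : Finset ℕ} {w y : ℕ} (hT : T ⊆ Pr w y) : ∀ l ∈ T, l.Prime :=
  fun _ hl => (mem_Pr.1 (hT hl)).2.2

theorem cond_iff (ho : Q.Ord) {T : Finset ℕ} (hT : T ⊆ Pr 2 Q.y0) {p : ℕ} {τ : Fin Q.s → ℕ}
    (hp : p ∈ win Q.Wn 0) (hτ : τ ∈ tup Q.Wn Q.s) :
    cond Q T p τ ↔ Q.top (T.filter (Q.w2 ≤ ·)) ∧ below Q.Wn (T.filter (· < Q.w2)) p τ ∧
      Q.bot ((T.filter (Q.w2 ≤ ·)).card % 2) (Q.D0 / pd (T.filter (Q.w2 ≤ ·)))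
        (ext (T.filter (· < Q.w2)) p τ) := by
  rw [cond, mem_SS Q ho (ext_sub ho hT hp hτ), ext_top ho T hp hτ, ext_bot ho T hp hτ, below_iff ho]
  tauto

theorem mem_TT {T : Finset ℕ} :
    T ∈ TT Q ↔ T ⊆ Pr 2 Q.y0 ∧ ∃ p ∈ win Q.Wn 0, ∃ τ ∈ tup Q.Wn Q.s, cond Q T p τ := by
  classical
  rw [TT, mem_filter, mem_powerset]

theorem top_of (ho : Q.Ord) {T : Finset ℕ} (hT : T ∈ TT Q) : Q.top (T.filter (Q.w2 ≤ ·)) := by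
  obtain ⟨h, p, hp, τ, hτ, hc⟩ := mem_TT.1 hT
  exact ((cond_iff ho h hp hτ).1 hc).1

theorem th_pd {T : Finset ℕ} (hT : T ⊆ Pr 2 Q.y0) :
    th Q (pd T) = ((T.filter (Q.w2 ≤ ·)).card % 2, Q.D0 / pd (T.filter (Q.w2 ≤ ·)),
      pd (T.filter (· < Q.w2))) := by
  rw [th, primeFactors_pd (prime_of hT)]

open Classical in
theorem bb_eq (ho : Q.Ord) {T : Finset ℕ} (hT : T ∈ TT Q) {p : ℕ} {τ : Fin Q.s → ℕ}
    (hp : p ∈ win Q.Wn 0) (hτ : τ ∈ tup Q.Wn Q.s) :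
    bb Q (th Q (pd T)) p τ = if cond Q T p τ then (-1 : ℝ) ^ (ext T p τ).card else 0 := by
  have h := (mem_TT.1 hT).1
  have h1 : (pd (T.filter (· < Q.w2))).primeFactors = T.filter (· < Q.w2) :=
    primeFactors_pd fun l hl => prime_of h l (mem_filter.1 hl).1
  have hc : (ext T p τ).card =
      (T.filter (Q.w2 ≤ ·)).card + (ext (T.filter (· < Q.w2)) p τ).card := by
    rw [← ext_top ho T hp hτ, ← ext_bot ho T hp hτ,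
      ← card_filter_add_card_filter_not (s := ext T p τ) (Q.w2 ≤ ·)]
    simp only [not_le]
  rw [th_pd h, bb]
  simp only [h1]
  rw [cond_iff ho h hp hτ, and_iff_right (top_of ho hT), hc]
  split_ifs
  · rw [pow_add, pow_add, ← neg_one_pow_eq_pow_mod_two]
  · rfl

theorem pd_ext_le (ho : Q.Ord) {T : Finset ℕ} (hT : T ⊆ Pr 2 Q.y0) {p : ℕ} {τ : Fin Q.s → ℕ}
    (hp : p ∈ win Q.Wn 0) (hτ : τ ∈ tup Q.Wn Q.s) (hc : cond Q T p τ) :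
    pd T * (∏ i, τ i) * p ≤ Q.w0 * Q.D0 := by
  rw [← (ext_spec ho.mono (prime_of hT) hp hτ hc.1).1]
  exact SS_le Q ho hc.2

theorem pd_le_D0 (ho : Q.Ord) {T : Finset ℕ} (hT : T ∈ TT Q) : pd T ≤ Q.D0 := by
  obtain ⟨h, p, hp, τ, hτ, hc⟩ := mem_TT.1 hT
  have h1 := pd_ext_le ho h hp hτ hc
  have h2 : 1 ≤ ∏ i, τ i := prod_pos fun i _ => (mem_Pr.1 (tup_mem hτ i)).2.2.pos
  have h3 : Q.w0 ≤ p := ho.w1.trans (mem_Pr.1 hp).1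
  have h4 : Q.w0 * pd T ≤ Q.w0 * Q.D0 := by
    refine le_trans ?_ h1
    rw [mul_comm]
    exact Nat.mul_le_mul (Nat.le_mul_of_pos_right _ h2) h3
  exact Nat.le_of_mul_le_mul_left h4 (by have := ho.w0; omega)

theorem th_mem (ho : Q.Ord) {T : Finset ℕ} (hT : T ∈ TT Q) :
    th Q (pd T) ∈ range 2 ×ˢ range (Q.w2 ^ Q.σ2) ×ˢ range (Q.w2 ^ Q.σ2) := by
  have h := (mem_TT.1 hT).1
  have ht := (top_of ho hT).2.2
  have h0 : 0 < pd (T.filter (Q.w2 ≤ ·)) := pd_pos fun l hl => prime_of h l (mem_filter.1 hl).1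
  have h1 : pd (T.filter (· < Q.w2)) * pd (T.filter (Q.w2 ≤ ·)) = pd T := by
    rw [mul_comm, pd, pd, pd, ← prod_filter_mul_prod_filter_not T (Q.w2 ≤ ·)]
    simp only [not_le]
  rw [th_pd h]
  simp only [mem_product, mem_range]
  refine ⟨Nat.mod_lt _ two_pos, ht, lt_of_le_of_lt ?_ ht⟩
  rw [Nat.le_div_iff_mul_le h0, h1]
  exact pd_le_D0 ho hT

theorem not_onRich (ho : Q.Ord) {T : Finset ℕ} (hT : T ∈ TT Q) :
    ¬ onRich Q.N Q.m Q.H Q.Ms (pd T) := by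
  rintro ⟨r, hr, hL⟩
  have h := (mem_TT.1 hT).1
  exact (top_of ho hT).2.1 ⟨r, hr, fun l hl _ => onL_inS (pd_pos (prime_of h)) hL
    (dvd_prod_of_mem (fun p => p) (mem_filter.1 hl).1)⟩

theorem adm (ho : Q.Ord) {T : Finset ℕ} (hT : T ∈ TT Q) :
    Adm Q.m Q.s Q.Wn Q.w0 (bb Q (th Q (pd T))) (pd T) := by
  classical
  have h := (mem_TT.1 hT).1
  refine ⟨pd_pos (prime_of h), (pd_le_D0 ho hT).trans ho.d, fun p hp τ hτ hb => ?_⟩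
  rw [bb_eq ho hT hp hτ] at hb
  have hc : cond Q T p τ := by
    by_contra hc
    exact hb (if_neg hc)
  refine ⟨(ext_spec ho.mono (prime_of h) hp hτ hc.1).2.2, ?_⟩
  exact_mod_cast (pd_ext_le ho h hp hτ hc).trans (Nat.mul_le_mul_left _ ho.d)

theorem SS_sub : Q.SS ⊆ (Pr 2 Q.y0).powerset := by
  classical
  exact filter_subset _ _

theorem SS_win {S : Finset ℕ} (hS : S ∈ Q.SS) : ∀ i ≤ Q.s, ∃ p ∈ S, p ∈ win Q.Wn i := by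
  classical
  intro i hi
  obtain ⟨p, hp, hw⟩ := (mem_filter.1 (mem_filter.1 hS).2.1).2.2.2.1 i hi
  exact ⟨p, (mem_filter.1 hp).1, hw⟩

open Classical in
theorem sum_TT (ho : Q.Ord) (f : Finset ℕ → ℝ) :
    ∑ S ∈ Q.SS, f S = ∑ T ∈ TT Q, ∑ p ∈ win Q.Wn 0, ∑ τ ∈ tup Q.Wn Q.s,
      if cond Q T p τ then f (ext T p τ) else 0 := by
  rw [sel_sum ho.mono Q.s (Pr 2 Q.y0) Q.SS SS_sub (fun S hS => SS_win hS) f]
  symm
  have h1 : TT Q ⊆ (Pr 2 Q.y0).powerset := fun T hT => mem_powerset.2 (mem_TT.1 hT).1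
  rw [sum_subset h1]
  · refine sum_congr rfl fun T _ => sum_congr rfl fun p _ => sum_congr rfl fun τ _ => ?_
    exact if_congr Iff.rfl rfl rfl
  · intro T hT hn
    refine sum_eq_zero fun p hp => sum_eq_zero fun τ hτ => if_neg fun hc => hn ?_
    exact mem_TT.2 ⟨mem_powerset.1 hT, p, hp, τ, hτ, hc⟩

theorem sum_image_pd {A : Finset (Finset ℕ)} {w y : ℕ} (hA : ∀ T ∈ A, T ⊆ Pr w y) (h : ℕ → ℝ) :
    ∑ G ∈ A.image pd, h G = ∑ T ∈ A, h (pd T) := by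
  refine sum_image fun T hT T' hT' e => ?_
  rw [← primeFactors_pd (prime_of (hA T hT)), e, primeFactors_pd (prime_of (hA T' hT'))]

theorem card_SS (ho : Q.Ord) : Q.SS.card ≤ Q.w0 * Q.D0 := by
  have hA : ∀ S ∈ Q.SS, S ⊆ Pr 2 Q.y0 := fun S hS => mem_powerset.1 (SS_sub hS)
  have h := card_le_card_of_injOn (s := Q.SS) (t := Icc 1 (Q.w0 * Q.D0)) pd
    (fun S hS => mem_coe.2 (mem_Icc.2 ⟨pd_pos (prime_of (hA S hS)), SS_le Q ho hS⟩))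
    (fun T hT T' hT' e => by
      rw [← primeFactors_pd (prime_of (hA T hT)), e, primeFactors_pd (prime_of (hA T' hT'))])
  simpa using h

end Asm3aR

open Classical in
/-- Reindexing. `sum_SS`, `sel_sum` (`U = Pr 2 y0`). Let `𝒯` be the set of `T ⊆ U` with `below T p τ` and
`ext T p τ ∈ SS` for some `p ∈ win 0`, `τ ∈ tup`; `𝒢 = 𝒯.image pd` (`primeFactors_pd`). For `G = pd T`,
`g0 = T.filter (w2 ≤ ·)`, `T1 = T.filter (· < w2)`, put `θ G = (#g0 % 2, D0 / pd g0, pd T1)` and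
`b (ε, X, d) p τ = (-1)^(ε + #(ext T1 p τ))` if `below T1 p τ ∧ bot ε X (ext T1 p τ)` (`T1 = d.primeFactors`), else `0`.
For `T ∈ 𝒯`, `top g0` holds, so by `mem_SS`: `below T p τ ∧ ext T p τ ∈ SS ↔ b (θ G) p τ ≠ 0` (the selected primes are
`< w2`). `pd T · ∏ τ · p ≤ w0 D0` (`ext_spec`, `SS_le`) and `p ≥ w0` give `G ≤ D0 ≤ m` and
`pd g0 · pd T1 ≤ D0`, so `pd T1 ≤ D0 / pd g0 < w2^σ2`. `¬ onRich`: `onL_inS`. The last sum is `#SS ≤ w0 D0`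
(`sel_sum` with `f = 1`). -/
theorem reindex (Q : Par) (ho : Q.Ord) :
    ∃ (b : ℕ × ℕ × ℕ → ℕ → (Fin Q.s → ℕ) → ℝ) (θ : ℕ → ℕ × ℕ × ℕ) (Th : Finset (ℕ × ℕ × ℕ))
      (𝒢 : Finset ℕ), Th.card ≤ 2 * Q.w2 ^ (2 * Q.σ2) ∧ (∀ a p τ, |b a p τ| ≤ 1) ∧ (∀ G ∈ 𝒢, θ G ∈ Th) ∧
      (∀ G ∈ 𝒢, Adm Q.m Q.s Q.Wn Q.w0 (b (θ G)) G ∧ ¬ onRich Q.N Q.m Q.H Q.Ms G) ∧
      (∀ F : ℕ → ℝ, ∑ g ∈ Q.C1.filter Q.elig, ∑ e ∈ Q.C2 g,
          (-1 : ℝ) ^ (g.card + e.card) * F (pd g * pd e) =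
        ∑ G ∈ 𝒢, ∑ p ∈ win Q.Wn 0, ∑ τ ∈ tup Q.Wn Q.s, b (θ G) p τ * F (G * (∏ i, τ i) * p)) ∧
      ∑ G ∈ 𝒢, ∑ p ∈ win Q.Wn 0, ∑ τ ∈ tup Q.Wn Q.s, |b (θ G) p τ| ≤ Q.w0 * Q.D0 := by
  have hA : ∀ T ∈ Asm3aR.TT Q, T ⊆ Pr 2 Q.y0 := fun T hT => (Asm3aR.mem_TT.1 hT).1
  refine ⟨Asm3aR.bb Q, Asm3aR.th Q, range 2 ×ˢ range (Q.w2 ^ Q.σ2) ×ˢ range (Q.w2 ^ Q.σ2),
    (Asm3aR.TT Q).image pd, ?_, ?_, ?_, ?_, ?_, ?_⟩
  · rw [card_product, card_product, card_range, card_range, two_mul Q.σ2, pow_add]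
  · intro a p τ
    unfold Asm3aR.bb
    split_ifs
    · simp
    · simp
  · intro G hG
    obtain ⟨T, hT, rfl⟩ := mem_image.1 hG
    exact Asm3aR.th_mem ho hT
  · intro G hG
    obtain ⟨T, hT, rfl⟩ := mem_image.1 hG
    exact ⟨Asm3aR.adm ho hT, Asm3aR.not_onRich ho hT⟩
  · intro F
    rw [sum_SS Q ho, Asm3aR.sum_TT ho, Asm3aR.sum_image_pd hA]
    refine sum_congr rfl fun T hT => sum_congr rfl fun p hp => sum_congr rfl fun τ hτ => ?_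
    rw [Asm3aR.bb_eq ho hT hp hτ]
    split_ifs with hc
    · rw [(ext_spec ho.mono (Asm3aR.prime_of (hA T hT)) hp hτ hc.1).1]
    · rw [zero_mul]
  · have h := Asm3aR.sum_TT ho fun _ => (1 : ℝ)
    rw [sum_const, nsmul_eq_mul, mul_one] at h
    rw [Asm3aR.sum_image_pd hA]
    refine le_trans (le_of_eq ?_) (h.symm.le.trans (by exact_mod_cast Asm3aR.card_SS ho))
    refine sum_congr rfl fun T hT => sum_congr rfl fun p hp => sum_congr rfl fun τ hτ => ?_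
    rw [Asm3aR.bb_eq ho hT hp hτ]
    split_ifs
    · simp
    · simp

end Crest.Agent.R1
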