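import Crest.Agent.R1.SupB

/-! Row 1: harmonic measure. -/

set_option autoImplicit false

namespace Crest.Agent.R1
open Finset MeasureTheory Filter

namespace HarmA

theorem pd_pos_of_mem {e : ℕ} {X : ℝ} {w y : ℕ} {s : Finset ℕ} (hs : s ∈ Ch e X w y) :
    (0 : ℝ) < pd s := by
  have h1 := (mem_Ch.1 hs).1
  have : 0 < pd s := pd_pos fun p hp => (mem_Pr.1 (h1 hp)).2.2
  exact_mod_cast this

theorem valid_of_mem {e : ℕ} {X : ℝ} {w y : ℕ} (hv : valid e X y) (h2 : 2 ≤ w) (h : w ≤ y)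
    {s : Finset ℕ} (hs : s ∈ Ch e X w y) : valid (e + s.card) (X / pd s) w :=
  valid_base hv hs h2 h fun _ hp => (mem_Pr.1 ((mem_Ch.1 hs).1 hp)).1

theorem hw_nonneg' {e : ℕ} {X : ℝ} {w y : ℕ} (hv : valid e X y) (h2 : 2 ≤ w) (h : w ≤ y)
    {s : Finset ℕ} (hs : s ∈ Ch e X w y) : 0 ≤ hw e X w s :=
  div_nonneg (hh_nonneg (valid_of_mem hv h2 h hs)) (pd_pos_of_mem hs).le

theorem Wf_nonneg {e : ℕ} {X : ℝ} {y : ℕ} (hv : valid e X y) : 0 ≤ Wf e X y :=
  add_nonneg (hh_nonneg hv) (GG_pos hv).le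

theorem log_pos {w : ℕ} (h2 : 2 ≤ w) : 0 < Real.log w := by
  apply Real.log_pos
  have : (2 : ℝ) ≤ w := by exact_mod_cast h2
  linarith

theorem filter_mem {e : ℕ} {X : ℝ} {w w' y : ℕ} {s : Finset ℕ} (hs : s ∈ Ch e X w y) :
    s.filter (w' ≤ ·) ∈ Ch e X w' y := by
  obtain ⟨h1, h2⟩ := mem_Ch.1 hs
  refine mem_Ch.2 ⟨fun p hp => ?_, fun p hp => ?_⟩
  · obtain ⟨hp1, hp2⟩ := mem_filter.1 hp
    obtain ⟨-, h4, h5⟩ := mem_Pr.1 (h1 hp1)
    exact mem_Pr.2 ⟨hp2, h4, h5⟩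
  · obtain ⟨hp1, hp2⟩ := mem_filter.1 hp
    have : (s.filter (w' ≤ ·)).filter (p ≤ ·) = s.filter (p ≤ ·) := by
      ext q
      simp only [mem_filter]
      constructor
      · rintro ⟨⟨a, -⟩, c⟩
        exact ⟨a, c⟩
      · rintro ⟨a, c⟩
        exact ⟨⟨a, hp2.trans c⟩, c⟩
    rw [this]
    exact h2 p hp1

theorem inner_eq (e : ℕ) (X : ℝ) {w w' y : ℕ} {s1 : Finset ℕ} (hs1 : s1 ∈ Ch e X w' y) :
    ∑ s2 ∈ Ch (e + s1.card) (X / pd s1) w w', hw e X w (s1 ∪ s2) =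
      Phi (e + s1.card) (X / pd s1) w w' (fun e X => hh e X w) / pd s1 := by
  unfold Phi
  rw [sum_div]
  refine sum_congr rfl fun s2 hs2 => ?_
  obtain ⟨-, hd⟩ := filter_union_eq (mem_Ch.1 hs1).1 (mem_Ch.1 hs2).1
  unfold hw
  rw [card_union_of_disjoint hd, pd_union hd, Nat.cast_mul, ← add_assoc, div_div, div_div,
    mul_comm (pd s2 : ℝ)]

end HarmA

open Classical in
/-- `sum_Ch_comp` at `w'`, then `phi_hh` for the inner sums and `phi_Wf` for the error terms. -/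
theorem harm0 (hM : MerStmt) : ∃ (K : ℝ) (w1 : ℕ), 0 < K ∧ ∀ (A : Finset ℕ → Prop) (X : ℝ)
    (e w w' y : ℕ), w1 ≤ w → w ≤ w' → w' ≤ y → valid e X y →
    ∑ s ∈ (Ch e X w y).filter (fun s => A (s.filter (w' ≤ ·))), hw e X w s ≤
      ∑ s ∈ (Ch e X w' y).filter A, hw e X w' s + K / Real.log w * Wf e X y := by
  obtain ⟨K1, a1, hK1, h1⟩ := phi_hh hM
  obtain ⟨K2, a2, hK2, h2⟩ := phi_Wf hM
  refine ⟨K1 * K2, max (max a1 a2) 2, mul_pos hK1 hK2, ?_⟩
  intro A X e w w' y hw1 hww hwy hv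
  have ha1 : a1 ≤ w := le_trans (le_trans (le_max_left _ _) (le_max_left _ _)) hw1
  have ha2 : a2 ≤ w := le_trans (le_trans (le_max_right _ _) (le_max_left _ _)) hw1
  have hw2 : 2 ≤ w := le_trans (le_max_right _ _) hw1
  have hlog := HarmA.log_pos hw2
  have hc : 0 ≤ K1 / Real.log w := div_nonneg hK1.le hlog.le
  rw [sum_filter, sum_Ch_comp e X hww hwy, sum_filter]
  have key : ∀ s1 ∈ Ch e X w' y,
      ∑ s2 ∈ Ch (e + s1.card) (X / pd s1) w w',
        (if A ((s1 ∪ s2).filter (w' ≤ ·)) then hw e X w (s1 ∪ s2) else 0) ≤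
      (if A s1 then hw e X w' s1 else 0) +
        K1 / Real.log w * (Wf (e + s1.card) (X / pd s1) w' / pd s1) := by
    intro s1 hs1
    have hv1 := HarmA.valid_of_mem hv (hw2.trans hww) hwy hs1
    have hp := HarmA.pd_pos_of_mem hs1
    have e1 : ∑ s2 ∈ Ch (e + s1.card) (X / pd s1) w w',
        (if A ((s1 ∪ s2).filter (w' ≤ ·)) then hw e X w (s1 ∪ s2) else 0) =
        ∑ s2 ∈ Ch (e + s1.card) (X / pd s1) w w', (if A s1 then hw e X w (s1 ∪ s2) else 0) := by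
      refine sum_congr rfl fun s2 hs2 => ?_
      rw [(filter_union_eq (mem_Ch.1 hs1).1 (mem_Ch.1 hs2).1).1]
    rw [e1]
    by_cases hA : A s1
    · simp only [hA, if_true]
      rw [HarmA.inner_eq e X hs1]
      have h3 := (abs_le.1 (h1 (X / pd s1) (e + s1.card) w w' ha1 hww hv1)).2
      unfold hw
      rw [← mul_div_assoc, ← add_div]
      exact div_le_div_of_nonneg_right (by linarith) hp.le
    · simp only [hA, if_false, sum_const_zero, zero_add]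
      exact mul_nonneg hc (div_nonneg (HarmA.Wf_nonneg hv1) hp.le)
  refine (sum_le_sum key).trans ?_
  rw [sum_add_distrib, ← mul_sum]
  have h4 := h2 X e w' y (ha2.trans hww) hwy hv
  unfold Phi at h4
  have h5 := mul_le_mul_of_nonneg_left h4 hc
  have e2 : K1 / Real.log w * (K2 * Wf e X y) = K1 * K2 / Real.log w * Wf e X y := by ring
  linarith

open Classical in
/-- large `s` at the scale `w'` has small harmonic measure: `harm0`, `hh_le_GG`, `phi_GG` -/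
theorem harm1 (hM : MerStmt) : ∃ (K : ℝ) (w1 : ℕ), 0 < K ∧ ∀ (σ : ℕ) (X : ℝ) (e w w' y : ℕ),
    w1 ≤ w → w ≤ w' → w' ≤ y → valid e X y →
    ∑ s ∈ (Ch e X w y).filter (fun s => (w' : ℝ) ^ σ ≤ X / pd (s.filter (w' ≤ ·))), hw e X w s ≤
      K * (Real.exp (-(σ : ℝ) / 2) + 1 / Real.log w) * Wf e X y := by
  obtain ⟨K1, a1, hK1, h1⟩ := harm0 hM
  obtain ⟨K2, a2, hK2, h2⟩ := phi_GG hM
  obtain ⟨K3, hK3, h3⟩ := hh_le_GG
  refine ⟨K1 + K3 * (K2 + 4), max (max a1 a2) 2, by positivity, ?_⟩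
  intro σ X e w w' y hw1 hww hwy hv
  have ha1 : a1 ≤ w := le_trans (le_trans (le_max_left _ _) (le_max_left _ _)) hw1
  have ha2 : a2 ≤ w := le_trans (le_trans (le_max_right _ _) (le_max_left _ _)) hw1
  have hw2 : 2 ≤ w := le_trans (le_max_right _ _) hw1
  have hlog := HarmA.log_pos hw2
  have h4 := h1 (fun s => (w' : ℝ) ^ σ ≤ X / pd s) X e w w' y ha1 hww hwy hv
  have hE := Real.exp_pos (-(σ : ℝ) / 2)
  have h5 : ∑ s ∈ (Ch e X w' y).filter (fun s => (w' : ℝ) ^ σ ≤ X / pd s), hw e X w' s ≤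
      K3 * Real.exp (-(σ : ℝ) / 2) * Phi e X w' y (fun _ X => GG X w') := by
    unfold Phi
    rw [mul_sum, sum_filter]
    refine sum_le_sum fun s hs => ?_
    have hv1 := HarmA.valid_of_mem hv (hw2.trans hww) hwy hs
    have hp := HarmA.pd_pos_of_mem hs
    split_ifs with hA
    · unfold hw
      rw [← mul_div_assoc]
      exact div_le_div_of_nonneg_right (h3 σ _ _ _ hv1 hA) hp.le
    · exact mul_nonneg (mul_nonneg hK3.le hE.le) (div_nonneg (GG_pos hv1).le hp.le)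
  have h6 := h2 X e w' y (ha2.trans hww) hwy hv
  have hhh := hh_nonneg hv
  have hG := GG_pos hv
  have hlw : Real.log w' / Real.log y ≤ 1 := by
    have hy := HarmA.log_pos (hw2.trans (hww.trans hwy))
    rw [div_le_one hy]
    have h0 : (0 : ℝ) < w' := by
      have : 0 < w' := by omega
      exact_mod_cast this
    exact Real.log_le_log h0 (by exact_mod_cast hwy)
  have h7 : Phi e X w' y (fun _ X => GG X w') ≤ (K2 + 4) * Wf e X y := by
    unfold Wf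
    have : Real.log w' / Real.log y * GG X y ≤ GG X y := by
      calc _ ≤ 1 * GG X y := mul_le_mul_of_nonneg_right hlw hG.le
        _ = _ := one_mul _
    nlinarith [mul_nonneg hK2.le hG.le]
  have h8 := mul_le_mul_of_nonneg_left h7 (mul_nonneg hK3.le hE.le)
  have hW := HarmA.Wf_nonneg hv
  have hL : 0 < 1 / Real.log w := by positivity
  have e1 : K1 / Real.log w * Wf e X y = K1 * (1 / Real.log w * Wf e X y) := by ring
  have p1 : 0 ≤ K1 * (Real.exp (-(σ : ℝ) / 2) * Wf e X y) := by positivity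
  have p2 : 0 ≤ K3 * (K2 + 4) * (1 / Real.log w * Wf e X y) := by positivity
  refine le_trans (le_of_eq ?_) (h4.trans ?_)
  · congr
  · have e2 : ∑ s ∈ @filter _ (fun s => (w' : ℝ) ^ σ ≤ X / pd s)
        (fun _ => Classical.propDecidable _) (Ch e X w' y), hw e X w' s =
        ∑ s ∈ (Ch e X w' y).filter (fun s => (w' : ℝ) ^ σ ≤ X / pd s), hw e X w' s := by
      congr
    rw [e2]
    nlinarith

open Classical in
/-- a chain without prime in `[w', w'')`, `w'^σ ≤ w''`: the state at the scale `w'` is valid at the scale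
`w''` (`valid_base`), so `harm1` applies -/
theorem harm2 (hM : MerStmt) : ∃ (K : ℝ) (w1 : ℕ), 0 < K ∧ ∀ (σ : ℕ) (X : ℝ) (e w w' w'' y : ℕ),
    w1 ≤ w → w ≤ w' → w' ≤ w'' → w' ^ σ ≤ w'' → w'' ≤ y → valid e X y →
    ∑ s ∈ (Ch e X w y).filter (fun s => ∀ p ∈ s, p ∉ Pr w' w''), hw e X w s ≤
      K * (Real.exp (-(σ : ℝ) / 2) + 1 / Real.log w) * Wf e X y := by
  obtain ⟨K, a, hK, h⟩ := harm1 hM
  refine ⟨K, max a 2, hK, ?_⟩
  intro σ X e w w' w'' y hw1 hww hw' hσ hy hv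
  have ha : a ≤ w := le_trans (le_max_left _ _) hw1
  have hw2 : 2 ≤ w := le_trans (le_max_right _ _) hw1
  refine le_trans ?_ (h σ X e w w' y ha hww (hw'.trans hy) hv)
  refine sum_le_sum_of_subset_of_nonneg (fun s hs => ?_) fun s hs _ =>
    HarmA.hw_nonneg' hv hw2 (hww.trans (hw'.trans hy)) (mem_filter.1 hs).1
  obtain ⟨hs1, hs2⟩ := mem_filter.1 hs
  refine mem_filter.2 ⟨hs1, ?_⟩
  have hm : s.filter (w' ≤ ·) ∈ Ch e X w' y := HarmA.filter_mem hs1
  have hv1 := valid_base hv hm (hw2.trans (hww.trans hw')) hy fun p hp => by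
    obtain ⟨hp1, hp2⟩ := mem_filter.1 hp
    by_contra hlt
    exact hs2 p hp1 (mem_Pr.2 ⟨hp2, not_le.1 hlt, (mem_Pr.1 ((mem_Ch.1 hs1).1 hp1)).2.2⟩)
  refine le_trans ?_ hv1.2.1
  exact_mod_cast hσ

theorem hw_nonneg {e : ℕ} {X : ℝ} {w y : ℕ} (hv : valid e X y) (h2 : 2 ≤ w) (h : w ≤ y)
    {s : Finset ℕ} (hs : s ∈ Ch e X w y) : 0 ≤ hw e X w s := by
  exact HarmA.hw_nonneg' hv h2 h hs

end Crest.Agent.R1
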