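import Crest.Agent.R1.Defs2
import Crest.Agent.R1.HarmA

/-! Row 1: the harmonic measure of the eligible chains. -/

set_option autoImplicit false

namespace Crest.Agent.R1
open Finset MeasureTheory Filter

namespace Asm4

open Classical in
theorem two_step (e : ℕ) (X : ℝ) (w y : ℕ) (F : Finset ℕ → ℝ) (hF : ∀ s, 0 ≤ F s)
    (P : Finset (ℕ × ℕ))
    (hP : ∀ a ∈ P, a.1 ∈ Pr w y ∧ ok e X a.1 ∧ a.2 ∈ Pr w a.1 ∧ ok (e + 1) (X / a.1) a.2) :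
    ∑ a ∈ P, ∑ s ∈ Ch (e + 1 + 1) (X / a.1 / a.2) w a.2, F (insert a.1 (insert a.2 s)) ≤
      ∑ s ∈ Ch e X w y, F s := by
  rw [sum_Ch_rec]
  refine le_add_of_nonneg_of_le (hF _) ?_
  have h1 : ∀ p : ℕ, ∑ q ∈ (Pr w p).filter (ok (e + 1) (X / p)),
      ∑ s ∈ Ch (e + 1 + 1) (X / p / q) w q, F (insert p (insert q s)) ≤
      ∑ s ∈ Ch (e + 1) (X / p) w p, F (insert p s) := fun p => by
    rw [sum_Ch_rec (e + 1) (X / p) w p fun s => F (insert p s)]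
    exact le_add_of_nonneg_left (hF _)
  refine le_trans ?_ (sum_le_sum fun p _ => h1 p)
  rw [← sum_finset_product' (((Pr w y).filter (ok e X) ×ˢ Pr w y).filter
      fun a => a.2 ∈ (Pr w a.1).filter (ok (e + 1) (X / a.1))) ((Pr w y).filter (ok e X))
      (fun p => (Pr w p).filter (ok (e + 1) (X / p))) ?_]
  · refine sum_le_sum_of_subset_of_nonneg (fun a ha => ?_) fun a _ _ => sum_nonneg fun s _ => hF _
    obtain ⟨h2, h3, h4, h5⟩ := hP a ha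
    refine mem_filter.2 ⟨mem_product.2 ⟨mem_filter.2 ⟨h2, h3⟩, ?_⟩, mem_filter.2 ⟨h4, h5⟩⟩
    exact mem_Pr.2 ⟨(mem_Pr.1 h4).1, (mem_Pr.1 h4).2.1.trans (mem_Pr.1 h2).2.1, (mem_Pr.1 h4).2.2⟩
  · intro a
    rw [mem_filter, mem_product]
    refine ⟨fun h => ⟨h.1.1, h.2⟩, fun h => ⟨⟨h.1, ?_⟩, h.2⟩⟩
    have h2 := (mem_filter.1 h.1).1
    have h4 := (mem_filter.1 h.2).1
    exact mem_Pr.2 ⟨(mem_Pr.1 h4).1, (mem_Pr.1 h4).2.1.trans (mem_Pr.1 h2).2.1, (mem_Pr.1 h4).2.2⟩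

theorem w0_le_w2 {Q : Par} (h : Q.Ord) : Q.w0 ≤ Q.w2 := h.w1.trans (h.mono (Nat.zero_le _))

theorem valid0 {Q : Par} (h : Q.Ord) : valid 0 Q.D0 Q.y0 := by
  have h2 : 2 ≤ Q.y0 := h.w0.trans ((w0_le_w2 h).trans (h.w2.trans h.w3))
  refine ⟨h2, ?_, fun _ => by exact_mod_cast h.v1⟩
  have : Q.y0 ≤ Q.y0 ^ 2 := Nat.le_self_pow two_ne_zero _
  exact_mod_cast this.trans h.v1

theorem hw_two {e : ℕ} {X : ℝ} {w p q : ℕ} {s : Finset ℕ} (hq : q < p) (hs : ∀ r ∈ s, r < q) :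
    hw e X w (insert p (insert q s)) =
      hh (e + 1 + 1 + s.card) (X / p / q / pd s) w / pd s / (p * q) := by
  have h1 : q ∉ s := fun h => lt_irrefl _ (hs q h)
  have h2 : p ∉ insert q s := fun h => by
    rcases mem_insert.1 h with h | h
    · exact hq.ne' h
    · exact lt_asymm hq (hs p h)
  unfold hw
  rw [card_insert_of_notMem h2, card_insert_of_notMem h1, ChainB.pd_insert h2, ChainB.pd_insert h1,
    div_div X, div_div X, div_div (hh _ _ _), mul_assoc, mul_comm (pd s : ℝ), mul_assoc,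
    show e + (s.card + 1 + 1) = e + 1 + 1 + s.card by omega]

end Asm4

open Asm4

open Classical in
/-- Chains whose two largest primes form a pair of `P` are not pure. Apply `sum_Ch_rec` twice to
`F g = if pure g then 0 else hw 0 D0 w0 g ≥ 0` and keep the terms `insert p₁ (insert p₂ s)`, `(p₁, p₂) ∈ P`
(`ok 1 (D0/p₁) p₂` as `p₂³ ≤ y6³ ≤ y0 ≤ D0/p₁`). With `X' = D0/p₁/p₂` (valid by `valid_child`) the inner sum is
`Phi 2 X' w0 p₂ (hh · · w0)/(p₁ p₂) ≥ (hh 2 X' p₂ - (K/log w0) Wf 2 X' p₂)/(p₁ p₂)` (`phi_hh`)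
`≥ (c/2)/(p₁ p₂ log² X')` (`hh_ge σ`, `Wf_le`, `w1` large). -/
theorem asm4a (hM : MerStmt) (σ : ℕ) : ∃ (c : ℝ) (w1 : ℕ), 0 < c ∧ ∀ (Q : Par) (y6 : ℕ)
    (P : Finset (ℕ × ℕ)), Q.Ord → w1 ≤ Q.w0 → Q.D0 ≤ Q.y5 ^ σ → Q.y5 ≤ y6 → y6 ^ 3 ≤ Q.y0 →
    P ⊆ Pr y6 Q.y0 ×ˢ Pr Q.y5 y6 → (∀ a ∈ P, ¬ ∃ r ∈ Q.Ri, inS Q.N r a.1 ∧ inS Q.N r a.2) →
    c * (∑ a ∈ P, 1 / ((a.1 : ℝ) * a.2)) / Real.log Q.D0 ^ 2 ≤
      ∑ g ∈ Q.C1.filter (fun g => ¬ Q.pure g), hw 0 Q.D0 Q.w0 g := by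
  obtain ⟨K, w1, hK, h1⟩ := phi_hh hM
  obtain ⟨c, hc, h2⟩ := hh_ge σ
  obtain ⟨K', hK', h3⟩ := Wf_le
  refine ⟨c / 2, w1 + ⌈Real.exp (2 * K * K' / c)⌉₊, by positivity,
    fun Q y6 P hO hw1 hD h56 h60 hP hnp => ?_⟩
  have hv := valid0 hO
  have h05 : Q.w0 ≤ Q.y5 := (w0_le_w2 hO).trans hO.w2
  have h00 : Q.w0 ≤ Q.y0 := h05.trans hO.w3
  have hlog : 2 * K * K' / c ≤ Real.log Q.w0 := by
    rw [Real.le_log_iff_exp_le (by have := hO.w0; positivity)]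
    exact (Nat.le_ceil _).trans (by exact_mod_cast (by omega))
  have hlw : 0 < Real.log Q.w0 := lt_of_lt_of_le (by positivity) hlog
  have hKK : K / Real.log Q.w0 * K' ≤ c / 2 := by
    rw [div_mul_eq_mul_div, div_le_iff₀ hlw]
    rw [div_le_iff₀ hc] at hlog
    linarith
  have hPP : ∀ a ∈ P, a.1 ∈ Pr Q.w0 Q.y0 ∧ ok 0 Q.D0 a.1 ∧ a.2 ∈ Pr Q.w0 a.1 ∧
      ok (0 + 1) (Q.D0 / a.1) a.2 := by
    intro a ha
    obtain ⟨ha1, ha2⟩ := mem_product.1 (hP ha)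
    obtain ⟨a1, a2, a3⟩ := mem_Pr.1 ha1
    obtain ⟨b1, b2, b3⟩ := mem_Pr.1 ha2
    refine ⟨mem_Pr.2 ⟨by omega, a2, a3⟩, fun h => absurd h (by decide),
      mem_Pr.2 ⟨by omega, by omega, b3⟩, fun _ => ?_⟩
    rw [le_div_iff₀ (by exact_mod_cast a3.pos)]
    have h4 : a.2 ^ 3 ≤ Q.y0 := (Nat.pow_le_pow_left b2.le 3).trans h60
    have h5 : a.2 ^ 3 * a.1 ≤ Q.D0 := by
      refine le_trans ?_ hO.v1
      rw [sq]
      exact Nat.mul_le_mul h4 a2.le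
    exact_mod_cast h5
  have key := two_step 0 Q.D0 Q.w0 Q.y0
    (fun g => if g ∈ Q.C1 ∧ ¬ Q.pure g then hw 0 Q.D0 Q.w0 g else 0) (fun g => by
      split_ifs with h
      · exact hw_nonneg hv hO.w0 h00 h.1
      · exact le_rfl) P hPP
  refine le_trans ?_ (key.trans (le_of_eq ?_))
  · rw [mul_sum, sum_div]
    refine sum_le_sum fun a ha => ?_
    obtain ⟨ha1, ha2, ha3, ha4⟩ := hPP a ha
    obtain ⟨hb1, hb2⟩ := mem_product.1 (hP ha)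
    have hp1 : (0 : ℝ) < a.1 := by exact_mod_cast (mem_Pr.1 ha1).2.2.pos
    have hp2 : (0 : ℝ) < a.2 := by exact_mod_cast (mem_Pr.1 ha3).2.2.pos
    have hp1' : (1 : ℝ) ≤ a.1 := by exact_mod_cast (mem_Pr.1 ha1).2.2.pos
    have hp2' : (1 : ℝ) ≤ a.2 := by exact_mod_cast (mem_Pr.1 ha3).2.2.pos
    have hv2 : valid (0 + 1 + 1) (Q.D0 / a.1 / a.2) a.2 :=
      valid_child (valid_child hv ha1 ha2) ha3 ha4
    have hE : ∑ s ∈ Ch (0 + 1 + 1) ((Q.D0 : ℝ) / a.1 / a.2) Q.w0 a.2,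
        (if insert a.1 (insert a.2 s) ∈ Q.C1 ∧ ¬ Q.pure (insert a.1 (insert a.2 s)) then
          hw 0 Q.D0 Q.w0 (insert a.1 (insert a.2 s)) else 0) =
        Phi (0 + 1 + 1) (Q.D0 / a.1 / a.2) Q.w0 a.2 (fun e X => hh e X Q.w0) / (a.1 * a.2) := by
      unfold Phi
      rw [sum_div]
      refine sum_congr rfl fun s hs => ?_
      have hlt := ChainA.lt_of_mem_Ch hs
      have h21 := (mem_Pr.1 ha3).2.1
      rw [if_pos, hw_two h21 hlt]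
      refine ⟨(ChainA.insert_mem_Ch fun q hq => ?_).2
        ⟨ha1, ha2, (ChainA.insert_mem_Ch hlt).2 ⟨ha3, ha4, hs⟩⟩, ?_⟩
      · rcases mem_insert.1 hq with rfl | hq
        · exact h21
        · exact (hlt q hq).trans h21
      · rintro ⟨r, hr, hr'⟩
        exact hnp a ha ⟨r, hr, hr' _ (mem_insert_self _ _) (h56.trans (mem_Pr.1 hb1).1),
          hr' _ (mem_insert_of_mem (mem_insert_self _ _)) (mem_Pr.1 hb2).1⟩
    rw [hE]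
    have hXD : (Q.D0 : ℝ) / a.1 / a.2 ≤ Q.D0 :=
      (div_le_self (by positivity) hp2').trans (div_le_self (by positivity) hp1')
    have hXσ : (Q.D0 : ℝ) / a.1 / a.2 ≤ (a.2 : ℝ) ^ σ := by
      refine hXD.trans ?_
      exact_mod_cast hD.trans (Nat.pow_le_pow_left (mem_Pr.1 hb2).1 σ)
    have e1 := (abs_le.1 (h1 _ _ Q.w0 a.2 (by omega) (mem_Pr.1 ha3).1 hv2)).1
    have e2 := h2 _ _ _ hv2 hXσ
    have e3 := h3 _ _ _ hv2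
    obtain ⟨l1, l2, -, -⟩ := hv2.one_le
    have l3 : 0 < Real.log ((Q.D0 : ℝ) / a.1 / a.2) := l1.trans_le l2
    have l4 : Real.log ((Q.D0 : ℝ) / a.1 / a.2) ≤ Real.log Q.D0 :=
      Real.log_le_log (hp2.trans_le hv2.2.1) hXD
    generalize Phi (0 + 1 + 1) ((Q.D0 : ℝ) / a.1 / a.2) Q.w0 a.2 (fun e X => hh e X Q.w0) = Φ at e1 ⊢
    generalize hh (0 + 1 + 1) ((Q.D0 : ℝ) / a.1 / a.2) a.2 = H at e1 e2
    generalize Wf (0 + 1 + 1) ((Q.D0 : ℝ) / a.1 / a.2) a.2 = W at e1 e3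
    generalize Real.log ((Q.D0 : ℝ) / a.1 / a.2) = t at e2 e3 l3 l4
    have e4 : K / Real.log Q.w0 * W ≤ c / 2 / t ^ 2 :=
      calc K / Real.log Q.w0 * W ≤ K / Real.log Q.w0 * (K' / t ^ 2) := by gcongr
        _ = K / Real.log Q.w0 * K' / t ^ 2 := by ring
        _ ≤ c / 2 / t ^ 2 := by gcongr
    have e5 : c / 2 / Real.log Q.D0 ^ 2 ≤ c / 2 / t ^ 2 := by gcongr
    have e6 : c / t ^ 2 = c / 2 / t ^ 2 + c / 2 / t ^ 2 := by ring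
    calc c / 2 * (1 / ((a.1 : ℝ) * a.2)) / Real.log Q.D0 ^ 2
        = c / 2 / Real.log Q.D0 ^ 2 / (a.1 * a.2) := by ring
      _ ≤ Φ / (a.1 * a.2) := div_le_div_of_nonneg_right (by linarith) (by positivity)
  · rw [sum_filter]
    exact sum_congr rfl fun g hg => if_congr (and_iff_right hg) rfl rfl

open Classical in
/-- A non-pure chain is eligible unless one of `s + 3` conditions fails: `harm1` (`w' = w2` and `w' = w0`),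
`harm2` (`w' = Wn i`, `w'' = Wn (i+1)`), `Wf_le`, `hw_nonneg`. -/
theorem asm4b (hM : MerStmt) : ∃ (K : ℝ) (w1 : ℕ), 0 < K ∧ ∀ (Q : Par) (R : ℕ), Q.Ord → w1 ≤ Q.w0 →
    (∀ i ≤ Q.s, Q.Wn i ^ R ≤ Q.Wn (i + 1)) →
    ∑ g ∈ Q.C1.filter (fun g => ¬ Q.pure g), hw 0 Q.D0 Q.w0 g ≤
      ∑ g ∈ Q.C1.filter Q.elig, hw 0 Q.D0 Q.w0 g +
        K * ((Q.s + 3) / Real.log Q.w0 + Real.exp (-(Q.σ1 : ℝ) / 2) + Real.exp (-(Q.σ2 : ℝ) / 2) +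
          (Q.s + 1) * Real.exp (-(R : ℝ) / 2)) / Real.log Q.D0 ^ 2 := by
  obtain ⟨K1, w1, hK1, h1⟩ := harm1 hM
  obtain ⟨K2, w2, hK2, h2⟩ := harm2 hM
  obtain ⟨K', hK', h3⟩ := Wf_le
  refine ⟨(K1 + K2) * K', w1 + w2, by positivity, fun Q R hO hw1 hR => ?_⟩
  have hv := valid0 hO
  have h02 := w0_le_w2 hO
  have h20 : Q.w2 ≤ Q.y0 := hO.w2.trans hO.w3
  have hA := h1 Q.σ2 Q.D0 0 Q.w0 Q.w2 Q.y0 (by omega) h02 h20 hv
  have hC := h1 Q.σ1 Q.D0 0 Q.w0 Q.w0 Q.y0 (by omega) le_rfl (h02.trans h20) hv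
  have hB : ∀ i ∈ range (Q.s + 1), ∑ g ∈ (Ch 0 Q.D0 Q.w0 Q.y0).filter
      (fun g => ∀ p ∈ g, p ∉ Pr (Q.Wn i) (Q.Wn (i + 1))), hw 0 Q.D0 Q.w0 g ≤
      K2 * (Real.exp (-(R : ℝ) / 2) + 1 / Real.log Q.w0) * Wf 0 Q.D0 Q.y0 := fun i hi => by
    have hi' : i ≤ Q.s := Nat.lt_succ_iff.1 (mem_range.1 hi)
    exact h2 R Q.D0 0 Q.w0 _ _ Q.y0 (by omega) (hO.w1.trans (hO.mono (Nat.zero_le _)))
      (hO.mono (Nat.le_succ i)) (hR i hi') ((hO.mono (Nat.succ_le_succ hi')).trans h20) hv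
  have hB' := sum_le_sum hB
  rw [sum_const, card_range, nsmul_eq_mul] at hB'
  simp only [sum_filter] at hA hC hB' ⊢
  rw [sum_comm] at hB'
  have key : ∑ g ∈ Q.C1, (if ¬ Q.pure g then hw 0 Q.D0 Q.w0 g else 0) ≤
      ∑ g ∈ Ch 0 Q.D0 Q.w0 Q.y0, ((if Q.elig g then hw 0 Q.D0 Q.w0 g else 0) +
        (if (Q.w2 : ℝ) ^ Q.σ2 ≤ Q.D0 / pd (g.filter (Q.w2 ≤ ·)) then hw 0 Q.D0 Q.w0 g else 0) +
        (if (Q.w0 : ℝ) ^ Q.σ1 ≤ Q.D0 / pd (g.filter (Q.w0 ≤ ·)) then hw 0 Q.D0 Q.w0 g else 0) +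
        ∑ i ∈ range (Q.s + 1),
          if ∀ p ∈ g, p ∉ Pr (Q.Wn i) (Q.Wn (i + 1)) then hw 0 Q.D0 Q.w0 g else 0) := by
    refine sum_le_sum fun g hg => ?_
    have h0 := hw_nonneg hv hO.w0 (h02.trans h20) hg
    have hi : ∀ (p : Prop) [Decidable p], 0 ≤ (if p then hw 0 Q.D0 Q.w0 g else 0) := fun p _ => by
      split_ifs
      · exact h0
      · exact le_rfl
    have n1 := hi (Q.elig g)
    have n2 := hi ((Q.w2 : ℝ) ^ Q.σ2 ≤ Q.D0 / pd (g.filter (Q.w2 ≤ ·)))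
    have n3 := hi ((Q.w0 : ℝ) ^ Q.σ1 ≤ Q.D0 / pd (g.filter (Q.w0 ≤ ·)))
    have n4 : 0 ≤ ∑ i ∈ range (Q.s + 1),
        if ∀ p ∈ g, p ∉ Pr (Q.Wn i) (Q.Wn (i + 1)) then hw 0 Q.D0 Q.w0 g else 0 :=
      sum_nonneg fun i _ => hi _
    by_cases hp : Q.pure g
    · rw [if_neg (not_not.2 hp)]
      linarith
    rw [if_pos hp]
    by_cases c2 : Q.D0 / pd (g.filter (Q.w2 ≤ ·)) < Q.w2 ^ Q.σ2
    swap
    · have : (Q.w2 : ℝ) ^ Q.σ2 ≤ Q.D0 / pd (g.filter (Q.w2 ≤ ·)) :=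
        le_trans (by exact_mod_cast not_lt.1 c2) Nat.cast_div_le
      rw [if_pos this]
      linarith
    by_cases c1 : Q.D0 / pd g < Q.w0 ^ Q.σ1
    swap
    · have : (Q.w0 : ℝ) ^ Q.σ1 ≤ Q.D0 / pd (g.filter (Q.w0 ≤ ·)) := by
        rw [filter_true_of_mem fun p hp => (mem_Pr.1 ((mem_Ch.1 hg).1 hp)).1]
        exact le_trans (by exact_mod_cast not_lt.1 c1) Nat.cast_div_le
      rw [if_pos this]
      linarith
    by_cases c3 : ∀ i ≤ Q.s, ∃ p ∈ g, p ∈ win Q.Wn i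
    · rw [if_pos (show Q.elig g from ⟨hp, c2, c3, c1⟩)]
      linarith
    · push Not at c3
      obtain ⟨i, hi1, hi2⟩ := c3
      have := single_le_sum (f := fun i =>
        if ∀ p ∈ g, p ∉ Pr (Q.Wn i) (Q.Wn (i + 1)) then hw 0 Q.D0 Q.w0 g else 0)
        (fun i _ => hi _) (mem_range.2 (Nat.lt_succ_of_le hi1))
      rw [if_pos (show ∀ p ∈ g, p ∉ Pr (Q.Wn i) (Q.Wn (i + 1)) from hi2)] at this
      linarith
  rw [sum_add_distrib, sum_add_distrib, sum_add_distrib] at key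
  refine key.trans ?_
  rw [add_assoc, add_assoc]
  refine add_le_add le_rfl ((add_le_add hA (add_le_add hC hB')).trans ?_)
  have hW := h3 _ _ _ hv
  have hW0 : 0 ≤ Wf 0 Q.D0 Q.y0 := add_nonneg (hh_nonneg hv) (GG_pos hv).le
  have hl : 0 < 1 / Real.log Q.w0 :=
    one_div_pos.2 (Real.log_pos (by exact_mod_cast hO.w0))
  rw [div_eq_mul_one_div ((Q.s : ℝ) + 3)]
  push_cast
  generalize 1 / Real.log Q.w0 = u at hl ⊢
  have p1 := Real.exp_pos (-(Q.σ1 : ℝ) / 2)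
  have p2 := Real.exp_pos (-(Q.σ2 : ℝ) / 2)
  have p3 := Real.exp_pos (-(R : ℝ) / 2)
  generalize Real.exp (-(Q.σ1 : ℝ) / 2) = a at p1 ⊢
  generalize Real.exp (-(Q.σ2 : ℝ) / 2) = b at p2 ⊢
  generalize Real.exp (-(R : ℝ) / 2) = d at p3 ⊢
  generalize Wf 0 Q.D0 Q.y0 = W at hW hW0 ⊢
  have hs : (0 : ℝ) ≤ Q.s := Nat.cast_nonneg _
  calc K1 * (b + u) * W + (K1 * (a + u) * W + ((Q.s : ℝ) + 1) * (K2 * (d + u) * W))
      ≤ (K1 + K2) * (b + u) * W + ((K1 + K2) * (a + u) * W +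
          ((Q.s : ℝ) + 1) * ((K1 + K2) * (d + u) * W)) := by
        gcongr <;> linarith
    _ = (K1 + K2) * (((Q.s : ℝ) + 3) * u + a + b + ((Q.s : ℝ) + 1) * d) * W := by ring
    _ ≤ (K1 + K2) * (((Q.s : ℝ) + 3) * u + a + b + ((Q.s : ℝ) + 1) * d) *
          (K' / Real.log Q.D0 ^ 2) := by gcongr
    _ = _ := by ring

end Crest.Agent.R1
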