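import Crest.Agent.R1.Defs
import Crest.Agent.R1s.Red
import Crest.Agent.R1s.BH
import Crest.Agent.R1s.AP
import Crest.Agent.R1s.V1
import Crest.Agent.R1s.LowA
import Crest.Agent.R1s.CRT
import Crest.Agent.R1s.UpA
import Crest.Agent.R1s.PrimeA
import Crest.Agent.R1s.CaseA
import Crest.Agent.R8.Selberg

/-! Row 1: the structured case (from `R1s.CaseAStmt`). -/

set_option autoImplicit false

namespace Crest.Agent.R1
open Finset Filter
open Crest.Agent.R5 (pr)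
open Crest.Agent.R1s (Hi zz surv Defic mem_pr)

namespace CaseA

theorem solve {p : ℕ} (hp : p.Prime) {q : ℤ} (h : ¬ (p : ℤ) ∣ q) (a : ℤ) : ∃ c : ℤ, (p : ℤ) ∣ q * c + a := by
  obtain ⟨u, v, huv⟩ := (Nat.prime_iff_prime_int.1 hp).coprime_iff_not_dvd.2 h
  exact ⟨-a * v, u * a, by linear_combination (-a) * huv⟩

theorem crt (S : Finset ℕ) (hS : ∀ p ∈ S, p.Prime) (c : ℕ → ℤ) :
    ∃ N : ℤ, ∀ p ∈ S, (p : ℤ) ∣ N - c p := by
  obtain ⟨k, hk⟩ := Nat.chineseRemainderOfFinset (fun p => (c p % p).toNat) id S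
    (fun p hp => (hS p hp).ne_zero)
    fun p hp q hq h => (Nat.coprime_primes (hS p hp) (hS q hq)).2 h
  refine ⟨k, fun p hp => ?_⟩
  have h0 : (p : ℤ) ≠ 0 := by exact_mod_cast (hS p hp).ne_zero
  have h1 := Int.natCast_modEq_iff.2 (hk p hp)
  rw [Int.toNat_of_nonneg (Int.emod_nonneg _ h0)] at h1
  exact (h1.trans (Int.mod_modEq _ _)).symm.dvd

theorem step (m : ℕ) (B : Finset ℕ) (hB : ∀ p ∈ B, p.Prime) {z : ℝ} (hz : 0 < z) {N x0 : ℤ} (hx : Odd x0)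
    (hN : ∀ p ∈ pr 2 z, p ∈ B → (p : ℤ) ∣ 2 * N - x0) (hs : B.card * (m / z + 1) < (surv N m z).card) :
    ∃ i < m, ∀ p ∈ B, ¬ (p : ℤ) ∣ x0 + 2 * i := by
  set P := B.filter (fun p : ℕ => 2 < p ∧ z < (p : ℝ)) with hP
  set Bad := P.biUnion (fun p => (range m).filter (fun i : ℕ => (p : ℤ) ∣ x0 + 2 * i)) with hBad
  have hb : (Bad.card : ℝ) ≤ B.card * (m / z + 1) := by
    have h1 : (Bad.card : ℝ) ≤
        ∑ p ∈ P, (((range m).filter (fun i : ℕ => (p : ℤ) ∣ x0 + 2 * i)).card : ℝ) := by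
      exact_mod_cast card_biUnion_le
    have h2 : ∑ p ∈ P, (((range m).filter (fun i : ℕ => (p : ℤ) ∣ x0 + 2 * i)).card : ℝ) ≤
        ∑ p ∈ P, ((m : ℝ) / z + 1) := by
      refine sum_le_sum fun p hp => ?_
      obtain ⟨a, b, c⟩ := mem_filter.1 hp
      refine (R1s.RedAux.count_le (hB p a) b x0 m).trans ?_
      gcongr
    have h3 : (P.card : ℝ) ≤ B.card := by exact_mod_cast card_filter_le _ _
    rw [sum_const, nsmul_eq_mul] at h2
    have h4 : (P.card : ℝ) * ((m : ℝ) / z + 1) ≤ B.card * (m / z + 1) := by gcongr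
    linarith
  have hlt : Bad.card < (surv N m z).card := by exact_mod_cast hb.trans_lt hs
  obtain ⟨i, hi, hi'⟩ := exists_mem_notMem_of_card_lt_card hlt
  obtain ⟨him, hi2⟩ := mem_filter.1 hi
  refine ⟨i, mem_range.1 him, fun p hpB d1 => ?_⟩
  have hp := hB p hpB
  have h2 : 2 < p := by
    rcases hp.two_le.lt_or_eq with h | h
    · exact h
    · subst h
      obtain ⟨t, ht⟩ := hx
      push_cast at d1
      omega
  by_cases hpz : z < (p : ℝ)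
  · exact hi' (mem_biUnion.2 ⟨p, mem_filter.2 ⟨hpB, h2, hpz⟩, mem_filter.2 ⟨him, d1⟩⟩)
  · have hpm : p ∈ pr 2 z := mem_pr.2 ⟨hp, by exact_mod_cast h2, not_lt.1 hpz⟩
    refine hi2 p hpm (R1s.RedAux.dvd_of_two hp h2 ?_)
    rw [show 2 * (N + i) = 2 * N - x0 + (x0 + 2 * i) by ring]
    exact dvd_add (hN p hpm hpB) d1

theorem num {η : ℝ} (h0 : 0 < η) : ∀ᶠ m : ℕ in atTop,
    2 * (m : ℝ) ^ (η / 2) ≤ ((m / 2 : ℕ) : ℝ) ^ (2 * η) ∧ (m : ℝ) ^ η ≤ ((m / 2 : ℕ) : ℝ) ^ (2 * η) ∧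
    (m : ℝ) ^ (1 + η) + 2 * (m : ℝ) ^ (η / 2) ≤ ((m / 2 : ℕ) : ℝ) ^ (1 + 2 * η) ∧
    2 ≤ ((m / 2 : ℕ) : ℝ) ^ (2 * η) ∧ 0 < zz (m / 2) ∧
    √m * Real.log m * (((m / 2 : ℕ) : ℝ) / zz (m / 2) + 1) < (m / 2 : ℕ) / Real.log (m / 2 : ℕ) ^ 5 := by
  have ht : Tendsto (fun m : ℕ => m / 2) atTop atTop := Nat.tendsto_div_const_atTop (by norm_num)
  filter_upwards [ht.eventually (R1s.ev_log 9), ht.eventually (R1s.ev_log_pow 1 7 (c := 1 / 2) (by norm_num)),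
    ht.eventually (R1s.ev_rpow (9 * 3 ^ η) h0), eventually_ge_atTop 9] with m c2 c3 c4 h9
  set m' := m / 2 with hm'
  have h3m : (m : ℝ) ≤ 3 * m' := by exact_mod_cast (by omega : m ≤ 3 * m')
  have h9' : (9 : ℝ) ≤ m := by exact_mod_cast h9
  have p0 : (0 : ℝ) < m' := by linarith
  have h31 : (1 : ℝ) ≤ 3 ^ η := Real.one_le_rpow (by norm_num) h0.le
  have a1 : (m : ℝ) ^ η ≤ 3 ^ η * (m' : ℝ) ^ η := by
    rw [← Real.mul_rpow (by norm_num) p0.le]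
    exact Real.rpow_le_rpow (by linarith) h3m h0.le
  have a2 : (m' : ℝ) ^ (2 * η) = (m' : ℝ) ^ η * (m' : ℝ) ^ η := by
    rw [← Real.rpow_add p0]; ring_nf
  have a3 : (m : ℝ) ^ (η / 2) ≤ (m : ℝ) ^ η := Real.rpow_le_rpow_of_exponent_le (by linarith) (by linarith)
  have a4 : 9 * (m : ℝ) ^ η ≤ (m' : ℝ) ^ (2 * η) := by rw [a2]; nlinarith
  have a5 : (1 : ℝ) ≤ (m : ℝ) ^ η := Real.one_le_rpow (by linarith) h0.le
  set L := Real.log (m' : ℝ) with hL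
  rw [one_mul, ← Real.sqrt_eq_rpow] at c3
  set s := √(m' : ℝ) with hs
  have s0 : 0 < s := Real.sqrt_pos.2 p0
  have ss : s * s = m' := Real.mul_self_sqrt p0.le
  have L0 : 0 < L := by linarith
  refine ⟨by linarith, by linarith, ?_, by linarith, by unfold zz; positivity, ?_⟩
  · rw [Real.rpow_add (by linarith), Real.rpow_add p0, Real.rpow_one, Real.rpow_one]
    nlinarith
  · have e1 : (m' : ℝ) / zz m' = s / L ^ 7 := by
      unfold zz
      rw [← hs, ← hL, ← ss]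
      field_simp
    have e2 : 1 ≤ s / L ^ 7 := by rw [le_div_iff₀ (by positivity)]; linarith
    have e3 : √m ≤ 2 * s := by
      rw [Real.sqrt_le_left (by positivity)]; nlinarith
    have e4 : Real.log m ≤ 2 * L := by
      have := Real.log_le_log (by linarith) h3m
      rw [Real.log_mul (by norm_num) p0.ne'] at this
      linarith [Real.log_le_sub_one_of_pos (x := 3) (by norm_num)]
    have e5 : 0 ≤ Real.log m := Real.log_nonneg (by linarith)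
    calc √m * Real.log m * (m' / zz m' + 1) ≤ (2 * s) * (2 * L) * (s / L ^ 7 + s / L ^ 7) := by
          rw [e1]; gcongr
      _ = (8 / L) * (m' / L ^ 5) := by rw [← ss]; field_simp; ring
      _ < 1 * (m' / L ^ 5) := by
          gcongr
          rw [div_lt_one L0]; linarith
      _ = _ := one_mul _

end CaseA

open Classical CaseA in
/-- **The structured case**: almost all primes `≥ m^η` of `B` divide `v N - a`. Restrict to odd `N + n` and change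
`N` modulo the primes outside `B`. -/
theorem caseA (hθ : ThetaStmt) : ∃ η0 : ℝ, 0 < η0 ∧ ∀ η : ℝ, 0 < η → η ≤ η0 → ∃ c0 : ℝ, 0 < c0 ∧
    ∀ᶠ m : ℕ in atTop, ∀ (N a : ℤ) (v : ℕ) (B : Finset ℕ), (∀ p ∈ B, p.Prime) →
      (B.card : ℝ) ≤ √m * Real.log m → 1 ≤ v → (v : ℝ) ≤ (m : ℝ) ^ (η / 2) →
      |(a : ℝ)| ≤ (m : ℝ) ^ (1 + η) →
      ∑ p ∈ B.filter (fun p : ℕ => (m : ℝ) ^ η ≤ p ∧ ¬ (p : ℤ) ∣ v * N - a), 1 / (p : ℝ) ≤ c0 →
      ∃ n ∈ Icc 1 m, ∀ p ∈ B, ¬ (p : ℤ) ∣ N + n := by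
  obtain ⟨η0, h0, h⟩ := R1s.caseA (R1s.primeA (R1s.lowA R1s.bhOK (R1s.apOK hθ) R1s.v1OK)
    (R1s.upA R8.selberg R1s.crtOK R1s.v1OK) R1s.v1OK)
  refine ⟨η0 / 2, by positivity, fun η hη hη' => ?_⟩
  obtain ⟨c0, hc0, h⟩ := h (2 * η) (by positivity) (by linarith)
  refine ⟨c0, hc0, ?_⟩
  filter_upwards [(Nat.tendsto_div_const_atTop (n := 2) (by norm_num)).eventually h, num hη,
    eventually_ge_atTop 2] with m h hn hm N a v B hB hcard hv1 hv ha hf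
  obtain ⟨n1, n2, n3, n4, n5, n6⟩ := hn
  set m' := m / 2 with hm'
  obtain ⟨n0, k1, k2, hx⟩ : ∃ n0 : ℕ, 1 ≤ n0 ∧ n0 ≤ 2 ∧ Odd (N + n0) := by
    rcases Int.even_or_odd N with h | h
    · exact ⟨1, le_rfl, by norm_num, h.add_one⟩
    · exact ⟨2, by norm_num, le_rfl, h.add_even (by norm_num)⟩
  have hg : 0 < Int.gcd (-(a + v * n0)) (2 * v) := Int.gcd_pos_of_ne_zero_right _ (by omega)
  obtain ⟨a', q', hgcd, ea, eq⟩ := Int.exists_gcd_one hg
  obtain ⟨g, hge⟩ : ∃ g : ℤ, (Int.gcd (-(a + v * n0)) (2 * v) : ℤ) = g := ⟨_, rfl⟩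
  have hg1 : 1 ≤ g := by omega
  rw [hge] at ea eq
  have hq1 : 1 ≤ q' := by nlinarith
  obtain ⟨q, rfl⟩ := Int.eq_ofNat_of_zero_le (zero_le_one.trans hq1)
  have hq2 : (q : ℤ) ≤ 2 * v := by nlinarith
  have hg2 : g ≤ 2 * v := by nlinarith
  have hm1 : (1 : ℝ) ≤ m' := by exact_mod_cast (by omega : 1 ≤ m')
  have hHi : ∀ p ∈ Hi (2 * η) m', p.Prime ∧ (m' : ℝ) ^ (2 * η) < p ∧ (p : ℝ) ≤ zz m' ∧ 2 * (v : ℤ) < p := by
    intro p hp
    obtain ⟨b1, b2, b3⟩ := mem_pr.1 hp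
    have b4 := (Real.rpow_le_rpow_of_exponent_le hm1 (show 2 * η ≤ 2 * (2 * η) by linarith)).trans_lt b2
    exact ⟨b1, b4, b3, by exact_mod_cast (show 2 * (v : ℝ) < p by linarith)⟩
  have hc : ∀ p : ℕ, ∃ c : ℤ, p ∈ pr 2 (zz m') → (p ∈ B → (p : ℤ) ∣ 2 * c - (N + n0)) ∧
      (p ∉ B → p ∈ Hi (2 * η) m' → (p : ℤ) ∣ q * c + a') := by
    intro p
    by_cases hp : p ∈ pr 2 (zz m')
    · obtain ⟨b1, b2, -⟩ := mem_pr.1 hp
      have b2' : 2 < p := by exact_mod_cast b2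
      by_cases hpB : p ∈ B
      · obtain ⟨c, hc⟩ := solve b1 (q := 2) (fun h => by have := Int.le_of_dvd (by norm_num) h; omega)
          (-(N + n0))
        exact ⟨c, fun _ => ⟨fun _ => hc, fun h => absurd hpB h⟩⟩
      · by_cases hpH : p ∈ Hi (2 * η) m'
        · obtain ⟨c, hc⟩ := solve b1 (q := q)
            (fun h => by have := Int.le_of_dvd (by omega) h; have := (hHi p hpH).2.2.2; omega) a'
          exact ⟨c, fun _ => ⟨fun h => absurd h hpB, fun _ _ => hc⟩⟩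
        · exact ⟨0, fun _ => ⟨fun h => absurd h hpB, fun _ h => absurd h hpH⟩⟩
    · exact ⟨0, fun h => absurd h hp⟩
  choose c hc using hc
  obtain ⟨N', hN'⟩ := crt (pr 2 (zz m')) (fun p hp => (mem_pr.1 hp).1) c
  have hN1 : ∀ p ∈ pr 2 (zz m'), p ∈ B → (p : ℤ) ∣ 2 * N' - (N + n0) := fun p hp hpB => by
    rw [show 2 * N' - (N + n0) = 2 * (N' - c p) + (2 * c p - (N + n0)) by ring]
    exact dvd_add ((hN' p hp).mul_left _) ((hc p hp).1 hpB)
  have hD : ¬ Defic (2 * η) c0 m' N' := by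
    intro hD
    have b1 : |a'| ≤ |a| + 2 * v := by
      have e1 : |a'| ≤ |a' * g| := by rw [abs_mul, abs_of_pos (by omega : 0 < g)]; nlinarith [abs_nonneg a']
      have e2 : |a + v * n0| ≤ |a| + |(v : ℤ) * n0| := abs_add_le _ _
      rw [← ea, abs_neg] at e1
      rw [abs_of_nonneg (by positivity : 0 ≤ (v : ℤ) * n0)] at e2
      nlinarith
    have b2 : |(a' : ℝ)| ≤ |(a : ℝ)| + 2 * v := by exact_mod_cast b1
    have b3 : (q : ℝ) ≤ 2 * v := by exact_mod_cast hq2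
    refine absurd (hD q a' (by omega) (by linarith) (by linarith) hgcd) (not_lt.2 (le_trans
      (sum_le_sum_of_subset_of_nonneg (fun p hp => ?_) fun _ _ _ => by positivity) hf))
    obtain ⟨hp1, hp2⟩ := mem_filter.1 hp
    obtain ⟨d1, d2, d3, d4⟩ := hHi p hp1
    have hpm : p ∈ pr 2 (zz m') := mem_pr.2 ⟨d1, by linarith, d3⟩
    have hpB : p ∈ B := by
      by_contra hpB
      refine hp2 ?_
      rw [show q * N' + a' = q * (N' - c p) + (q * c p + a') by ring]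
      exact dvd_add ((hN' p hpm).mul_left _) ((hc p hpm).2 hpB hp1)
    refine mem_filter.2 ⟨hpB, by linarith, fun hd => hp2 ?_⟩
    have e : g * (q * N' + a') = v * (2 * N' - (N + n0)) + (v * N - a) := by
      linear_combination (-N') * eq - ea
    have d5 : (p : ℤ) ∣ g * (q * N' + a') := e ▸ dvd_add ((hN1 p hpm hpB).mul_left _) hd
    refine ((Nat.prime_iff_prime_int.1 d1).dvd_or_dvd d5).resolve_left fun h => ?_
    have := Int.le_of_dvd (by omega) h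
    omega
  obtain ⟨i, hi, hiB⟩ := step m' B hB n5 hx hN1 (lt_of_le_of_lt (by gcongr) (n6.trans_le (h N' hD)))
  refine ⟨n0 + 2 * i, mem_Icc.2 ⟨by omega, by omega⟩, fun p hp hd => hiB p hp ?_⟩
  push_cast at hd
  rwa [← add_assoc] at hd

end Crest.Agent.R1
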