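import Crest.Agent.R1.Defs

/-! Row 1: chains. -/

set_option autoImplicit false

namespace Crest.Agent.R1
open Finset MeasureTheory Filter

theorem mem_Pr {w y p : ℕ} : p ∈ Pr w y ↔ w ≤ p ∧ p < y ∧ p.Prime := by
  rw [Pr, mem_filter, mem_Ico, and_assoc]

theorem mem_Ch {e : ℕ} {X : ℝ} {w y : ℕ} {s : Finset ℕ} :
    s ∈ Ch e X w y ↔ s ⊆ Pr w y ∧ alive e X s := by
  classical
  rw [Ch, mem_filter, mem_powerset]

theorem pd_pos {s : Finset ℕ} (hs : ∀ p ∈ s, p.Prime) : 0 < pd s :=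
  prod_pos fun p hp => (hs p hp).pos

theorem pd_union {s s' : Finset ℕ} (h : Disjoint s s') : pd (s ∪ s') = pd s * pd s' :=
  prod_union h

theorem primeFactors_pd {s : Finset ℕ} (hs : ∀ p ∈ s, p.Prime) : (pd s).primeFactors = s :=
  Nat.primeFactors_prod hs

/-- a product of distinct primes divides `n` iff every prime does -/
theorem pd_dvd {s : Finset ℕ} (hs : ∀ p ∈ s, p.Prime) (n : ℤ) :
    (pd s : ℤ) ∣ n ↔ ∀ p ∈ s, (p : ℤ) ∣ n := by
  simp only [Int.natCast_dvd]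
  exact ⟨fun h p hp => (dvd_prod_of_mem (fun p => p) hp).trans h,
    fun h => prod_primes_dvd _ (fun p hp => (hs p hp).prime) h⟩

theorem sum_powerset_inv (B : Finset ℕ) :
    ∑ s ∈ B.powerset, 1 / (pd s : ℝ) = ∏ p ∈ B, (1 + 1 / (p : ℝ)) := by
  rw [prod_one_add]
  refine sum_congr rfl fun s _ => ?_
  simp [pd]

theorem empty_mem_Ch (e : ℕ) (X : ℝ) (w y : ℕ) : ∅ ∈ Ch e X w y :=
  mem_Ch.2 ⟨empty_subset _, fun p hp => absurd hp (notMem_empty p)⟩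

theorem Ch_parity {e e' : ℕ} (h : e % 2 = e' % 2) (X : ℝ) (w y : ℕ) : Ch e X w y = Ch e' X w y := by
  have key : ∀ c : ℕ, Even (e + c) ↔ Even (e' + c) := fun c => by
    rw [Nat.even_iff, Nat.even_iff]
    omega
  ext s
  simp only [mem_Ch, alive, key]

/-- only the integer part of the level matters -/
theorem Ch_natdiv (e D d w y : ℕ) (hd : 0 < d) :
    Ch e ((D : ℝ) / d) w y = Ch e ((D / d : ℕ) : ℝ) w y := by
  have key : ∀ a p : ℕ, (a : ℝ) * (p : ℝ) ^ 2 ≤ (D : ℝ) / d ↔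
      (a : ℝ) * (p : ℝ) ^ 2 ≤ ((D / d : ℕ) : ℝ) := fun a p => by
    rw [le_div_iff₀ (Nat.cast_pos.2 hd)]
    norm_cast
    exact (Nat.le_div_iff_mul_le hd).symm
  ext s
  simp only [mem_Ch, alive, key]

namespace ChainA

theorem alive_union {e : ℕ} {X : ℝ} {s1 s2 : Finset ℕ} (h0 : 0 < pd s1)
    (h : ∀ p ∈ s1, ∀ q ∈ s2, q < p) :
    alive e X (s1 ∪ s2) ↔ alive e X s1 ∧ alive (e + s1.card) (X / pd s1) s2 := by
  have h1 : ∀ p ∈ s1, (s1 ∪ s2).filter (p ≤ ·) = s1.filter (p ≤ ·) := fun p hp => by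
    rw [filter_union, filter_false_of_mem (s := s2) fun q hq => (h p hp q hq).not_ge, union_empty]
  have h2 : ∀ q ∈ s2, (s1 ∪ s2).filter (q ≤ ·) = s1 ∪ s2.filter (q ≤ ·) := fun q hq => by
    rw [filter_union, filter_true_of_mem (s := s1) fun p hp => (h p hp q hq).le]
  have hd : ∀ q, Disjoint s1 (s2.filter (q ≤ ·)) := fun q =>
    disjoint_left.2 fun p hp hp' => (h p hp p (mem_filter.1 hp').1).false
  unfold alive
  rw [forall_mem_union]
  refine and_congr (forall₂_congr fun p hp => by rw [h1 p hp]) (forall₂_congr fun q hq => ?_)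
  rw [h2 q hq, card_union_of_disjoint (hd q), pd_union (hd q), add_assoc,
    le_div_iff₀' (Nat.cast_pos.2 h0), Nat.cast_mul, mul_assoc]

theorem alive_singleton {e : ℕ} {X : ℝ} {p : ℕ} : alive e X {p} ↔ ok e X p := by
  have h : ({p} : Finset ℕ).filter (p ≤ ·) = {p} := filter_true_of_mem fun q hq => by
    rw [mem_singleton.1 hq]
  unfold alive ok
  simp only [mem_singleton, forall_eq, h, card_singleton, pd, prod_singleton, Nat.even_add_one,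
    Nat.not_even_iff_odd]
  rw [← pow_succ']

theorem insert_mem_Ch {e : ℕ} {X : ℝ} {w y p : ℕ} {s : Finset ℕ} (h : ∀ q ∈ s, q < p) :
    insert p s ∈ Ch e X w y ↔ p ∈ Pr w y ∧ ok e X p ∧ s ∈ Ch (e + 1) (X / p) w p := by
  have key : p.Prime → (alive e X (insert p s) ↔ ok e X p ∧ alive (e + 1) (X / p) s) := fun hp => by
    rw [insert_eq, alive_union (by simpa [pd] using hp.pos) (by simpa using h), alive_singleton]
    simp [pd]
  rw [mem_Ch, mem_Ch, insert_subset_iff]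
  constructor
  · rintro ⟨⟨hp, hs⟩, ha⟩
    have := (key (mem_Pr.1 hp).2.2).1 ha
    exact ⟨hp, this.1, fun q hq => mem_Pr.2 ⟨(mem_Pr.1 (hs hq)).1, h q hq, (mem_Pr.1 (hs hq)).2.2⟩,
      this.2⟩
  · rintro ⟨hp, hok, hs, ha⟩
    exact ⟨⟨hp, fun q hq => mem_Pr.2 ⟨(mem_Pr.1 (hs hq)).1, (h q hq).trans (mem_Pr.1 hp).2.1,
      (mem_Pr.1 (hs hq)).2.2⟩⟩, (key (mem_Pr.1 hp).2.2).2 ⟨hok, ha⟩⟩

theorem lt_of_mem_Ch {e : ℕ} {X : ℝ} {w y : ℕ} {s : Finset ℕ} (hs : s ∈ Ch e X w y) :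
    ∀ q ∈ s, q < y := fun _ hq => (mem_Pr.1 ((mem_Ch.1 hs).1 hq)).2.1

end ChainA

open ChainA

open Classical in
/-- split off the largest prime -/
theorem sum_Ch_rec (e : ℕ) (X : ℝ) (w y : ℕ) (F : Finset ℕ → ℝ) :
    ∑ s ∈ Ch e X w y, F s = F ∅ + ∑ p ∈ (Pr w y).filter (ok e X),
      ∑ s ∈ Ch (e + 1) (X / p) w p, F (insert p s) := by
  rw [← add_sum_erase _ _ (empty_mem_Ch e X w y), sum_sigma']
  congr 1
  symm
  refine sum_bij (fun a _ => insert a.1 a.2) ?_ ?_ ?_ fun _ _ => rfl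
  · rintro ⟨p, s⟩ ha
    obtain ⟨h1, h2⟩ := mem_sigma.1 ha
    exact mem_erase.2 ⟨insert_ne_empty _ _, (insert_mem_Ch (lt_of_mem_Ch h2)).2
      ⟨(mem_filter.1 h1).1, (mem_filter.1 h1).2, h2⟩⟩
  · rintro ⟨p, s⟩ ha ⟨q, t⟩ hb (h : insert p s = insert q t)
    have h1 := lt_of_mem_Ch (mem_sigma.1 ha).2
    have h2 := lt_of_mem_Ch (mem_sigma.1 hb).2
    dsimp only at h1 h2
    obtain rfl : p = q := by
      have h3 : p ∈ insert q t := h ▸ mem_insert_self p s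
      have h4 : q ∈ insert p s := h ▸ mem_insert_self q t
      rcases mem_insert.1 h3 with h3 | h3
      · exact h3
      rcases mem_insert.1 h4 with h4 | h4
      · exact h4.symm
      exact absurd (h1 q h4) (h2 p h3).not_gt
    obtain rfl : s = t := by
      rw [← erase_insert (s := s) fun hp => (h1 p hp).false, h,
        erase_insert fun hp => (h2 p hp).false]
    rfl
  · intro s hs
    obtain ⟨h0, hs⟩ := mem_erase.1 hs
    have hne := nonempty_iff_ne_empty.2 h0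
    have e1 := insert_erase (s.max'_mem hne)
    rw [← e1, insert_mem_Ch fun q hq =>
      lt_of_le_of_ne (s.le_max' q (mem_erase.1 hq).2) (mem_erase.1 hq).1] at hs
    exact ⟨⟨s.max' hne, s.erase (s.max' hne)⟩,
      mem_sigma.2 ⟨mem_filter.2 ⟨hs.1, hs.2.1⟩, hs.2.2⟩, e1⟩

/-- gluing of chains -/
theorem union_mem_Ch {e : ℕ} {X : ℝ} {w w' y : ℕ} (h1 : w ≤ w') (h2 : w' ≤ y) {s1 s2 : Finset ℕ}
    (hs1 : s1 ⊆ Pr w' y) (hs2 : s2 ⊆ Pr w w') :
    s1 ∪ s2 ∈ Ch e X w y ↔ s1 ∈ Ch e X w' y ∧ s2 ∈ Ch (e + s1.card) (X / pd s1) w w' := by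
  have h3 : s1 ∪ s2 ⊆ Pr w y := union_subset
    (fun p hp => mem_Pr.2 ⟨h1.trans (mem_Pr.1 (hs1 hp)).1, (mem_Pr.1 (hs1 hp)).2⟩)
    (fun p hp => mem_Pr.2 ⟨(mem_Pr.1 (hs2 hp)).1, (mem_Pr.1 (hs2 hp)).2.1.trans_le h2,
      (mem_Pr.1 (hs2 hp)).2.2⟩)
  rw [mem_Ch, mem_Ch, mem_Ch, alive_union (pd_pos fun p hp => (mem_Pr.1 (hs1 hp)).2.2)
    fun p hp q hq => (mem_Pr.1 (hs2 hq)).2.1.trans_le (mem_Pr.1 (hs1 hp)).1]
  simp only [h3, hs1, hs2, true_and]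

theorem filter_union_eq {w w' y : ℕ} {s1 s2 : Finset ℕ} (hs1 : s1 ⊆ Pr w' y) (hs2 : s2 ⊆ Pr w w') :
    (s1 ∪ s2).filter (w' ≤ ·) = s1 ∧ Disjoint s1 s2 := by
  refine ⟨?_, disjoint_left.2 fun p hp hp' =>
    (mem_Pr.1 (hs2 hp')).2.1.not_ge (mem_Pr.1 (hs1 hp)).1⟩
  rw [filter_union, filter_true_of_mem (s := s1) fun p hp => (mem_Pr.1 (hs1 hp)).1,
    filter_false_of_mem (s := s2) fun p hp => (mem_Pr.1 (hs2 hp)).2.1.not_ge, union_empty]

/-- split at the scale `w'` -/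
theorem sum_Ch_comp (e : ℕ) (X : ℝ) {w w' y : ℕ} (h1 : w ≤ w') (h2 : w' ≤ y) (F : Finset ℕ → ℝ) :
    ∑ s ∈ Ch e X w y, F s =
      ∑ s1 ∈ Ch e X w' y, ∑ s2 ∈ Ch (e + s1.card) (X / pd s1) w w', F (s1 ∪ s2) := by
  rw [sum_sigma']
  symm
  refine sum_bij (fun a _ => a.1 ∪ a.2) ?_ ?_ ?_ fun _ _ => rfl
  · rintro ⟨s1, s2⟩ ha
    obtain ⟨h3, h4⟩ := mem_sigma.1 ha
    exact (union_mem_Ch h1 h2 (mem_Ch.1 h3).1 (mem_Ch.1 h4).1).2 ⟨h3, h4⟩
  · rintro ⟨s1, s2⟩ ha ⟨t1, t2⟩ hb (h : s1 ∪ s2 = t1 ∪ t2)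
    obtain ⟨h3, h4⟩ := filter_union_eq (mem_Ch.1 (mem_sigma.1 ha).1).1
      (mem_Ch.1 (mem_sigma.1 ha).2).1
    obtain ⟨h5, h6⟩ := filter_union_eq (mem_Ch.1 (mem_sigma.1 hb).1).1
      (mem_Ch.1 (mem_sigma.1 hb).2).1
    dsimp only at h3 h4 h5 h6
    obtain rfl : s1 = t1 := by rw [← h3, h, h5]
    obtain rfl : s2 = t2 := by
      rw [← union_sdiff_cancel_left h4, h, union_sdiff_cancel_left h6]
    rfl
  · intro s hs
    have h3 := (mem_Ch.1 hs).1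
    have e1 : s.filter (w' ≤ ·) ∪ s.filter (fun p => ¬ w' ≤ p) = s :=
      filter_union_filter_not_eq _ _
    have hs1 : s.filter (w' ≤ ·) ⊆ Pr w' y := fun p hp =>
      mem_Pr.2 ⟨(mem_filter.1 hp).2, (mem_Pr.1 (h3 (mem_filter.1 hp).1)).2⟩
    have hs2 : s.filter (fun p => ¬ w' ≤ p) ⊆ Pr w w' := fun p hp =>
      mem_Pr.2 ⟨(mem_Pr.1 (h3 (mem_filter.1 hp).1)).1, not_le.1 (mem_filter.1 hp).2,
        (mem_Pr.1 (h3 (mem_filter.1 hp).1)).2.2⟩
    rw [← e1, union_mem_Ch h1 h2 hs1 hs2] at hs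
    exact ⟨⟨_, _⟩, mem_sigma.2 hs, e1⟩

theorem valid_child {e : ℕ} {X : ℝ} {w y p : ℕ} (hv : valid e X y) (hp : p ∈ Pr w y)
    (hok : ok e X p) : valid (e + 1) (X / p) p := by
  obtain ⟨-, hy, hpr⟩ := mem_Pr.1 hp
  have h1 : (1 : ℝ) ≤ p := by exact_mod_cast hpr.one_le
  have h0 : (0 : ℝ) < p := one_pos.trans_le h1
  have h2 : (p : ℝ) ≤ y := by exact_mod_cast hy.le
  refine ⟨hpr.two_le, ?_, fun he => ?_⟩
  · rw [le_div_iff₀ h0, ← sq]
    rcases Nat.even_or_odd e with he | he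
    · exact (pow_le_pow_left₀ h0.le h2 2).trans (hv.2.2 he)
    · exact (pow_le_pow_right₀ h1 (by norm_num)).trans (hok he)
  · rw [le_div_iff₀ h0, ← pow_succ]
    exact hok (Nat.not_even_iff_odd.1 (Nat.even_add_one.1 he))

/-- the state reached by a chain is valid at every scale `z ≤ y` below its primes -/
theorem valid_base {e : ℕ} {X : ℝ} {w y z : ℕ} (hv : valid e X y) {s : Finset ℕ}
    (hs : s ∈ Ch e X w y) (h2 : 2 ≤ z) (hz : z ≤ y) (hzs : ∀ p ∈ s, z ≤ p) :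
    valid (e + s.card) (X / pd s) z := by
  induction s using Finset.induction_on_max generalizing e X y with
  | empty =>
    have h : (z : ℝ) ≤ y := by exact_mod_cast hz
    simp only [card_empty, add_zero, pd, prod_empty, Nat.cast_one, div_one]
    exact ⟨h2, h.trans hv.2.1, fun he =>
      (pow_le_pow_left₀ (Nat.cast_nonneg _) h 2).trans (hv.2.2 he)⟩
  | insert p s hp ih =>
    obtain ⟨h3, h4, h5⟩ := (insert_mem_Ch hp).1 hs
    have h6 : p ∉ s := fun h => (hp p h).false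
    have := ih (valid_child hv h3 h4) h5 (hzs p (mem_insert_self _ _))
      fun q hq => hzs q (mem_insert_of_mem hq)
    rw [card_insert_of_notMem h6, pd, prod_insert h6, Nat.cast_mul, ← div_div, add_comm s.card,
      ← add_assoc]
    exact this

theorem pd_le {e : ℕ} {X : ℝ} {w y : ℕ} (hv : valid e X y) {s : Finset ℕ} (hs : s ∈ Ch e X w y) :
    (pd s : ℝ) ≤ X := by
  have hpr : ∀ p ∈ s, p.Prime := fun p hp => (mem_Pr.1 ((mem_Ch.1 hs).1 hp)).2.2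
  have h0 : (0 : ℝ) < pd s := Nat.cast_pos.2 (pd_pos hpr)
  have h := (valid_base hv hs le_rfl hv.1 fun p hp => (hpr p hp).two_le).2.1
  rw [le_div_iff₀ h0, Nat.cast_ofNat] at h
  linarith

end Crest.Agent.R1
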