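import Crest.Agent.R1.Defs2
import Crest.Agent.R1.ChainA

/-! Row 1: counting in the block. -/

set_option autoImplicit false

namespace Crest.Agent.R1
open Finset MeasureTheory Filter

namespace Cnt

theorem fst_spec' (N : ℤ) {g : ℕ} (hg : 1 ≤ g) :
    1 ≤ fst N g ∧ fst N g ≤ g ∧ (g : ℤ) ∣ N + fst N g := by
  have hg' : (0 : ℤ) < g := by exact_mod_cast hg
  have h0 : 0 ≤ (-(N + 1)) % (g : ℤ) := Int.emod_nonneg _ hg'.ne'
  have h1 : (-(N + 1)) % (g : ℤ) < g := Int.emod_lt_of_pos _ hg'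
  have h2 : (fst N g : ℤ) = (-(N + 1)) % (g : ℤ) + 1 := by
    rw [fst]
    push_cast
    rw [Int.toNat_of_nonneg h0]
  refine ⟨by omega, by omega, ?_⟩
  rw [h2, Int.emod_def]
  exact ⟨-((-(N + 1)) / (g : ℤ)), by ring⟩

theorem mem_aux (N : ℤ) (m : ℕ) {g : ℕ} (hg : 1 ≤ g) (n : ℕ) :
    (n ∈ Icc 1 m ∧ (g : ℤ) ∣ N + n) ↔ ∃ j < (m + g - fst N g) / g, n = fst N g + j * g := by
  obtain ⟨f1, f2, f3⟩ := fst_spec' N hg
  have key : ∀ j : ℕ, j < (m + g - fst N g) / g ↔ fst N g + j * g ≤ m := by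
    intro j
    rw [Nat.lt_iff_add_one_le, Nat.le_div_iff_mul_le (by omega), add_mul, one_mul]
    omega
  constructor
  · rintro ⟨hn, hd⟩
    rw [mem_Icc] at hn
    have h1 : (g : ℤ) ∣ (n : ℤ) - fst N g := by
      have := dvd_sub hd f3
      rwa [add_sub_add_left_eq_sub] at this
    have h2 : fst N g ≤ n := by
      by_contra hlt
      have h3 : (g : ℤ) ∣ (fst N g : ℤ) - n := by
        rw [← neg_sub]
        exact (dvd_neg).2 h1
      have h4 := Int.le_of_dvd (by omega) h3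
      omega
    have h3 : g ∣ n - fst N g := by
      rw [← Int.natCast_dvd_natCast, Nat.cast_sub h2]
      exact h1
    obtain ⟨j, hj⟩ := h3
    have h4 : n = fst N g + j * g := by
      rw [mul_comm j g, ← hj]
      omega
    exact ⟨j, (key j).2 (by omega), h4⟩
  · rintro ⟨j, hj, rfl⟩
    have h1 := (key j).1 hj
    refine ⟨mem_Icc.2 ⟨by omega, h1⟩, ?_⟩
    push_cast
    rw [← add_assoc]
    exact dvd_add f3 (dvd_mul_left _ _)

theorem inj (a : ℕ) {g : ℕ} (hg : 1 ≤ g) : Function.Injective fun j : ℕ => a + j * g := by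
  intro i j h
  exact Nat.eq_of_mul_eq_mul_right hg (Nat.add_left_cancel h)

theorem cnt_eq (N : ℤ) (m : ℕ) {g : ℕ} (hg : 1 ≤ g) : cnt N m g = (m + g - fst N g) / g := by
  have h : ((Icc 1 m).filter fun n : ℕ => (g : ℤ) ∣ N + n) =
      (range ((m + g - fst N g) / g)).image fun j => fst N g + j * g := by
    ext n
    rw [mem_filter, mem_aux N m hg, mem_image]
    constructor
    · rintro ⟨j, hj, rfl⟩
      exact ⟨j, mem_range.2 hj, rfl⟩
    · rintro ⟨j, hj, rfl⟩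
      exact ⟨j, mem_range.1 hj, rfl⟩
  rw [cnt, h, card_image_of_injective _ (inj _ hg), card_range]

theorem abs_aux {c b d : ℕ} (hd : 1 ≤ d) (h1 : c * d ≤ b + d) (h2 : b ≤ c * d + d) :
    |(c : ℝ) - b / d| ≤ 1 := by
  have hd' : (0 : ℝ) < d := by exact_mod_cast hd
  have h1' : (c : ℝ) * d ≤ b + d := by exact_mod_cast h1
  have h2' : (b : ℝ) ≤ c * d + d := by exact_mod_cast h2
  have h3 : (c : ℝ) - 1 ≤ b / d := by
    rw [le_div_iff₀ hd']
    linarith
  have h4 : (b : ℝ) / d ≤ c + 1 := by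
    rw [div_le_iff₀ hd']
    linarith
  rw [abs_le]
  constructor <;> linarith

end Cnt

theorem cnt_err (N : ℤ) (m : ℕ) {d : ℕ} (hd : 1 ≤ d) : |(cnt N m d : ℝ) - m / d| ≤ 1 := by
  obtain ⟨f1, f2, -⟩ := Cnt.fst_spec' N hd
  have h1 := Nat.div_mul_le_self (m + d - fst N d) d
  have h2 := Nat.lt_div_mul_add (a := m + d - fst N d) (b := d) hd
  rw [← Cnt.cnt_eq N m hd] at h1 h2
  exact Cnt.abs_aux hd (by omega) (by omega)

theorem fst_spec (N : ℤ) {g : ℕ} (hg : 1 ≤ g) :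
    1 ≤ fst N g ∧ fst N g ≤ g ∧ (g : ℤ) ∣ N + fst N g :=
  Cnt.fst_spec' N hg

/-- `I_g = {fst g + j g : j < cnt N m g}` -/
theorem mem_I (N : ℤ) (m : ℕ) {g : ℕ} (hg : 1 ≤ g) (n : ℕ) :
    (n ∈ Icc 1 m ∧ (g : ℤ) ∣ N + n) ↔ ∃ j < cnt N m g, n = fst N g + j * g := by
  rw [Cnt.cnt_eq N m hg]
  exact Cnt.mem_aux N m hg n

theorem cnt_mul (N : ℤ) (m : ℕ) {g d : ℕ} (hg : 1 ≤ g) (h : Nat.Coprime g d) :
    cnt N m (g * d) =
      ((range (cnt N m g)).filter fun j : ℕ => (d : ℤ) ∣ N + fst N g + j * g).card := by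
  have hc : IsCoprime (g : ℤ) (d : ℤ) := Nat.isCoprime_iff_coprime.2 h
  have h1 : ((Icc 1 m).filter fun n : ℕ => ((g * d : ℕ) : ℤ) ∣ N + n) =
      ((range (cnt N m g)).filter fun j : ℕ => (d : ℤ) ∣ N + fst N g + j * g).image
        fun j => fst N g + j * g := by
    ext n
    rw [mem_filter, mem_image]
    constructor
    · rintro ⟨hn, hd⟩
      push_cast at hd
      obtain ⟨j, hj, rfl⟩ := (mem_I N m hg n).1 ⟨hn, dvd_of_mul_right_dvd hd⟩
      refine ⟨j, mem_filter.2 ⟨mem_range.2 hj, ?_⟩, rfl⟩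
      have h2 := dvd_of_mul_left_dvd hd
      push_cast at h2
      rwa [← add_assoc] at h2
    · rintro ⟨j, hj, rfl⟩
      rw [mem_filter, mem_range] at hj
      obtain ⟨h2, h3⟩ := (mem_I N m hg _).2 ⟨j, hj.1, rfl⟩
      refine ⟨h2, ?_⟩
      rw [Nat.cast_mul]
      refine hc.mul_dvd h3 ?_
      push_cast
      rw [← add_assoc]
      exact hj.2
  rw [cnt, h1, card_image_of_injective _ (Cnt.inj _ hg)]

theorem root_lt (N : ℤ) (g : ℕ) {p : ℕ} (hp : p.Prime) : root N g p < p := by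
  have : NeZero p := ⟨hp.ne_zero⟩
  exact ZMod.val_lt _

theorem root_spec (N : ℤ) {g p : ℕ} (hp : p.Prime) (h : ¬ p ∣ g) (j : ℕ) :
    (p : ℤ) ∣ N + fst N g + j * g ↔ j % p = root N g p := by
  have : Fact p.Prime := ⟨hp⟩
  have hg : (g : ZMod p) ≠ 0 := by
    rwa [Ne, ZMod.natCast_eq_zero_iff]
  rw [← ZMod.intCast_zmod_eq_zero_iff_dvd, root, ← ZMod.val_natCast,
    (ZMod.val_injective p).eq_iff, eq_mul_inv_iff_mul_eq₀ hg, Int.cast_add (N + fst N g),
    Int.cast_mul, Int.cast_natCast, Int.cast_natCast, add_comm, add_eq_zero_iff_eq_neg]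

/-- `cnt_mul`: `I_d` is a progression of difference prime to `p` -/
theorem cnt_prime (N : ℤ) (m : ℕ) {d p : ℕ} (hd : 1 ≤ d) (hp : p.Prime) (h : ¬ p ∣ d) :
    |(cnt N m (d * p) : ℝ) - (cnt N m d : ℝ) / p| ≤ 1 := by
  have hc : Nat.Coprime d p := ((Nat.Prime.coprime_iff_not_dvd hp).2 h).symm
  have h1 : cnt N m (d * p) = (cnt N m d).count (· ≡ root N d p [MOD p]) := by
    rw [cnt_mul N m hd hc, Nat.count_eq_card_filter_range]
    congr 1
    refine filter_congr fun j _ => ?_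
    rw [root_spec N hp h, Nat.ModEq, Nat.mod_eq_of_lt (root_lt N d hp)]
  rw [Nat.count_modEq_card _ hp.pos] at h1
  have h2 := Nat.div_mul_le_self (cnt N m d) p
  have h3 := Nat.lt_div_mul_add (a := cnt N m d) (b := p) hp.pos
  refine Cnt.abs_aux hp.pos ?_ ?_
  · rw [h1]
    split_ifs
    · rw [add_mul, one_mul]
      omega
    · rw [add_zero]
      omega
  · rw [h1]
    split_ifs
    · rw [add_mul, one_mul]
      omega
    · rw [add_zero]
      omega

end Crest.Agent.R1
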