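import Mathlib

/-!
Row 1 (Jacobsthal's function): definitions.

Plan. `I_g = {1 ≤ n ≤ m : g ∣ N + n}`. Rosser's linear sieve is run on chains of primes
`p₁ > p₂ > …` (finite sets), a chain is dropped at even length when `p₁ ⋯ p_n · p_n² > X`.
`qa = F - 1`, `qb = 1 - f` are the sieve functions, `hh` is the positive harmonic function of degree
`-2` of the killed chain, `Gf`, `GG` are auxiliary super-solutions. For *eligible* chains the primes
below `w0` are sieved with a level larger by the factor `w0`; the remainder terms are controlled by the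
fingerprint / collinearity lemma `fp`; if almost all large primes lie on one rich line, primes in
progressions give the result directly (`caseA`).
-/

set_option autoImplicit false

namespace Crest.Agent.R1
noncomputable section
open Finset MeasureTheory

/-! ## Chains -/

/-- the primes in `[w, y)` -/
def Pr (w y : ℕ) : Finset ℕ := (Finset.Ico w y).filter Nat.Prime

/-- product of a finite set -/
def pd (s : Finset ℕ) : ℕ := ∏ p ∈ s, p

/-- Rosser's condition from the state (parity `e`, level `X`) -/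
def alive (e : ℕ) (X : ℝ) (s : Finset ℕ) : Prop :=
  ∀ p ∈ s, Even (e + (s.filter (p ≤ ·)).card) →
    (pd (s.filter (p ≤ ·)) : ℝ) * (p : ℝ) ^ 2 ≤ X

open Classical in
/-- the living chains of primes in `[w, y)` -/
def Ch (e : ℕ) (X : ℝ) (w y : ℕ) : Finset (Finset ℕ) := (Pr w y).powerset.filter (alive e X)

/-- the prime `p` may be appended in the state `(e, X)` -/
def ok (e : ℕ) (X : ℝ) (p : ℕ) : Prop := Odd e → (p : ℝ) ^ 3 ≤ X

open Classical in
/-- the dropped chains: (living chain, last prime) -/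
def Dr (e : ℕ) (X : ℝ) (w y : ℕ) : Finset (Finset ℕ × ℕ) :=
  ((Pr w y).powerset ×ˢ Pr w y).filter fun a =>
    a.1 ∈ Ch e X (a.2 + 1) y ∧ ¬ ok (e + a.1.card) (X / pd a.1) a.2

/-- admissible states -/
def valid (e : ℕ) (X : ℝ) (y : ℕ) : Prop :=
  2 ≤ y ∧ (y : ℝ) ≤ X ∧ (Even e → (y : ℝ) ^ 2 ≤ X)

/-- `∏_{p < y} (1 - 1/p)` -/
def Vp (y : ℕ) : ℝ := ∏ p ∈ Pr 2 y, (1 - 1 / (p : ℝ))

/-- main term of the sieve -/
def Mn (e : ℕ) (X : ℝ) (w y : ℕ) : ℝ := ∑ s ∈ Ch e X w y, (-1 : ℝ) ^ s.card / pd s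

/-- dropped mass -/
def Nn (e : ℕ) (X : ℝ) (w y : ℕ) : ℝ := ∑ a ∈ Dr e X w y, Vp a.2 / (pd a.1 * a.2)

/-- sum of a terminal reward over the living chains -/
def Phi (e : ℕ) (X : ℝ) (w y : ℕ) (R : ℕ → ℝ → ℝ) : ℝ :=
  ∑ s ∈ Ch e X w y, R (e + s.card) (X / pd s) / pd s

/-! ## The sieve functions -/

/-- `a = F - 1`, `b = 1 - f` -/
structure IsQF (a b : ℝ → ℝ) : Prop where
  b_one : ∀ s, s ≤ 2 → b s = 1
  a_pos : ∀ s, 1 ≤ s → 0 < a s
  b_pos : ∀ s, 0 < b s
  a_anti : AntitoneOn a (Set.Ici 1)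
  b_anti : Antitone b
  a_eq : ∀ s, 1 ≤ s → s * a s = ∫ u in Set.Ioi (s - 1), b u
  b_eq : ∀ s, 2 ≤ s → s * b s = ∫ u in Set.Ioi (s - 1), a u
  decay : ∃ K : ℝ, ∀ s, 1 ≤ s → a s ≤ K * Real.exp (-3 * s) ∧ b s ≤ K * Real.exp (-3 * s)

def qab : (ℝ → ℝ) × (ℝ → ℝ) := Classical.epsilon fun ab => IsQF ab.1 ab.2

def qa : ℝ → ℝ := qab.1
def qb : ℝ → ℝ := qab.2

def qq (e : ℕ) (s : ℝ) : ℝ := if Even e then qb s else qa s

def eta (e : ℕ) (s : ℝ) : ℝ :=
  if Even e then (if 2 ≤ s then s * (qb s + qa (s - 1)) else 0) else s * (qa s + qb (s - 1))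

/-- lower end of the range of `u = log X / log p` of the admissible next primes -/
def cut (e : ℕ) (s : ℝ) : ℝ := if Odd e then max s 3 else s

/-- the harmonic function of degree `-2` -/
def hh (e : ℕ) (X : ℝ) (y : ℕ) : ℝ := eta e (Real.log X / Real.log y) / Real.log X ^ 2

def Gf (X : ℝ) (y : ℕ) : ℝ := Real.exp (-(Real.log X / Real.log y)) / Real.log X ^ 3

def GG (X : ℝ) (y : ℕ) : ℝ := Real.log y * Gf X y

def Wf (e : ℕ) (X : ℝ) (y : ℕ) : ℝ := hh e X y + GG X y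

/-- the super-solution -/
def EE (c u : ℝ) (e : ℕ) (X : ℝ) (y : ℕ) : ℝ := c * (2 - u / Real.log X) * hh e X y + u * Gf X y

/-- harmonic weight at the base scale `w` of the chain `s` started at `(e, X)` -/
def hw (e : ℕ) (X : ℝ) (w : ℕ) (s : Finset ℕ) : ℝ := hh (e + s.card) (X / pd s) w / pd s

/-! ## Inputs on primes -/

/-- prime number theorem in progressions with a power saving (from `S0022`) -/
def ThetaStmt : Prop :=
  ∃ δ K : ℝ, 0 < δ ∧ δ ≤ 1 / 4 ∧ 0 < K ∧ ∀ r a N : ℕ, 1 ≤ r → Nat.Coprime a r →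
    |∑ n ∈ Ioc 0 N, (if n.Prime ∧ n ≡ a [MOD r] then Real.log n else 0) - N / (r.totient : ℝ)| ≤
      K * (N : ℝ) ^ (1 - δ) * Real.log (2 * r)

/-- Mertens' theorems with a good error term -/
def MerStmt : Prop :=
  ∃ K c : ℝ, 0 < c ∧ 0 < K ∧ ∀ w y : ℕ, 2 ≤ w → w ≤ y →
    |∑ p ∈ Pr w y, 1 / (p : ℝ) - Real.log (Real.log y / Real.log w)| ≤ K / Real.log w ^ 3 ∧
    |Vp y * Real.log y - Vp w * Real.log w| ≤ K / Real.log w ^ 3 ∧
    c ≤ Vp y * Real.log y ∧ Vp y * Real.log y ≤ K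

end
end Crest.Agent.R1
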