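import Crest.Agent.R1.Defs

/-! Row 1: definitions, second part (the block, fingerprints, the hybrid sieve). -/

set_option autoImplicit false

namespace Crest.Agent.R1
noncomputable section
open Finset MeasureTheory

/-! ## The block -/

/-- `#I_d` -/
def cnt (N : ℤ) (m d : ℕ) : ℕ := ((Icc 1 m).filter fun n : ℕ => (d : ℤ) ∣ N + n).card

/-- the elements of `I_{∏ s}` without prime factor below `z` -/
def Tn (N : ℤ) (m : ℕ) (s : Finset ℕ) (z : ℕ) : ℕ :=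
  ((Icc 1 m).filter fun n : ℕ => (pd s : ℤ) ∣ N + n ∧ ∀ p ∈ Pr 2 z, ¬ (p : ℤ) ∣ N + n).card

/-- the least `n ≥ 1` with `g ∣ N + n` -/
def fst (N : ℤ) (g : ℕ) : ℕ := ((-(N + 1)) % (g : ℤ)).toNat + 1

/-- the class of the `j` with `p ∣ N + fst g + j g` -/
def root (N : ℤ) (g p : ℕ) : ℕ := (-((N + fst N g : ℤ) : ZMod p) * (g : ZMod p)⁻¹).val

/-- the node `(fst g, g)` lies on the line `r = (v, u, a)` -/
def onL (N : ℤ) (r : ℕ × ℤ × ℤ) (g : ℕ) : Prop := (r.1 : ℤ) * fst N g - r.2.1 * g = -r.2.2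

open Classical in
/-- the rich lines -/
def Rich (N : ℤ) (m H Ms : ℕ) : Finset (ℕ × ℤ × ℤ) :=
  (Icc 1 H ×ˢ Icc (-(H : ℤ)) H ×ˢ Icc (-(2 * H * m : ℤ)) (2 * H * m)).filter fun r =>
    Ms ≤ ((Icc 1 m).filter (onL N r)).card

def onRich (N : ℤ) (m H Ms g : ℕ) : Prop := ∃ r ∈ Rich N m H Ms, onL N r g

/-- the prime `p` belongs to the line `r` -/
def inS (N : ℤ) (r : ℕ × ℤ × ℤ) (p : ℕ) : Prop := (p : ℤ) ∣ (r.1 : ℤ) * N - r.2.2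

open Classical in
/-- reciprocal mass of the primes of `[w, y)` foreign to the line `r` -/
def fm (N : ℤ) (r : ℕ × ℤ × ℤ) (w y : ℕ) : ℝ :=
  ∑ p ∈ (Pr w y).filter (fun p => ¬ inS N r p), 1 / (p : ℝ)

/-! ## The fingerprint lemma -/

def win (Wn : ℕ → ℕ) (i : ℕ) : Finset ℕ := Pr (Wn i) (Wn (i + 1))

def tup (Wn : ℕ → ℕ) (s : ℕ) : Finset (Fin s → ℕ) := Fintype.piFinset fun i => win Wn (i + 1)

/-- the statistic of the node `g` -/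
def Zs (N : ℤ) (m : ℕ) (Wn : ℕ → ℕ) (s : ℕ) (b : ℕ → (Fin s → ℕ) → ℝ) (g : ℕ) : ℝ :=
  ∑ p ∈ win Wn 0, ∑ τ ∈ tup Wn s,
    b p τ * ((cnt N m (g * (∏ i, τ i) * p) : ℝ) - (cnt N m (g * ∏ i, τ i) : ℝ) / p)

/-- tuples in a block -/
def blk (Wn : ℕ → ℕ) (s t : ℕ) (β : Fin s → ℕ) : Finset (Fin s → ℕ) :=
  Fintype.piFinset fun i => (win Wn (i + 1)).filter fun x => x / t = β i

/-- primes of the first window in `[2^j, 2^(j+1))` -/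
def dy (Wn : ℕ → ℕ) (j : ℕ) : Finset ℕ := (win Wn 0).filter fun p => 2 ^ j ≤ p ∧ p < 2 ^ (j + 1)

def Aset {s : ℕ} (l : ℕ) (c : ℕ → ℕ) (τ : Fin s → ℕ) : Finset ℕ :=
  (range l).filter fun j => ∀ i, j % τ i = c (τ i)

/-- the sampled statistic of the class `c0` modulo `p` -/
def Zfp (Wn : ℕ → ℕ) (s t : ℕ) (b : ℕ → (Fin s → ℕ) → ℝ) (l : ℕ) (c : ℕ → ℕ) (β : Fin s → ℕ)
    (p c0 : ℕ) : ℝ :=
  ∑ τ ∈ blk Wn s t β,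
    b p τ * ((((Aset l c τ).filter fun j => j % p = c0).card : ℝ) - ((Aset l c τ).card : ℝ) / p)

/-- numerical hypotheses of the fingerprint lemma -/
structure FpNum (m s t : ℕ) (Wn : ℕ → ℕ) (Λ : ℝ) : Prop where
  mono : Monotone Wn
  t1 : 1 ≤ t
  t2 : t ≤ Wn 1
  t3 : 2 * Wn 1 ≤ t ^ s
  l1 : 100 ≤ Λ
  l2 : Λ ^ 40 ≤ Wn 0
  l3 : Real.log m ≤ Λ
  l4 : 2 * (1 + Real.log (Wn (s + 1))) ^ (s + 1) ≤ Λ

/-- the coefficient `b` is admissible for the node `g` -/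
def Adm (m s : ℕ) (Wn : ℕ → ℕ) (Λ : ℝ) (b : ℕ → (Fin s → ℕ) → ℝ) (g : ℕ) : Prop :=
  1 ≤ g ∧ g ≤ m ∧ ∀ p ∈ win Wn 0, ∀ τ ∈ tup Wn s, b p τ ≠ 0 →
    Nat.Coprime g ((∏ i, τ i) * p) ∧ ((g * (∏ i, τ i) * p : ℕ) : ℝ) ≤ Λ * m

/-! ## The sieve -/

structure Par where
  N : ℤ
  m : ℕ
  D0 : ℕ
  y0 : ℕ
  w0 : ℕ
  s : ℕ
  σ1 : ℕ
  σ2 : ℕ
  H : ℕ
  Ms : ℕ
  y5 : ℕ
  Wn : ℕ → ℕ

namespace Par
variable (Q : Par)

def w2 : ℕ := Q.Wn (Q.s + 1)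

def Ri : Finset (ℕ × ℤ × ℤ) := Rich Q.N Q.m Q.H Q.Ms

/-- all primes `≥ y5` of `g` belong to the line `r` -/
def pureR (r : ℕ × ℤ × ℤ) (g : Finset ℕ) : Prop := ∀ p ∈ g, Q.y5 ≤ p → inS Q.N r p

def pure (g : Finset ℕ) : Prop := ∃ r ∈ Q.Ri, Q.pureR r g

def elig (g : Finset ℕ) : Prop :=
  ¬ Q.pure g ∧ Q.D0 / pd (g.filter (Q.w2 ≤ ·)) < Q.w2 ^ Q.σ2 ∧
    (∀ i ≤ Q.s, ∃ p ∈ g, p ∈ win Q.Wn i) ∧ Q.D0 / pd g < Q.w0 ^ Q.σ1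

open Classical in
/-- level of the second stage -/
def lev (g : Finset ℕ) : ℕ := if Q.elig g then Q.w0 * (Q.D0 / pd g) else Q.D0 / pd g

/-- first-stage chains -/
def C1 : Finset (Finset ℕ) := Ch 0 Q.D0 Q.w0 Q.y0

/-- second-stage chains -/
def C2 (g : Finset ℕ) : Finset (Finset ℕ) := Ch g.card (Q.lev g) 2 Q.w0

/-- ordering of the scales -/
structure Ord : Prop where
  mono : Monotone Q.Wn
  w0 : 2 ≤ Q.w0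
  w1 : Q.w0 ≤ Q.Wn 0
  w2 : Q.w2 ≤ Q.y5
  w3 : Q.y5 ≤ Q.y0
  v1 : Q.y0 ^ 2 ≤ Q.D0
  v2 : Q.D0 ≤ Q.y0 ^ 3
  d : Q.D0 ≤ Q.m

end Par

end
end Crest.Agent.R1
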