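import Crest.Agent.R1.EtaAux

/-! Row 1: the sieve functions and the harmonic function. -/

set_option autoImplicit false

namespace Crest.Agent.R1
open Finset MeasureTheory Filter

theorem qq_pos (e : ℕ) {s : ℝ} (hs : 1 ≤ s) : 0 < qq e s := by
  unfold qq
  split_ifs
  · exact isQF.b_pos s
  · exact isQF.a_pos s hs

theorem qq_anti (e : ℕ) : AntitoneOn (qq e) (Set.Ici 1) := by
  intro s hs t ht hst
  unfold qq
  split_ifs
  · exact isQF.b_anti hst
  · exact isQF.a_anti hs ht hst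

theorem qq_le : ∃ K : ℝ, 0 < K ∧ ∀ (e : ℕ) (s : ℝ), 1 ≤ s → qq e s ≤ K * Real.exp (-3 * s) := by
  obtain ⟨K, hK⟩ := isQF.decay
  refine ⟨|K| + 1, by positivity, fun e s hs => ?_⟩
  have h : K * Real.exp (-3 * s) ≤ (|K| + 1) * Real.exp (-3 * s) :=
    mul_le_mul_of_nonneg_right (by linarith [le_abs_self K]) (Real.exp_pos _).le
  unfold qq
  split_ifs
  · exact (hK s hs).2.trans h
  · exact (hK s hs).1.trans h

/-- `u ↦ qq (e+1) (u-1)` is non-negative, antitone and `≤ K exp(-3u)` on `[s, ∞)` -/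
theorem qq_child : ∃ K : ℝ, 0 < K ∧ ∀ (e : ℕ) (s : ℝ), 1 ≤ s → (Even e → 2 ≤ s) →
    AntitoneOn (fun u => qq (e + 1) (u - 1)) (Set.Ici s) ∧
    ∀ u, s ≤ u → 0 ≤ qq (e + 1) (u - 1) ∧ qq (e + 1) (u - 1) ≤ K * Real.exp (-3 * u) := by
  obtain ⟨K, hK0, hK⟩ := qq_le
  refine ⟨K * Real.exp 3 + Real.exp 6, by positivity, fun e s hs he => ?_⟩
  have h2 : ∀ u : ℝ, 2 ≤ u → 0 ≤ qq (e + 1) (u - 1) ∧
      qq (e + 1) (u - 1) ≤ (K * Real.exp 3 + Real.exp 6) * Real.exp (-3 * u) := fun u hu => by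
    refine ⟨(qq_pos _ (by linarith)).le, (hK _ _ (by linarith)).trans ?_⟩
    rw [show -3 * (u - 1) = 3 + -3 * u by ring, Real.exp_add, ← mul_assoc]
    exact mul_le_mul_of_nonneg_right (by linarith [Real.exp_pos 6]) (Real.exp_pos _).le
  by_cases hev : Even e
  · have hs2 := he hev
    refine ⟨fun u hu v hv huv => ?_, fun u hu => h2 u (hs2.trans hu)⟩
    have hu' : s ≤ u := hu
    have hv' : s ≤ v := hv
    exact qq_anti (e + 1) (show (1 : ℝ) ≤ u - 1 by linarith) (show (1 : ℝ) ≤ v - 1 by linarith)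
      (by linarith)
  · have hev' : Even (e + 1) := Nat.even_add_one.mpr hev
    have hq : ∀ t, qq (e + 1) t = qb t := fun t => if_pos hev'
    refine ⟨fun u hu v hv huv => ?_, fun u hu => ?_⟩
    · simp only [hq]
      exact isQF.b_anti (by linarith)
    · rcases le_total 2 u with h | h
      · exact h2 u h
      · rw [hq, isQF.b_one _ (by linarith)]
        refine ⟨zero_le_one, ?_⟩
        have h3 : (1 : ℝ) ≤ Real.exp 6 * Real.exp (-3 * u) := by
          rw [← Real.exp_add]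
          exact Real.one_le_exp (by linarith)
        have h4 : 0 ≤ K * Real.exp 3 * Real.exp (-3 * u) := by positivity
        linarith [add_mul (K * Real.exp 3) (Real.exp 6) (Real.exp (-3 * u))]

theorem Eta.shift (f : ℝ → ℝ) (s : ℝ) :
    ∫ u in Set.Ioi s, f (u - 1) = ∫ u in Set.Ioi (s - 1), f u := by
  rw [← integral_indicator measurableSet_Ioi, ← integral_indicator measurableSet_Ioi,
    ← integral_sub_right_eq_self ((Set.Ioi (s - 1)).indicator f) 1]
  congr 1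
  funext u
  simp only [Set.indicator, Set.mem_Ioi, sub_lt_sub_iff_right]

theorem Eta.integrableOn (e : ℕ) {s : ℝ} (hs : 1 ≤ s) (he : Even e → 2 ≤ s) :
    IntegrableOn (fun u => qq (e + 1) (u - 1)) (Set.Ioi s) := by
  obtain ⟨K, hK0, hK⟩ := qq_child
  obtain ⟨h1, h2⟩ := hK e s hs he
  have h3 : IntegrableOn (fun u : ℝ => K * Real.exp (-3 * u)) (Set.Ioi s) :=
    (exp_neg_integrableOn_Ioi s (by norm_num : (0 : ℝ) < 3)).const_mul K
  refine Integrable.mono' h3 (aemeasurable_restrict_of_antitoneOn measurableSet_Ioi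
    (h1.mono Set.Ioi_subset_Ici_self)).aestronglyMeasurable ?_
  refine (ae_restrict_iff' measurableSet_Ioi).mpr (Eventually.of_forall fun u hu => ?_)
  rw [Real.norm_eq_abs, abs_of_nonneg (h2 u (le_of_lt hu)).1]
  exact (h2 u (le_of_lt hu)).2

theorem Eta.eta_eq (e : ℕ) {s : ℝ} (he : Even e → 2 ≤ s) :
    eta e s = s * (qq e s + qq (e + 1) (s - 1)) := by
  unfold eta qq
  by_cases hev : Even e
  · rw [if_pos hev, if_pos (he hev), if_pos hev, if_neg (by rw [Nat.even_add_one]; exact not_not.mpr hev)]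
  · rw [if_neg hev, if_neg hev, if_pos (Nat.even_add_one.mpr hev)]

theorem Eta.lower (σ : ℝ) : ∃ c : ℝ, 0 < c ∧ ∀ (e : ℕ) (s : ℝ), 1 ≤ s → s ≤ σ → c ≤ qq e s := by
  refine ⟨min (qa (max σ 1)) (qb (max σ 1)),
    lt_min (isQF.a_pos _ (le_max_right _ _)) (isQF.b_pos _), fun e s hs hσ => ?_⟩
  refine le_trans ?_ (qq_anti e hs (le_max_right σ 1) (hσ.trans (le_max_left σ 1)))
  unfold qq
  split_ifs
  · exact min_le_right _ _
  · exact min_le_left _ _

theorem qq_eq (e : ℕ) {s : ℝ} (hs : 1 ≤ s) (he : Even e → 2 ≤ s) :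
    s * qq e s = ∫ u in Set.Ioi s, qq (e + 1) (u - 1) := by
  rw [Eta.shift (qq (e + 1)) s]
  by_cases hev : Even e
  · have h1 : qq (e + 1) = qa :=
      funext fun t => if_neg (by rw [Nat.even_add_one]; exact not_not.mpr hev)
    have h2 : qq e s = qb s := if_pos hev
    rw [h1, h2]
    exact isQF.b_eq s (he hev)
  · have h1 : qq (e + 1) = qb := funext fun t => if_pos (Nat.even_add_one.mpr hev)
    have h2 : qq e s = qa s := if_neg hev
    rw [h1, h2]
    exact isQF.a_eq s hs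

/-- with `Q(s) = ∫_{u>s} qq (e+1) (u-1)`: `Q(s)/s - Q(s+1)/(s+1) ≥ (Q(s)-Q(s+1))/(s+1) ≥ qq (e+1) s/(s+1)`. -/
theorem qq_gain (σ : ℝ) : ∃ c : ℝ, 0 < c ∧ ∀ (e : ℕ) (s : ℝ), 1 ≤ s → (Even e → 2 ≤ s) → s ≤ σ →
    c ≤ qq e s - qq e (s + 1) := by
  obtain ⟨c, hc, hcq⟩ := Eta.lower σ
  obtain ⟨K, hK0, hK⟩ := qq_child
  refine ⟨c / (|σ| + 1), by positivity, fun e s hs he hσ => ?_⟩
  have h1 := qq_eq e hs he
  have h2 := qq_eq e (s := s + 1) (by linarith) fun h => by linarith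
  have hi := Eta.integrableOn e hs he
  have h3 := intervalIntegral.integral_Ioi_sub_Ioi hi (by linarith : s ≤ s + 1)
  have h4 : ∫ _ in s..(s + 1), c ≤ ∫ u in s..(s + 1), qq (e + 1) (u - 1) := by
    refine intervalIntegral.integral_mono_on (by linarith) intervalIntegrable_const
      ((intervalIntegrable_iff_integrableOn_Ioc_of_le (by linarith)).mpr
        (hi.mono_set Set.Ioc_subset_Ioi_self)) fun u hu => ?_
    have h5 := (hK e s hs he).1 (show u ∈ Set.Ici s from hu.1)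
      (show s + 1 ∈ Set.Ici s from by simp) hu.2
    simp only [add_sub_cancel_right] at h5
    exact (hcq (e + 1) s hs hσ).trans h5
  rw [intervalIntegral.integral_const, add_sub_cancel_left, smul_eq_mul, one_mul] at h4
  have h6 : c ≤ (s + 1) * (qq e s - qq e (s + 1)) := by
    have := qq_pos e hs
    nlinarith
  have h7 : 0 ≤ qq e s - qq e (s + 1) :=
    sub_nonneg.mpr (qq_anti e hs (show (1 : ℝ) ≤ s + 1 by linarith) (by linarith))
  rw [div_le_iff₀ (by positivity)]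
  have h8 : s + 1 ≤ |σ| + 1 := by linarith [le_abs_self σ]
  nlinarith [mul_le_mul_of_nonneg_right h8 h7]

theorem eta_nonneg (e : ℕ) {s : ℝ} (hs : 1 ≤ s) : 0 ≤ eta e s := by
  obtain ⟨K, hK0, hK⟩ := qq_child
  by_cases he : Even e → 2 ≤ s
  · rw [Eta.eta_eq e he]
    exact mul_nonneg (by linarith) (add_nonneg (qq_pos e hs).le ((hK e s hs he).2 s le_rfl).1)
  · rw [Classical.not_imp] at he
    unfold eta
    rw [if_pos he.1, if_neg he.2]

theorem eta_le : ∃ K : ℝ, 0 < K ∧ ∀ (e : ℕ) (s : ℝ), 1 ≤ s → eta e s ≤ K * Real.exp (-2 * s) := by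
  obtain ⟨K, hK0, hK⟩ := qq_child
  obtain ⟨K', hK0', hK'⟩ := qq_le
  refine ⟨K' + K, by positivity, fun e s hs => ?_⟩
  by_cases he : Even e → 2 ≤ s
  · rw [Eta.eta_eq e he]
    have h1 : qq e s + qq (e + 1) (s - 1) ≤ (K' + K) * Real.exp (-3 * s) := by
      linarith [hK' e s hs, ((hK e s hs he).2 s le_rfl).2, add_mul K' K (Real.exp (-3 * s))]
    have h2 : s ≤ Real.exp s := by linarith [Real.add_one_le_exp s]
    calc s * (qq e s + qq (e + 1) (s - 1)) ≤ s * ((K' + K) * Real.exp (-3 * s)) :=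
          mul_le_mul_of_nonneg_left h1 (by linarith)
      _ ≤ Real.exp s * ((K' + K) * Real.exp (-3 * s)) :=
          mul_le_mul_of_nonneg_right h2 (by positivity)
      _ = (K' + K) * Real.exp (-2 * s) := by
          rw [show -2 * s = s + -3 * s by ring, Real.exp_add]
          ring
  · rw [Classical.not_imp] at he
    unfold eta
    rw [if_pos he.1, if_neg he.2]
    positivity

/-- Harmonicity. With `w = u - 1` the integrand is `(1 + 1/w)(x(w) + y(w-1))`, `(x,y) = (qb,qa)` or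
`(qa,qb)`, where `w x(w) = ∫_{r>w} y(r-1) dr`. The function `w ↦ x(w)` is `C¹`-like:
`x(w₀) - x(w₁) = ∫_{w₀}^{w₁} (x(w) + y(w-1))/w` (Fubini, or integration by parts for the absolutely
continuous `w ↦ ∫_{r>w} y(r-1)`; `qa`, `qb` are in fact continuous on `[1,∞)`, resp. `ℝ`, so the FTC applies);
`∫_{w₀}^{w₁} x = (w₀+1) y(w₀+1) - (w₁+1) y(w₁+1)`, `∫_{w₀}^{w₁} y(w-1) = w₀ x(w₀) - w₁ x(w₁)`.
For odd `e` and `s ≤ 3`, `eta e s = s qa s + s` is constant. -/
theorem eta_harm (e : ℕ) {s s' : ℝ} (hs : 1 ≤ s) (he : Even e → 2 ≤ s) (hss : s ≤ s') :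
    IntegrableOn (fun u => eta (e + 1) (u - 1) * u / (u - 1) ^ 2) (Set.Ioc (cut e s) s') ∧
    eta e s = eta e s' + ∫ u in Set.Ioc (cut e s) s', eta (e + 1) (u - 1) * u / (u - 1) ^ 2 :=
  EtaAux.harm e hs he hss

theorem eta_anti (e : ℕ) {s s' : ℝ} (hs : 1 ≤ s) (he : Even e → 2 ≤ s) (hss : s ≤ s') :
    eta e s' ≤ eta e s :=
  EtaAux.anti e hs he hss

theorem eta_ge (σ : ℝ) : ∃ c : ℝ, 0 < c ∧ ∀ (e : ℕ) (s : ℝ), 1 ≤ s → (Even e → 2 ≤ s) → s ≤ σ →
    c ≤ eta e s := by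
  obtain ⟨c, hc, hcq⟩ := Eta.lower σ
  obtain ⟨K, hK0, hK⟩ := qq_child
  refine ⟨c, hc, fun e s hs he hσ => ?_⟩
  rw [Eta.eta_eq e he]
  have h1 := hcq e s hs hσ
  have h2 := ((hK e s hs he).2 s le_rfl).1
  nlinarith

end Crest.Agent.R1
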