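import Crest.Agent.R1.QFun

/-! Row 1: harmonicity of `eta`. -/

set_option autoImplicit false

namespace Crest.Agent.R1
open MeasureTheory Filter Set

namespace EtaAux

theorem tail_deriv {y : ℝ → ℝ} {c t : ℝ} (hi : IntegrableOn y (Ioi c)) (hy : ContinuousOn y (Ici c))
    (ht : c < t) : HasDerivAt (fun t => ∫ u in Ioi t, y u) (-y t) t := by
  have h1 : HasDerivAt (fun t => ∫ u in c..t, y u) (y t) t :=
    intervalIntegral.integral_hasDerivAt_right
      ((hy.mono (by rw [uIcc_of_le ht.le]; exact Icc_subset_Ici_self)).intervalIntegrable)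
      ((hy.mono Ioi_subset_Ici_self).stronglyMeasurableAtFilter isOpen_Ioi t ht)
      (hy.continuousAt (Ici_mem_nhds ht))
  refine (h1.const_sub (∫ u in Ioi c, y u)).congr_of_eventuallyEq ?_
  filter_upwards [Ioi_mem_nhds ht] with r hr
  rw [← intervalIntegral.integral_Ioi_sub_Ioi hi (le_of_lt hr)]
  ring

theorem core {x y : ℝ → ℝ} {c : ℝ} (hc : 1 ≤ c) (hxi : IntegrableOn x (Ioi c))
    (hyi : IntegrableOn y (Ioi (c - 1))) (hx : ContinuousOn x (Ici c))
    (hy : ContinuousOn y (Ici (c - 1))) (ex : ∀ w, c ≤ w → w * x w = ∫ u in Ioi (w - 1), y u)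
    (ey : ∀ u, c + 1 ≤ u → u * y u = ∫ r in Ioi (u - 1), x r) {s s' : ℝ} (hs : c + 1 ≤ s)
    (hss : s ≤ s') :
    IntegrableOn (fun u => (u - 1) * (x (u - 1) + y (u - 1 - 1)) * u / (u - 1) ^ 2) (Ioc s s') ∧
    s * (y s + x (s - 1)) = s' * (y s' + x (s' - 1)) +
      ∫ u in Ioc s s', (u - 1) * (x (u - 1) + y (u - 1 - 1)) * u / (u - 1) ^ 2 := by
  have m1 : MapsTo (fun u : ℝ => u - 1) (Icc s s') (Ici c) := fun u hu => by
    have := hu.1
    simp only [mem_Ici]
    linarith
  have m2 : MapsTo (fun u : ℝ => u - 1 - 1) (Icc s s') (Ici (c - 1)) := fun u hu => by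
    have := hu.1
    simp only [mem_Ici]
    linarith
  have n0 : ∀ u ∈ Icc s s', u - 1 ≠ 0 := fun u hu => by
    have := hu.1
    linarith
  have hg : ContinuousOn (fun u => (u - 1) * (x (u - 1) + y (u - 1 - 1)) * u / (u - 1) ^ 2)
      (Icc s s') := by
    refine ContinuousOn.div (ContinuousOn.mul (ContinuousOn.mul (by fun_prop)
      ((hx.comp (by fun_prop) m1).add (hy.comp (by fun_prop) m2))) continuousOn_id) (by fun_prop)
      fun u hu => pow_ne_zero _ (n0 u hu)
  refine ⟨hg.integrableOn_Icc.mono_set Ioc_subset_Icc_self, ?_⟩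
  have hH : ∀ u, c + 1 ≤ u → u * (y u + x (u - 1)) =
      (∫ r in Ioi (u - 1), x r) + u * ((∫ r in Ioi (u - 1 - 1), y r) / (u - 1)) := fun u hu => by
    have : u - 1 ≠ 0 := by linarith
    rw [← ey u hu, ← ex (u - 1) (by linarith)]
    field_simp
  have key := intervalIntegral.integral_eq_sub_of_hasDerivAt_of_le hss
    (f := fun u => -((∫ r in Ioi (u - 1), x r) + u * ((∫ r in Ioi (u - 1 - 1), y r) / (u - 1))))
    (f' := fun u => (u - 1) * (x (u - 1) + y (u - 1 - 1)) * u / (u - 1) ^ 2)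
    (((hxi.continuousOn_Ici_primitive_Ioi.comp (by fun_prop) m1).add (continuousOn_id.mul
      ((hyi.continuousOn_Ici_primitive_Ioi.comp (by fun_prop) m2).div (by fun_prop) n0))).neg)
    (fun u hu => ?_) (hg.intervalIntegrable_of_Icc hss)
  · rw [← intervalIntegral.integral_of_le hss, key, hH s hs, hH s' (hs.trans hss)]
    ring
  · have h0 := hu.1
    have n1 : u - 1 ≠ 0 := by linarith
    have d1 := (tail_deriv hxi hx (t := u - 1) (by linarith)).comp_sub_const u 1
    have d2 := ((tail_deriv hyi hy (t := u - 1 - 1) (by linarith)).comp_sub_const (u - 1)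
      1).comp_sub_const u 1
    refine (d1.add ((hasDerivAt_id' u).mul
      (d2.div ((hasDerivAt_id' u).sub_const 1) n1))).neg.congr_deriv ?_
    simp only [Pi.div_apply]
    rw [← ex (u - 1) (by linarith)]
    field_simp
    ring

variable {a b : ℝ → ℝ}

theorem int_of_le {f : ℝ → ℝ} {K : ℝ} (hf : AntitoneOn f (Ici 1)) (h0 : ∀ s, 1 ≤ s → 0 ≤ f s)
    (h1 : ∀ s, 1 ≤ s → f s ≤ K * Real.exp (-3 * s)) : IntegrableOn f (Ioi 1) := by
  refine Integrable.mono' ((exp_neg_integrableOn_Ioi 1 (b := 3) (by norm_num)).const_mul K)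
    (aemeasurable_restrict_of_antitoneOn measurableSet_Ioi
      (hf.mono Ioi_subset_Ici_self)).aestronglyMeasurable ?_
  filter_upwards [ae_restrict_mem measurableSet_Ioi] with s hs
  rw [Real.norm_of_nonneg (h0 s (le_of_lt hs))]
  exact h1 s (le_of_lt hs)

theorem a_int (h : IsQF a b) : IntegrableOn a (Ioi 1) := by
  obtain ⟨K, hK⟩ := h.decay
  exact int_of_le h.a_anti (fun s hs => (h.a_pos s hs).le) fun s hs => (hK s hs).1

theorem b_int (h : IsQF a b) (c : ℝ) : IntegrableOn b (Ioi c) := by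
  obtain ⟨K, hK⟩ := h.decay
  have h1 := int_of_le (h.b_anti.antitoneOn _) (fun s _ => (h.b_pos s).le) fun s hs => (hK s hs).2
  have h2 : IntegrableOn b (Icc c 1) := (h.b_anti.antitoneOn _).integrableOn_isCompact isCompact_Icc
  refine (h2.union h1).mono_set fun s hs => ?_
  rcases le_or_gt s 1 with h3 | h3
  · exact Or.inl ⟨le_of_lt hs, h3⟩
  · exact Or.inr h3

theorem a_cont (h : IsQF a b) : ContinuousOn a (Ici 1) := by
  have h1 : ContinuousOn (fun s : ℝ => (∫ u in Ioi (s - 1), b u) / s) (Ici 1) :=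
    ((b_int h 0).continuousOn_Ici_primitive_Ioi.comp (f := fun s : ℝ => s - 1) (by fun_prop)
      fun (s : ℝ) (hs : 1 ≤ s) => show 0 ≤ s - 1 by linarith).div continuousOn_id
      fun (s : ℝ) (hs : 1 ≤ s) => show s ≠ 0 by linarith
  refine h1.congr fun s (hs : 1 ≤ s) => ?_
  have : s ≠ 0 := by linarith
  simp only
  rw [← h.a_eq s hs]
  field_simp

theorem b_cont (h : IsQF a b) : Continuous b := by
  have h1 : ContinuousOn (fun s : ℝ => (∫ u in Ioi (s - 1), a u) / s) (Ici 2) :=
    ((a_int h).continuousOn_Ici_primitive_Ioi.comp (f := fun s : ℝ => s - 1) (by fun_prop)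
      fun (s : ℝ) (hs : 2 ≤ s) => show 1 ≤ s - 1 by linarith).div continuousOn_id
      fun (s : ℝ) (hs : 2 ≤ s) => show s ≠ 0 by linarith
  have h2 : ContinuousOn b (Ici 2) := h1.congr fun s (hs : 2 ≤ s) => by
    have : s ≠ 0 := by linarith
    simp only
    rw [← h.b_eq s hs]
    field_simp
  have h3 : ContinuousOn b (Iic 2) := continuousOn_const.congr fun s hs => h.b_one s hs
  rw [← continuousOn_univ, ← Iic_union_Ici (a := (2 : ℝ))]
  exact h3.union_of_isClosed h2 isClosed_Iic isClosed_Ici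

theorem flat (h : IsQF a b) {s s' : ℝ} (hs : 1 ≤ s) (hss : s ≤ s') (h3 : s' ≤ 3) :
    s * (a s + b (s - 1)) = s' * (a s' + b (s' - 1)) := by
  have h1 := intervalIntegral.integral_Ioi_sub_Ioi (b_int h (s - 1)) (b := s' - 1) (by linarith)
  rw [intervalIntegral.integral_congr (g := fun _ => 1) fun u hu => h.b_one u (by
    rw [uIcc_of_le (by linarith)] at hu
    linarith [hu.2]), ← h.a_eq s hs, ← h.a_eq s' (by linarith)] at h1
  rw [h.b_one (s - 1) (by linarith), h.b_one (s' - 1) (by linarith)]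
  simp only [intervalIntegral.integral_const, smul_eq_mul] at h1
  linarith

theorem harm (e : ℕ) {s s' : ℝ} (hs : 1 ≤ s) (he : Even e → 2 ≤ s) (hss : s ≤ s') :
    IntegrableOn (fun u => eta (e + 1) (u - 1) * u / (u - 1) ^ 2) (Set.Ioc (cut e s) s') ∧
    eta e s = eta e s' + ∫ u in Set.Ioc (cut e s) s', eta (e + 1) (u - 1) * u / (u - 1) ^ 2 := by
  have h := isQF
  rcases Nat.even_or_odd e with h0 | h0
  · have h1 : ¬ Even (e + 1) := by simpa [Nat.even_add_one] using h0
    have h2 := he h0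
    simp only [eta, cut, h0, h1, Nat.not_odd_iff_even.2 h0, if_true, if_false, h2, h2.trans hss]
    exact core le_rfl (a_int h) (b_int h _) (a_cont h) (b_cont h).continuousOn h.a_eq
      (fun u hu => h.b_eq u (by linarith)) (by linarith) hss
  · have h1 : Even (e + 1) := h0.add_one
    have h2 : ¬ Even e := Nat.not_even_iff_odd.2 h0
    simp only [eta, cut, h0, h1, h2, if_true, if_false]
    rcases le_total s' 3 with h3 | h3
    · rw [Ioc_eq_empty_of_le (h3.trans (le_max_right _ _))]
      refine ⟨integrableOn_empty, ?_⟩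
      rw [setIntegral_empty, add_zero]
      exact flat h hs hss h3
    have h4 : s * (qa s + qb (s - 1)) = max s 3 * (qa (max s 3) + qb (max s 3 - 1)) := by
      rcases le_total s 3 with h5 | h5
      · rw [max_eq_right h5]
        exact flat h hs h5 le_rfl
      · rw [max_eq_left h5]
    have h6 : (2 : ℝ) - 1 = 1 := by norm_num
    obtain ⟨k1, k2⟩ := core (c := 2) one_le_two (b_int h _) (h6.symm ▸ a_int h)
      (b_cont h).continuousOn (h6.symm ▸ a_cont h) h.b_eq (fun u hu => h.a_eq u (by linarith))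
      (s := max s 3) (s' := s') (by have := le_max_right s 3; linarith) (max_le hss h3)
    have h7 : EqOn (fun u => (u - 1) * (qb (u - 1) + qa (u - 1 - 1)) * u / (u - 1) ^ 2)
        (fun u => (if 2 ≤ u - 1 then (u - 1) * (qb (u - 1) + qa (u - 1 - 1)) else 0) * u /
          (u - 1) ^ 2) (Ioc (max s 3) s') := fun u hu => by
      have := (le_max_right s 3).trans_lt hu.1
      simp only
      rw [if_pos (by linarith)]
    exact ⟨k1.congr_fun h7 measurableSet_Ioc, by
      rw [h4, k2, setIntegral_congr_fun measurableSet_Ioc h7]⟩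

theorem nonneg (e : ℕ) {s : ℝ} (hs : 1 ≤ s) : 0 ≤ eta e s := by
  have h := isQF
  unfold eta
  split_ifs with h1 h2
  · exact mul_nonneg (by linarith) (add_nonneg (h.b_pos _).le (h.a_pos _ (by linarith)).le)
  · exact le_rfl
  · exact mul_nonneg (by linarith) (add_nonneg (h.a_pos _ hs).le (h.b_pos _).le)

theorem anti (e : ℕ) {s s' : ℝ} (hs : 1 ≤ s) (he : Even e → 2 ≤ s) (hss : s ≤ s') :
    eta e s' ≤ eta e s := by
  rw [(harm e hs he hss).2]
  refine le_add_of_nonneg_right (setIntegral_nonneg measurableSet_Ioc fun u hu => ?_)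
  have h1 : 2 ≤ cut e s := by
    unfold cut
    split_ifs with h
    · have := le_max_right s 3
      linarith
    · exact he (Nat.not_odd_iff_even.1 h)
  have h2 := hu.1
  exact div_nonneg (mul_nonneg (nonneg _ (by linarith)) (by linarith)) (sq_nonneg _)

end EtaAux

end Crest.Agent.R1
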