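import Crest.Agent.R1.Cnt

/-! Row 1, fingerprint lemma: definitions and elementary facts. -/

set_option autoImplicit false

namespace Crest.Agent.R1
namespace Fp
open Finset

/-- discrepancy of the finite set `A` in the class `c0` modulo `p` -/
noncomputable def disc (A : Finset ℕ) (p c0 : ℕ) : ℝ :=
  ((A.filter fun j => j % p = c0).card : ℝ) - (A.card : ℝ) / p

/-- the progression `α + d u`, `u < U` -/
def prog (α d U : ℕ) : Finset ℕ := (range U).image fun u => α + d * u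

open Classical in
/-- the list of the atypical pairs (prime, class) -/
noncomputable def Lst (Wn : ℕ → ℕ) (s t : ℕ) (Λ : ℝ) (b : ℕ → (Fin s → ℕ) → ℝ) (l : ℕ) (c : ℕ → ℕ)
    (β : Fin s → ℕ) (j : ℕ) : Finset (ℕ × ℕ) :=
  (dy Wn j ×ˢ range (2 ^ (j + 1))).filter fun a =>
    a.2 < a.1 ∧ (t : ℝ) ^ s / Λ ^ 4 ≤ |Zfp Wn s t b l c β a.1 a.2|

/-- the determinant of `[1, fst G_i, G_i]` -/
def det3 (N : ℤ) (G₁ G₂ G₃ : ℕ) : ℤ :=
  ((fst N G₂ : ℤ) - fst N G₁) * ((G₃ : ℤ) - G₁) - ((fst N G₃ : ℤ) - fst N G₁) * ((G₂ : ℤ) - G₁)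

theorem Zfp_eq (Wn : ℕ → ℕ) (s t : ℕ) (b : ℕ → (Fin s → ℕ) → ℝ) (l : ℕ) (c : ℕ → ℕ)
    (β : Fin s → ℕ) (p c0 : ℕ) :
    Zfp Wn s t b l c β p c0 = ∑ τ ∈ blk Wn s t β, b p τ * disc (Aset l c τ) p c0 := rfl

theorem mem_win {Wn : ℕ → ℕ} {i p : ℕ} : p ∈ win Wn i ↔ Wn i ≤ p ∧ p < Wn (i + 1) ∧ p.Prime := by
  simp only [win, Pr, mem_filter, mem_Ico, and_assoc]

theorem mem_tup {Wn : ℕ → ℕ} {s : ℕ} {τ : Fin s → ℕ} :
    τ ∈ tup Wn s ↔ ∀ i : Fin s, τ i ∈ win Wn (i + 1) := by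
  simp only [tup, Fintype.mem_piFinset]

theorem mem_blk {Wn : ℕ → ℕ} {s t : ℕ} {β τ : Fin s → ℕ} :
    τ ∈ blk Wn s t β ↔ ∀ i : Fin s, τ i ∈ win Wn (i + 1) ∧ τ i / t = β i := by
  simp only [blk, Fintype.mem_piFinset, mem_filter]

theorem mem_dy {Wn : ℕ → ℕ} {j p : ℕ} :
    p ∈ dy Wn j ↔ p ∈ win Wn 0 ∧ 2 ^ j ≤ p ∧ p < 2 ^ (j + 1) := by
  simp only [dy, mem_filter]

theorem blk_subset (Wn : ℕ → ℕ) (s t : ℕ) (β : Fin s → ℕ) : blk Wn s t β ⊆ tup Wn s :=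
  fun _ h => mem_tup.2 fun i => (mem_blk.1 h i).1

theorem tup_prime {Wn : ℕ → ℕ} {s : ℕ} {τ : Fin s → ℕ} (hτ : τ ∈ tup Wn s) (i : Fin s) :
    (τ i).Prime := (mem_win.1 (mem_tup.1 hτ i)).2.2

theorem tup_ge {Wn : ℕ → ℕ} (hW : Monotone Wn) {s : ℕ} {τ : Fin s → ℕ} (hτ : τ ∈ tup Wn s)
    (i : Fin s) : Wn 1 ≤ τ i :=
  (hW (by omega)).trans (mem_win.1 (mem_tup.1 hτ i)).1

theorem tup_lt {Wn : ℕ → ℕ} (hW : Monotone Wn) {s : ℕ} {τ : Fin s → ℕ} (hτ : τ ∈ tup Wn s)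
    (i : Fin s) : τ i < Wn (s + 1) :=
  (mem_win.1 (mem_tup.1 hτ i)).2.1.trans_le (hW (by omega))

/-- two tuples can only agree at the same index -/
theorem tup_eq {Wn : ℕ → ℕ} (hW : Monotone Wn) {s : ℕ} {τ τ' : Fin s → ℕ} (hτ : τ ∈ tup Wn s)
    (hτ' : τ' ∈ tup Wn s) {i k : Fin s} (h : τ i = τ' k) : i = k := by
  have h1 := mem_win.1 (mem_tup.1 hτ i)
  have h2 := mem_win.1 (mem_tup.1 hτ' k)
  by_contra hne
  rcases lt_or_gt_of_ne (Fin.val_ne_of_ne hne) with hlt | hlt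
  · have := hW (show (i : ℕ) + 1 + 1 ≤ (k : ℕ) + 1 by omega)
    omega
  · have := hW (show (k : ℕ) + 1 + 1 ≤ (i : ℕ) + 1 by omega)
    omega

theorem prod_pos' {Wn : ℕ → ℕ} {s : ℕ} {τ : Fin s → ℕ} (hτ : τ ∈ tup Wn s) : 1 ≤ ∏ i, τ i :=
  prod_pos fun i _ => (tup_prime hτ i).pos

theorem prod_le {Wn : ℕ → ℕ} (hW : Monotone Wn) {s : ℕ} {τ : Fin s → ℕ} (hτ : τ ∈ tup Wn s) :
    ∏ i, τ i ≤ Wn (s + 1) ^ s := by
  have := prod_le_pow_card univ τ (Wn (s + 1)) fun i _ => (tup_lt hW hτ i).le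
  simpa using this

theorem not_dvd_prod {Wn : ℕ → ℕ} (hW : Monotone Wn) {s p : ℕ} {τ : Fin s → ℕ} (hp : p ∈ win Wn 0)
    (hτ : τ ∈ tup Wn s) : ¬ p ∣ ∏ i, τ i := by
  intro h
  have hp' := mem_win.1 hp
  obtain ⟨i, -, hi⟩ := (Prime.dvd_finsetProd_iff hp'.2.2.prime τ).1 h
  have h1 := (Nat.prime_dvd_prime_iff_eq hp'.2.2 (tup_prime hτ i)).1 hi
  have h2 := tup_ge hW hτ i
  have h3 := hp'.2.1
  simp only [zero_add] at h3
  omega

/-- divisibility by the product of the distinct primes of a tuple -/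
theorem prod_dvd_iff {Wn : ℕ → ℕ} (hW : Monotone Wn) {s : ℕ} {τ : Fin s → ℕ} (hτ : τ ∈ tup Wn s)
    (n : ℤ) : ((∏ i, τ i : ℕ) : ℤ) ∣ n ↔ ∀ i, (τ i : ℤ) ∣ n := by
  have hco : Pairwise (Function.onFun IsCoprime fun i => (τ i : ℤ)) := by
    intro i k hik
    refine Nat.isCoprime_iff_coprime.2 ?_
    exact (Nat.coprime_primes (tup_prime hτ i) (tup_prime hτ k)).2 fun h => hik (tup_eq hW hτ hτ h)
  push_cast
  constructor
  · intro h i
    exact (dvd_prod_of_mem (fun i => (τ i : ℤ)) (mem_univ i)).trans h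
  · intro h
    exact Fintype.prod_dvd_of_coprime hco h

theorem card_blk {Wn : ℕ → ℕ} {s t : ℕ} (ht : 1 ≤ t) (β : Fin s → ℕ) :
    (blk Wn s t β).card ≤ t ^ s := by
  rw [blk, Fintype.card_piFinset]
  have h : ∀ i : Fin s, ((win Wn (i + 1)).filter fun x => x / t = β i).card ≤ t := by
    intro i
    have h1 : ((win Wn (i + 1)).filter fun x => x / t = β i) ⊆ Ico (β i * t) (β i * t + t) := by
      intro x hx
      have h2 := (mem_filter.1 hx).2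
      have h3 := Nat.div_mul_le_self x t
      have h4 := Nat.lt_div_mul_add (a := x) (b := t) ht
      rw [h2] at h3 h4
      exact mem_Ico.2 ⟨h3, h4⟩
    simpa using card_le_card h1
  have := prod_le_pow_card univ _ t fun i _ => h i
  simpa using this

theorem card_dy (Wn : ℕ → ℕ) (j : ℕ) : (dy Wn j).card ≤ 2 ^ j := by
  have h1 : dy Wn j ⊆ Ico (2 ^ j) (2 ^ (j + 1)) := fun p hp => mem_Ico.2 (mem_dy.1 hp).2
  have h2 := card_le_card h1
  rw [Nat.card_Ico, pow_succ] at h2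
  omega

theorem card_prog (α U : ℕ) {d : ℕ} (hd : 1 ≤ d) : (prog α d U).card = U := by
  rw [prog, card_image_of_injective _ fun u v h => Nat.eq_of_mul_eq_mul_left hd (Nat.add_left_cancel h),
    card_range]

/-- `Aset` is a progression with difference `∏ τ i` -/
theorem Aset_prog {Wn : ℕ → ℕ} (hW : Monotone Wn) {s : ℕ} {τ : Fin s → ℕ} (hτ : τ ∈ tup Wn s)
    (l : ℕ) (c : ℕ → ℕ) : ∃ α U : ℕ, Aset l c τ = prog α (∏ i, τ i) U := by
  have hd := prod_pos' hτ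
  rcases (Aset l c τ).eq_empty_or_nonempty with h | h
  · exact ⟨0, 0, by rw [h, prog]; simp⟩
  set α := (Aset l c τ).min' h with hα
  have hαm : α ∈ Aset l c τ := min'_mem _ h
  have hα2 := mem_filter.1 hαm
  have hα3 := mem_range.1 hα2.1
  set d := ∏ i, τ i with hdd
  refine ⟨α, (l - α + d - 1) / d, ?_⟩
  have key : ∀ u : ℕ, u < (l - α + d - 1) / d ↔ α + d * u < l := by
    intro u
    rw [Nat.lt_iff_add_one_le, Nat.le_div_iff_mul_le (by omega), add_mul, one_mul, mul_comm u d]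
    omega
  ext j
  rw [prog, mem_image]
  constructor
  · intro hj
    have h1 : α ≤ j := min'_le _ _ hj
    have h2 := mem_filter.1 hj
    have h3 : ((d : ℕ) : ℤ) ∣ (j : ℤ) - α := by
      rw [hdd, prod_dvd_iff hW hτ]
      intro i
      exact (Nat.modEq_iff_dvd.1 (show α ≡ j [MOD τ i] from (hα2.2 i).trans (h2.2 i).symm))
    have h4 : d ∣ j - α := by
      rw [← Int.natCast_dvd_natCast, Nat.cast_sub h1]
      exact h3
    obtain ⟨u, hu⟩ := h4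
    have h5 : α + d * u = j := by omega
    exact ⟨u, mem_range.2 ((key u).2 (h5 ▸ mem_range.1 h2.1)), h5⟩
  · rintro ⟨u, hu, rfl⟩
    refine mem_filter.2 ⟨mem_range.2 ((key u).1 (mem_range.1 hu)), fun i => ?_⟩
    rw [← hα2.2 i]
    obtain ⟨e, he⟩ : τ i ∣ d := dvd_prod_of_mem τ (mem_univ i)
    rw [he, mul_assoc, Nat.add_mul_mod_self_left]

theorem disc_prog {p d c0 : ℕ} (hp : p.Prime) (hd : ¬ p ∣ d) (hc : c0 < p) (α U : ℕ) :
    |disc (prog α d U) p c0| ≤ 1 := by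
  have hd1 : 1 ≤ d := Nat.pos_of_ne_zero fun h => hd (h ▸ dvd_zero p)
  have : Fact p.Prime := ⟨hp⟩
  have hdz : (d : ZMod p) ≠ 0 := by rwa [Ne, ZMod.natCast_eq_zero_iff]
  set r : ℕ := (((c0 : ZMod p) - α) * (d : ZMod p)⁻¹).val with hr
  have hrp : r < p := ZMod.val_lt _
  have hiff : ∀ u : ℕ, (α + d * u) % p = c0 ↔ u ≡ r [MOD p] := by
    intro u
    rw [← ZMod.natCast_eq_natCast_iff, hr, ZMod.natCast_zmod_val, eq_mul_inv_iff_mul_eq₀ hdz]
    conv_lhs => rw [← Nat.mod_eq_of_lt hc]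
    rw [← Nat.ModEq, ← ZMod.natCast_eq_natCast_iff]
    push_cast
    constructor
    · intro h
      rw [← h]; ring
    · intro h
      rw [mul_comm, h]; ring
  have h1 : ((prog α d U).filter fun j => j % p = c0).card = U.count (· ≡ r [MOD p]) := by
    rw [prog, filter_image, card_image_of_injective _
      fun u v h => Nat.eq_of_mul_eq_mul_left hd1 (Nat.add_left_cancel h),
      Nat.count_eq_card_filter_range]
    congr 1
    exact filter_congr fun u _ => hiff u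
  rw [disc, card_prog α U hd1]
  rw [Nat.count_modEq_card _ hp.pos] at h1
  have h2 := Nat.div_mul_le_self U p
  have h3 := Nat.lt_div_mul_add (a := U) (b := p) hp.pos
  refine Cnt.abs_aux hp.pos ?_ ?_
  · rw [h1]
    split_ifs
    · rw [add_mul, one_mul]
      omega
    · rw [add_zero]
      omega
  · rw [h1]
    split_ifs
    · rw [add_mul, one_mul]
      omega
    · rw [add_zero]
      omega

theorem disc_Aset {Wn : ℕ → ℕ} (hW : Monotone Wn) {s p c0 : ℕ} {τ : Fin s → ℕ} (hp : p ∈ win Wn 0)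
    (hτ : τ ∈ tup Wn s) (hc : c0 < p) (l : ℕ) (c : ℕ → ℕ) : |disc (Aset l c τ) p c0| ≤ 1 := by
  obtain ⟨α, U, h⟩ := Aset_prog hW hτ l c
  rw [h]
  exact disc_prog (mem_win.1 hp).2.2 (not_dvd_prod hW hp hτ) hc α U

theorem abs_Zfp_le {Wn : ℕ → ℕ} (hW : Monotone Wn) {s t : ℕ} (ht : 1 ≤ t)
    {b : ℕ → (Fin s → ℕ) → ℝ} (hb : ∀ p τ, |b p τ| ≤ 1) (l : ℕ) (c : ℕ → ℕ) (β : Fin s → ℕ)
    {p c0 : ℕ} (hp : p ∈ win Wn 0) (hc : c0 < p) : |Zfp Wn s t b l c β p c0| ≤ (t : ℝ) ^ s := by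
  rw [Zfp_eq]
  refine (abs_sum_le_sum_abs _ _).trans ?_
  refine (sum_le_card_nsmul _ _ 1 fun τ hτ => ?_).trans ?_
  · rw [abs_mul]
    exact mul_le_one₀ (hb _ _) (abs_nonneg _) (disc_Aset hW hp (blk_subset _ _ _ _ hτ) hc l c)
  · rw [nsmul_eq_mul, mul_one]
    exact_mod_cast card_blk ht β

/-- a non-zero integer has at most `log |n| / log 2` prime divisors -/
theorem card_primes_dvd (S : Finset ℕ) (hS : ∀ p ∈ S, p.Prime) {n : ℤ} (hn : n ≠ 0) :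
    ((S.filter fun p : ℕ => (p : ℤ) ∣ n).card : ℝ) * Real.log 2 ≤ Real.log |(n : ℝ)| := by
  set T := S.filter fun p : ℕ => (p : ℤ) ∣ n with hT
  have h1 : ∏ p ∈ T, p ∣ n.natAbs := by
    refine Finset.prod_primes_dvd _ (fun p hp => (hS p (mem_filter.1 hp).1).prime) fun p hp => ?_
    exact Int.natCast_dvd.1 (mem_filter.1 hp).2
  have h2 : 2 ^ T.card ≤ ∏ p ∈ T, p :=
    pow_card_le_prod _ _ _ fun p hp => (hS p (mem_filter.1 hp).1).two_le
  have h3 : 2 ^ T.card ≤ n.natAbs := h2.trans (Nat.le_of_dvd (Int.natAbs_pos.2 hn) h1)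
  have h4 : (2 : ℝ) ^ T.card ≤ |(n : ℝ)| := by
    rw [← Int.cast_abs, Int.abs_eq_natAbs]
    exact_mod_cast h3
  rw [← Real.log_pow]
  exact Real.log_le_log (by positivity) h4

end Fp
end Crest.Agent.R1
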