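import Crest.Agent.R1.FpA

/-! Row 1, fingerprint lemma: correlation of two progressions modulo `p` (finite Fourier analysis). -/

set_option autoImplicit false

namespace Crest.Agent.R1
namespace Fp
open Finset

namespace FpB

theorem sum_class (A : Finset ℕ) {p : ℕ} (hp : 0 < p) :
    ∑ c ∈ range p, ((A.filter fun j => j % p = c).card : ℝ) = A.card := by
  rw [card_eq_sum_card_fiberwise (f := fun j => j % p) (t := range p)
    fun j _ => mem_coe.2 (mem_range.2 (Nat.mod_lt _ hp))]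
  push_cast
  rfl

theorem sum_class_mul (A B : Finset ℕ) {p : ℕ} (hp : 0 < p) :
    ∑ c ∈ range p, ((A.filter fun j => j % p = c).card : ℝ) * (B.filter fun j => j % p = c).card =
      ∑ j ∈ A, ∑ j' ∈ B, if j % p = j' % p then (1 : ℝ) else 0 := by
  rw [← sum_fiberwise_of_maps_to (s := A) (g := fun j => j % p) (t := range p)
    fun j _ => mem_range.2 (Nat.mod_lt _ hp)]
  refine sum_congr rfl fun c _ => ?_
  rw [← nsmul_eq_mul, ← sum_const]
  refine sum_congr rfl fun j hj => ?_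
  rw [(mem_filter.1 hj).2, sum_boole]
  simp only [eq_comm]

theorem disc_mul (A B : Finset ℕ) {p : ℕ} (hp : 0 < p) :
    ∑ c ∈ range p, disc A p c * disc B p c =
      (∑ j ∈ A, ∑ j' ∈ B, if j % p = j' % p then (1 : ℝ) else 0) - A.card * B.card / p := by
  have h0 : (p : ℝ) ≠ 0 := by exact_mod_cast hp.ne'
  unfold disc
  simp only [sub_mul, mul_sub, sum_sub_distrib, ← sum_mul, ← mul_sum, sum_class _ hp,
    sum_class_mul _ _ hp, sum_const, card_range, nsmul_eq_mul]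
  field_simp
  ring

theorem orth {p : ℕ} {ω : ℂ} (hω : IsPrimitiveRoot ω p) (hp : 0 < p) (j j' : ℕ) :
    ∑ h ∈ range p, ω ^ (h * j) * (ω ^ (h * j'))⁻¹ = if j % p = j' % p then (p : ℂ) else 0 := by
  have h0 : ω ≠ 0 := hω.ne_zero hp.ne'
  have e : ∀ h : ℕ, ω ^ (h * j) * (ω ^ (h * j'))⁻¹ = (ω ^ ((j : ℤ) - j')) ^ h := fun h => by
    rw [zpow_sub₀ h0, zpow_natCast, zpow_natCast, div_pow, ← pow_mul, ← pow_mul, mul_comm j,
      mul_comm j', div_eq_mul_inv]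
  have hiff : ω ^ ((j : ℤ) - j') = 1 ↔ j % p = j' % p := by
    rw [hω.zpow_eq_one_iff_dvd, ← Nat.modEq_iff_dvd]
    exact ⟨fun h => h.symm, fun h => h.symm⟩
  simp only [e]
  split_ifs with h
  · simp [hiff.2 h]
  · rw [geom_sum_eq (fun h1 => h (hiff.1 h1)), ← zpow_natCast, ← zpow_mul, mul_comm, zpow_mul,
      zpow_natCast, hω.pow_eq_one, one_zpow, sub_self, zero_div]

theorem parseval {p : ℕ} {ω : ℂ} (hω : IsPrimitiveRoot ω p) (hp : 0 < p) (A B : Finset ℕ) :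
    ((∑ c ∈ range p, disc A p c * disc B p c : ℝ) : ℂ) =
      (∑ h ∈ Ico 1 p, (∑ j ∈ A, ω ^ (h * j)) * ∑ j ∈ B, (ω ^ (h * j))⁻¹) / p := by
  have h0 : (p : ℂ) ≠ 0 := by exact_mod_cast hp.ne'
  have h1 : ∑ h ∈ range p, (∑ j ∈ A, ω ^ (h * j)) * ∑ j ∈ B, (ω ^ (h * j))⁻¹ =
      p * ∑ j ∈ A, ∑ j' ∈ B, if j % p = j' % p then (1 : ℂ) else 0 := by
    simp only [sum_mul_sum]
    rw [sum_comm, mul_sum]
    refine sum_congr rfl fun j _ => ?_
    rw [sum_comm, mul_sum]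
    refine sum_congr rfl fun j' _ => ?_
    rw [orth hω hp]
    simp
  rw [range_eq_Ico, sum_eq_sum_Ico_succ_bot hp] at h1
  simp only [zero_mul, pow_zero, inv_one, sum_const, nsmul_eq_mul, mul_one, zero_add] at h1
  rw [disc_mul A B hp, eq_div_iff h0, ← add_right_inj ((A.card : ℂ) * B.card), h1]
  push_cast [apply_ite]
  field_simp
  ring

theorem geom_le {z : ℂ} (hz : ‖z‖ = 1) {δ : ℝ} (hδ : 0 < δ) (h : δ ≤ ‖z - 1‖) (U : ℕ) :
    ‖∑ u ∈ range U, z ^ u‖ ≤ 2 / δ := by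
  have h1 : z ≠ 1 := fun e => by
    rw [e, sub_self, norm_zero] at h
    exact h.not_gt hδ
  rw [geom_sum_eq h1, norm_div]
  refine div_le_div₀ (by norm_num) ((norm_sub_le _ _).trans ?_) hδ h
  rw [norm_pow, hz]
  norm_num

theorem bmod_pos {p d h : ℕ} (hp : p.Prime) (hd : ¬ p ∣ d) (hh : h ∈ Ico 1 p) :
    0 < |((Int.bmod (h * d : ℕ) p : ℤ) : ℝ)| := by
  rw [abs_pos, Int.cast_ne_zero]
  intro h0
  have h1 := Int.dvd_bmod_sub_self (x := (h * d : ℕ)) (m := p)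
  rw [h0, zero_sub, dvd_neg, Int.natCast_dvd_natCast, hp.dvd_mul] at h1
  rcases h1 with h1 | h1
  · exact (Nat.le_of_dvd (mem_Ico.1 hh).1 h1).not_gt (mem_Ico.1 hh).2
  · exact hd h1

theorem sub_one_ge {p : ℕ} (hp : 0 < p) (n : ℕ) :
    4 * |((Int.bmod n p : ℤ) : ℝ)| / p ≤ ‖Complex.exp (2 * Real.pi * Complex.I / p) ^ n - 1‖ := by
  have hω := Complex.isPrimitiveRoot_exp p hp.ne'
  have hp0 : (0 : ℝ) < p := by exact_mod_cast hp
  have e1 : Complex.exp (2 * Real.pi * Complex.I / p) ^ n =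
      Complex.exp (2 * Real.pi * Complex.I / p) ^ (Int.bmod n p) := by
    have h1 := (hω.zpow_eq_one_iff_dvd _).2 (Int.dvd_bmod_sub_self (x := n) (m := p))
    rw [zpow_sub₀ (Complex.exp_ne_zero _), div_eq_one_iff_eq (zpow_ne_zero _ (Complex.exp_ne_zero _)),
      zpow_natCast] at h1
    exact h1.symm
  have h2 : 2 * |Int.bmod n p| ≤ p := by
    have a := Int.le_bmod (x := n) hp
    have b := Int.bmod_lt (x := n) hp
    rcases abs_cases (Int.bmod n p) with h | h <;> omega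
  have h3 : 2 * |((Int.bmod n p : ℤ) : ℝ)| ≤ p := by exact_mod_cast h2
  rw [e1]
  generalize Int.bmod n p = k at h3 ⊢
  have e2 : Complex.exp (2 * Real.pi * Complex.I / p) ^ k =
      Complex.exp (Complex.I * ((2 * (Real.pi * k / p) : ℝ) : ℂ)) := by
    rw [← Complex.exp_int_mul]
    congr 1
    push_cast
    ring
  have hπ := Real.pi_pos
  have e3 : |Real.pi * k / p| = Real.pi * |(k : ℝ)| / p := by
    rw [abs_div, abs_mul, abs_of_pos hπ, abs_of_pos hp0]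
  rw [e2, Complex.norm_exp_I_mul_ofReal_sub_one, mul_div_cancel_left₀ _ two_ne_zero,
    Real.norm_eq_abs, abs_mul, abs_two]
  have h4 := Real.mul_abs_le_abs_sin (x := Real.pi * k / p) (by
    rw [e3, div_le_div_iff₀ hp0 two_pos]
    nlinarith)
  rw [e3] at h4
  calc 4 * |(k : ℝ)| / p = 2 * (2 / Real.pi * (Real.pi * |(k : ℝ)| / p)) := by field_simp; ring
    _ ≤ _ := by linarith

theorem sum_prog {p d : ℕ} (hd : ¬ p ∣ d) (α U h : ℕ) (z : ℂ) (hz : ‖z‖ = 1) :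
    ‖∑ j ∈ prog α d U, z ^ (h * j)‖ = ‖∑ u ∈ range U, (z ^ (h * d)) ^ u‖ := by
  have hd0 : 0 < d := Nat.pos_of_ne_zero fun h0 => hd (h0 ▸ dvd_zero p)
  unfold prog
  rw [sum_image fun u _ v _ e => Nat.eq_of_mul_eq_mul_left hd0 (Nat.add_left_cancel e)]
  simp only [mul_add, pow_add, ← mul_sum, ← mul_assoc, pow_mul z (h * d)]
  rw [norm_mul, norm_pow, hz, one_pow, one_mul]

end FpB

open FpB

/-- Parseval modulo `p`. With `e(x) = exp (2πi x)` and `S(h) = ∑_{j ∈ prog α d U} e(h j / p)`: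
`disc (prog α d U) p c0 = (1/p) ∑_{1 ≤ h < p} S(h) e(-h c0/p)` for `c0 < p`, so the left side is
`(1/p) ∑_{1 ≤ h < p} S(h) conj S'(h)`. `S(h) = e(hα/p) ∑_{u < U} e(u h d/p)` is a geometric sum, so with
`h₁ = Int.bmod (h d) p` (`h₁ ≠ 0`, `|h₁| ≤ p/2`): `|S(h)| ≤ 2/|e(h₁/p) - 1| = 1/|sin (π h₁/p)| ≤ p/(2|h₁|)`
(`Real.mul_le_sin`: `2x/π ≤ sin x` on `[0, π/2]`). -/
theorem corr_le {p d d' : ℕ} (hp : p.Prime) (hd : ¬ p ∣ d) (hd' : ¬ p ∣ d') (α U α' U' : ℕ) :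
    |∑ c0 ∈ range p, disc (prog α d U) p c0 * disc (prog α' d' U') p c0| ≤
      (p : ℝ) / 4 * ∑ h ∈ Ico 1 p,
        1 / (|((Int.bmod (h * d : ℕ) p : ℤ) : ℝ)| * |((Int.bmod (h * d' : ℕ) p : ℤ) : ℝ)|) := by
  have hω := Complex.isPrimitiveRoot_exp p hp.ne_zero
  have hp0 : (0 : ℝ) < p := by exact_mod_cast hp.pos
  have hn := hω.norm'_eq_one hp.ne_zero
  have hb := fun n => sub_one_ge hp.pos n
  generalize Complex.exp (2 * Real.pi * Complex.I / p) = ω at hω hn hb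
  have hpow : ∀ n : ℕ, ‖ω ^ n‖ = 1 := fun n => by rw [norm_pow, hn, one_pow]
  rw [← Real.norm_eq_abs, ← Complex.norm_real, parseval hω hp.pos, norm_div, Complex.norm_natCast,
    div_le_iff₀ hp0, mul_sum, sum_mul]
  refine norm_sum_le_of_le _ fun h hh => ?_
  have a1 := bmod_pos hp hd hh
  have a2 := bmod_pos hp hd' hh
  have b1 := geom_le (hpow (h * d)) (by positivity) (hb (h * d)) U
  have b2 := geom_le (hpow (h * d')) (by positivity) (hb (h * d')) U'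
  rw [← sum_prog hd α U h ω hn] at b1
  rw [← sum_prog hd' α' U' h ω hn] at b2
  have e : ∑ j ∈ prog α' d' U', (ω ^ (h * j))⁻¹ =
      (starRingEnd ℂ) (∑ j ∈ prog α' d' U', ω ^ (h * j)) := by
    rw [map_sum]
    exact sum_congr rfl fun j _ => Complex.inv_eq_conj (hpow _)
  rw [norm_mul, e, Complex.norm_conj]
  refine (mul_le_mul b1 b2 (norm_nonneg _) (by positivity)).trans (le_of_eq ?_)
  field_simp
  ring

end Fp
end Crest.Agent.R1
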