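import Crest.Agent.R1.FpA

/-! Row 1, fingerprint lemma: the off-diagonal terms summed over the primes. -/

set_option autoImplicit false

namespace Crest.Agent.R1
namespace Fp
open Finset

namespace FpC

/-- the non-zero integers of absolute value at most `P` -/
def HH (P : ℕ) : Finset ℤ :=
  (Icc 1 P).image (fun n : ℕ => (n : ℤ)) ∪ (Icc 1 P).image (fun n : ℕ => -(n : ℤ))

theorem mem_HH {P : ℕ} {h : ℤ} : h ∈ HH P ↔ h ≠ 0 ∧ |h| ≤ P := by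
  simp only [HH, mem_union, mem_image, mem_Icc]
  constructor
  · rintro (⟨n, hn, rfl⟩ | ⟨n, hn, rfl⟩)
    · exact ⟨by omega, by rw [abs_le]; omega⟩
    · exact ⟨by omega, by rw [abs_le]; omega⟩
  · rintro ⟨h0, h1⟩
    rw [abs_le] at h1
    rcases lt_or_gt_of_ne h0 with hlt | hlt
    · exact Or.inr ⟨(-h).toNat, by omega, by omega⟩
    · exact Or.inl ⟨h.toNat, by omega, by omega⟩

theorem sum_HH (P : ℕ) : ∑ h ∈ HH P, 1 / |(h : ℝ)| ≤ 2 * (1 + Real.log P) := by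
  have h0 : ∑ n ∈ Icc 1 P, (1 / (n : ℝ)) ≤ 1 + Real.log P := by
    have := harmonic_le_one_add_log P
    rw [harmonic_eq_sum_Icc] at this
    push_cast at this
    simpa only [one_div] using this
  have h1 := sum_union_inter (s₁ := (Icc 1 P).image (fun n : ℕ => (n : ℤ)))
    (s₂ := (Icc 1 P).image (fun n : ℕ => -(n : ℤ))) (f := fun h : ℤ => 1 / |(h : ℝ)|)
  have h2 : 0 ≤ ∑ h ∈ (Icc 1 P).image (fun n : ℕ => (n : ℤ)) ∩
      (Icc 1 P).image (fun n : ℕ => -(n : ℤ)), 1 / |(h : ℝ)| :=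
    sum_nonneg fun _ _ => by positivity
  rw [sum_image (fun a _ b _ h => by exact_mod_cast h),
    sum_image (fun a _ b _ h => by exact_mod_cast neg_injective h)] at h1
  simp only [Int.cast_neg, Int.cast_natCast, abs_neg, Nat.abs_cast] at h1
  unfold HH
  linarith

theorem bmod_mem {P p d h : ℕ} (hp : p.Prime) (hP : p < 2 * P) (hd : ¬ p ∣ d) (hh : h ∈ Ico 1 p) :
    Int.bmod (h * d : ℕ) p ∈ HH P := by
  rw [mem_Ico] at hh
  refine mem_HH.2 ⟨fun h0 => ?_, ?_⟩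
  · have h1 : p ∣ h * d := by exact_mod_cast Int.dvd_of_bmod_eq_zero h0
    rcases (Nat.Prime.dvd_mul hp).1 h1 with h2 | h2
    · exact absurd (Nat.le_of_dvd (by omega) h2) (by omega)
    · exact hd h2
  · have h1 := Int.le_bmod (x := ((h * d : ℕ) : ℤ)) hp.pos
    have h2 := Int.bmod_le (x := ((h * d : ℕ) : ℤ)) hp.pos
    rw [abs_le]
    omega

theorem bmod_inj {p d h h' : ℕ} (hp : p.Prime) (hd : ¬ p ∣ d) (hh : h ∈ Ico 1 p)
    (hh' : h' ∈ Ico 1 p) (he : Int.bmod (h * d : ℕ) p = Int.bmod (h' * d : ℕ) p) : h = h' := by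
  rw [mem_Ico] at hh hh'
  have h1 := Int.dvd_bmod_sub_self (x := ((h * d : ℕ) : ℤ)) (m := p)
  have h2 := Int.dvd_bmod_sub_self (x := ((h' * d : ℕ) : ℤ)) (m := p)
  have h3 : (p : ℤ) ∣ ((h : ℤ) - h') * d := by
    have := dvd_sub h2 h1
    rw [he] at this
    refine this.trans (dvd_of_eq ?_)
    rw [Nat.cast_mul, Nat.cast_mul]
    ring
  rcases (Nat.prime_iff_prime_int.1 hp).dvd_or_dvd h3 with h4 | h4
  · have := Int.eq_zero_of_abs_lt_dvd h4 (by rw [abs_lt]; omega)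
    omega
  · exact absurd (by exact_mod_cast h4) hd

theorem one_prime {P p d d' : ℕ} (hp : p.Prime) (hP : p < 2 * P) (hd : ¬ p ∣ d) (hd' : ¬ p ∣ d') :
    ∑ h ∈ Ico 1 p, 1 / (|((Int.bmod (h * d : ℕ) p : ℤ) : ℝ)| * |((Int.bmod (h * d' : ℕ) p : ℤ) : ℝ)|) ≤
      ∑ x ∈ HH P ×ˢ HH P,
        if (p : ℤ) ∣ x.1 * d' - x.2 * d then 1 / (|(x.1 : ℝ)| * |(x.2 : ℝ)|) else 0 := by
  rw [← sum_filter]
  have hi := sum_image (s := Ico 1 p)
    (g := fun h : ℕ => (Int.bmod (h * d : ℕ) p, Int.bmod (h * d' : ℕ) p))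
    (f := fun x : ℤ × ℤ => 1 / (|(x.1 : ℝ)| * |(x.2 : ℝ)|))
    (fun a ha b hb h => bmod_inj hp hd ha hb (congrArg Prod.fst h))
  rw [← hi]
  refine sum_le_sum_of_subset_of_nonneg (fun x hx => ?_) fun _ _ _ => by positivity
  obtain ⟨h, hh, rfl⟩ := mem_image.1 hx
  refine mem_filter.2 ⟨mem_product.2 ⟨bmod_mem hp hP hd hh, bmod_mem hp hP hd' hh⟩, ?_⟩
  have h1 := (Int.dvd_bmod_sub_self (x := ((h * d : ℕ) : ℤ)) (m := p)).mul_right (d' : ℤ)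
  have h2 := (Int.dvd_bmod_sub_self (x := ((h * d' : ℕ) : ℤ)) (m := p)).mul_right (d : ℤ)
  refine (dvd_sub h1 h2).trans (dvd_of_eq ?_)
  generalize Int.bmod (h * d : ℕ) p = x
  generalize Int.bmod (h * d' : ℕ) p = y
  push_cast
  ring

theorem ne_zero {Wn : ℕ → ℕ} (hW : Monotone Wn) {s P : ℕ} (hj : P < Wn 1) {τ τ' : Fin s → ℕ}
    (hτ : τ ∈ tup Wn s) (hτ' : τ' ∈ tup Wn s) (hne : τ ≠ τ') {a b : ℤ} (ha : a ∈ HH P) :
    a * (∏ i, τ' i : ℕ) - b * (∏ i, τ i : ℕ) ≠ 0 := by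
  intro h0
  obtain ⟨i, hi⟩ := Function.ne_iff.1 hne
  have hp := tup_prime hτ i
  have h1 : ((τ i : ℕ) : ℤ) ∣ a * (∏ i, τ' i : ℕ) := by
    rw [sub_eq_zero.1 h0]
    exact Dvd.dvd.mul_left (Int.natCast_dvd_natCast.2 (dvd_prod_of_mem τ (mem_univ i))) b
  obtain ⟨ha0, ha1⟩ := mem_HH.1 ha
  rcases (Nat.prime_iff_prime_int.1 hp).dvd_or_dvd h1 with h2 | h2
  · have h3 := tup_ge hW hτ i
    exact ha0 (Int.eq_zero_of_abs_lt_dvd h2 (by omega))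
  · obtain ⟨k, -, hk⟩ := (Prime.dvd_finsetProd_iff hp.prime τ').1 (Int.natCast_dvd_natCast.1 h2)
    have h3 := (Nat.prime_dvd_prime_iff_eq hp (tup_prime hτ' k)).1 hk
    have h4 := tup_eq hW hτ hτ' h3
    subst h4
    exact hi h3

theorem abs_le' {P B d d' : ℕ} (hd : d ≤ B) (hd' : d' ≤ B) {a b : ℤ} (ha : a ∈ HH P)
    (hb : b ∈ HH P) : |a * d' - b * d| ≤ 2 * (P : ℤ) * B := by
  have h1 := (mem_HH.1 ha).2
  have h2 := (mem_HH.1 hb).2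
  have h3 : (d : ℤ) ≤ B := by exact_mod_cast hd
  have h4 : (d' : ℤ) ≤ B := by exact_mod_cast hd'
  refine (abs_sub _ _).trans ?_
  rw [abs_mul, abs_mul, Nat.abs_cast, Nat.abs_cast]
  have h5 := mul_le_mul h1 h4 (by positivity) (by positivity)
  have h6 := mul_le_mul h2 h3 (by positivity) (by positivity)
  linarith

end FpC

/-- `P = 2^j`, `d = ∏ τ i`, `d' = ∏ τ' i`. For `p ∈ dy Wn j` (prime, `P ≤ p < 2P`, `p ∤ d d'` by `not_dvd_prod`)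
the map `h ↦ (h₁, h₂) = (bmod (h d) p, bmod (h d') p)` is injective on `Ico 1 p` (already `h₁` determines `h`),
`1 ≤ |h₁|, |h₂| ≤ p/2 ≤ P` and `p ∣ h₁ d' - h₂ d`. So the left side is at most
`(2P/4) ∑_{1 ≤ |h₁|, |h₂| ≤ P} #{p ∈ dy Wn j : p ∣ h₁ d' - h₂ d} / (|h₁| |h₂|)`. Here `h₁ d' - h₂ d ≠ 0`: take `i` with
`τ i ≠ τ' i`; the prime `τ i ≥ Wn 1 > P ≥ |h₁|` divides `d`, but neither `h₁` nor `d'` (`tup_eq`); and
`|h₁ d' - h₂ d| ≤ 2 P w2^s` (`prod_le`). Finally `∑_{1 ≤ |h| ≤ P} 1/|h| ≤ 2 (1 + log P)` (`harmonic_le_one_add_log`). -/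
theorem offdiag {Wn : ℕ → ℕ} (hW : Monotone Wn) {s j : ℕ} (hj : 2 ^ j < Wn 1) {τ τ' : Fin s → ℕ}
    (hτ : τ ∈ tup Wn s) (hτ' : τ' ∈ tup Wn s) (hne : τ ≠ τ') {ω : ℝ}
    (hω : ∀ n : ℤ, n ≠ 0 → |n| ≤ 2 * 2 ^ j * (Wn (s + 1) : ℤ) ^ s →
      (((dy Wn j).filter fun p : ℕ => (p : ℤ) ∣ n).card : ℝ) ≤ ω) :
    ∑ p ∈ dy Wn j, (p : ℝ) / 4 * ∑ h ∈ Ico 1 p,
        1 / (|((Int.bmod (h * ∏ i, τ i : ℕ) p : ℤ) : ℝ)| * |((Int.bmod (h * ∏ i, τ' i : ℕ) p : ℤ) : ℝ)|) ≤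
      2 * 2 ^ j * (1 + Real.log (2 ^ j)) ^ 2 * ω := by
  set P : ℕ := 2 ^ j with hP
  have hP1 : 1 ≤ P := Nat.one_le_two_pow
  have hPr : ((P : ℕ) : ℝ) = 2 ^ j := by rw [hP]; push_cast; rfl
  have hPz : ((P : ℕ) : ℤ) = 2 ^ j := by rw [hP]; push_cast; rfl
  have hω0 : 0 ≤ ω := by
    refine le_trans (Nat.cast_nonneg _) (hω 1 one_ne_zero ?_)
    have h1 : 1 ≤ Wn (s + 1) := le_trans (by omega) (hW (show 1 ≤ s + 1 by omega))
    have h2 : (1 : ℤ) ≤ (Wn (s + 1) : ℤ) ^ s := one_le_pow₀ (by exact_mod_cast h1)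
    have h3 : (1 : ℤ) ≤ 2 ^ j := one_le_pow₀ (by norm_num)
    rw [abs_one]
    nlinarith
  have hF := FpC.sum_HH P
  have hF0 : 0 ≤ ∑ h ∈ FpC.HH P, 1 / |(h : ℝ)| := sum_nonneg fun _ _ => by positivity
  calc _ ≤ ∑ p ∈ dy Wn j, (P : ℝ) / 2 * ∑ x ∈ FpC.HH P ×ˢ FpC.HH P,
        if (p : ℤ) ∣ x.1 * (∏ i, τ' i : ℕ) - x.2 * (∏ i, τ i : ℕ) then
          1 / (|(x.1 : ℝ)| * |(x.2 : ℝ)|) else 0 := by
        refine sum_le_sum fun p hp => ?_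
        obtain ⟨hp0, -, hp2⟩ := mem_dy.1 hp
        have hp3 : p < 2 * P := by rw [hP, ← pow_succ']; exact hp2
        have hp4 : (p : ℝ) ≤ 2 * P := by exact_mod_cast hp3.le
        exact mul_le_mul (by linarith) (FpC.one_prime (mem_win.1 hp0).2.2 hp3
          (not_dvd_prod hW hp0 hτ) (not_dvd_prod hW hp0 hτ'))
          (sum_nonneg fun _ _ => by positivity) (by positivity)
    _ ≤ (P : ℝ) / 2 * ∑ x ∈ FpC.HH P ×ˢ FpC.HH P, 1 / |(x.1 : ℝ)| * (1 / |(x.2 : ℝ)|) * ω := by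
        rw [← mul_sum, sum_comm]
        refine mul_le_mul_of_nonneg_left (sum_le_sum fun x hx => ?_) (by positivity)
        obtain ⟨hx1, hx2⟩ := mem_product.1 hx
        rw [← sum_filter, sum_const, nsmul_eq_mul, one_div_mul_one_div, mul_comm]
        refine mul_le_mul_of_nonneg_left (hω _ (FpC.ne_zero hW hj hτ hτ' hne hx1) ?_)
          (by positivity)
        have := FpC.abs_le' (prod_le hW hτ) (prod_le hW hτ') hx1 hx2
        rw [hPz] at this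
        exact_mod_cast this
    _ = (P : ℝ) / 2 * ((∑ h ∈ FpC.HH P, 1 / |(h : ℝ)|) ^ 2 * ω) := by
        rw [← sum_mul, sq, sum_mul_sum, sum_product]
    _ ≤ (P : ℝ) / 2 * ((2 * (1 + Real.log P)) ^ 2 * ω) := by
        gcongr
    _ = _ := by rw [hPr]; ring

end Fp
end Crest.Agent.R1
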