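import Crest.Agent.R1.FpB
import Crest.Agent.R1.FpC

/-! Row 1, fingerprint lemma: the second moment and the size of the list. -/

set_option autoImplicit false

namespace Crest.Agent.R1
namespace Fp
open Finset

namespace FpD

theorem log_facts {m s t : ℕ} {Wn : ℕ → ℕ} {Λ : ℝ} (hn : FpNum m s t Wn Λ) {j : ℕ}
    (hj : 2 ^ j < Wn 1) : 1 + Real.log (2 ^ j) ≤ Λ ∧ ∀ n : ℤ, n ≠ 0 →
      |n| ≤ 2 * 2 ^ j * (Wn (s + 1) : ℤ) ^ s →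
      (((dy Wn j).filter fun p : ℕ => (p : ℤ) ∣ n).card : ℝ) ≤ Λ := by
  have h1 : 2 ^ j ≤ Wn (s + 1) := hj.le.trans (hn.mono (by omega))
  have h2 : (2 : ℝ) ^ j ≤ Wn (s + 1) := by exact_mod_cast h1
  have h3 : (1 : ℝ) ≤ Wn (s + 1) := (one_le_pow₀ (by norm_num)).trans h2
  have h4 : 0 ≤ Real.log (Wn (s + 1)) := Real.log_nonneg h3
  have h5 : 1 + ((s + 1 : ℕ) : ℝ) * Real.log (Wn (s + 1)) ≤ (1 + Real.log (Wn (s + 1))) ^ (s + 1) :=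
    one_add_mul_le_pow (by linarith) _
  have h6 : (0 : ℝ) ≤ s := Nat.cast_nonneg s
  have h7 := hn.l4
  push_cast at h5
  refine ⟨?_, fun n h0 hle => ?_⟩
  · have := Real.log_le_log (by positivity) h2
    nlinarith
  · have h8 := card_primes_dvd (dy Wn j) (fun p hp => (mem_win.1 (mem_dy.1 hp).1).2.2) h0
    have h9 : |(n : ℝ)| ≤ 2 * (Wn (s + 1) : ℝ) ^ (s + 1) := by
      have : |(n : ℝ)| ≤ 2 * 2 ^ j * (Wn (s + 1) : ℝ) ^ s := by exact_mod_cast hle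
      refine this.trans ?_
      rw [pow_succ', mul_assoc]
      gcongr
    have h10 := Real.log_le_log (abs_pos.2 (by exact_mod_cast h0)) h9
    rw [Real.log_mul (by norm_num) (by positivity), Real.log_pow] at h10
    push_cast at h10
    have h11 := Real.log_two_gt_d9
    have h12 : (((dy Wn j).filter fun p : ℕ => (p : ℤ) ∣ n).card : ℝ) * Real.log 2 ≤
        (1 + 2 * ((s + 1) * Real.log (Wn (s + 1)))) * Real.log 2 := by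
      nlinarith [mul_nonneg (by linarith : (0 : ℝ) ≤ s + 1) h4]
    have h13 := le_of_mul_le_mul_right h12 (by linarith)
    linarith

theorem pair {m s t : ℕ} {Wn : ℕ → ℕ} {Λ : ℝ} (hn : FpNum m s t Wn Λ) (l : ℕ) (c : ℕ → ℕ) {j : ℕ}
    (hj : 2 ^ j < Wn 1) {τ τ' : Fin s → ℕ} (hτ : τ ∈ tup Wn s) (hτ' : τ' ∈ tup Wn s) :
    ∑ p ∈ dy Wn j, |∑ c0 ∈ range p, disc (Aset l c τ) p c0 * disc (Aset l c τ') p c0| ≤
      (if τ = τ' then 2 * ((2 : ℝ) ^ j) ^ 2 else 0) + 2 * 2 ^ j * Λ ^ 3 := by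
  have hΛ : 0 ≤ Λ := le_trans (by norm_num) hn.l1
  split_ifs with h
  · refine le_trans ?_ (le_add_of_nonneg_right (by positivity))
    refine (sum_le_card_nsmul _ _ (2 * (2 : ℝ) ^ j) fun p hp => ?_).trans ?_
    · obtain ⟨h1, -, h3⟩ := mem_dy.1 hp
      refine (abs_sum_le_sum_abs _ _).trans ((sum_le_card_nsmul _ _ 1 fun c0 hc => ?_).trans ?_)
      · rw [abs_mul]
        exact mul_le_one₀ (disc_Aset hn.mono h1 hτ (mem_range.1 hc) l c) (abs_nonneg _)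
          (disc_Aset hn.mono h1 hτ' (mem_range.1 hc) l c)
      · rw [card_range, nsmul_eq_mul, mul_one, ← pow_succ']
        exact_mod_cast h3.le
    · rw [nsmul_eq_mul]
      have : ((dy Wn j).card : ℝ) ≤ 2 ^ j := by exact_mod_cast card_dy Wn j
      calc _ ≤ (2 : ℝ) ^ j * (2 * 2 ^ j) := by gcongr
        _ = _ := by ring
  · obtain ⟨h1, h2⟩ := log_facts hn hj
    obtain ⟨α, U, e⟩ := Aset_prog hn.mono hτ l c
    obtain ⟨α', U', e'⟩ := Aset_prog hn.mono hτ' l c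
    rw [e, e', zero_add]
    refine (sum_le_sum fun p hp => corr_le (mem_win.1 (mem_dy.1 hp).1).2.2
      (not_dvd_prod hn.mono (mem_dy.1 hp).1 hτ) (not_dvd_prod hn.mono (mem_dy.1 hp).1 hτ')
      α U α' U').trans ((offdiag hn.mono hj hτ hτ' h h2).trans ?_)
    have h3 : 0 ≤ Real.log (2 ^ j) := Real.log_nonneg (one_le_pow₀ (by norm_num))
    calc _ ≤ 2 * 2 ^ j * Λ ^ 2 * Λ := by gcongr
      _ = _ := by ring

end FpD

/-- `P = 2^j`, `T = blk Wn s t β`, `#T ≤ t^s` (`card_blk`). Expand the square (`Zfp_eq`, `sum_mul_sum`):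
`∑_p ∑_{c0 < p} Zfp² = ∑_{τ, τ' ∈ T} ∑_p b p τ b p τ' ∑_{c0 < p} disc_τ disc_τ'`. For `τ = τ'` the inner sum is
`≤ p ≤ 2P` (`disc_Aset`) and `#dy ≤ P` (`card_dy`). For `τ ≠ τ'` use `Aset_prog`, `corr_le`, `offdiag` with `ω = Λ`
(`card_primes_dvd`: `log (2 P w2^s) / log 2 ≤ 1 + (s+1) log w2 / log 2 ≤ 2 (1 + log w2)^(s+1) ≤ Λ` by Bernoulli
`one_add_mul_le_pow` and `l4`, as `P < Wn 1 ≤ w2`); `1 + log P ≤ 1 + log w2 ≤ Λ`. -/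
theorem second_moment {m s t : ℕ} {Wn : ℕ → ℕ} {Λ : ℝ} (hn : FpNum m s t Wn Λ)
    {b : ℕ → (Fin s → ℕ) → ℝ} (hb : ∀ p τ, |b p τ| ≤ 1) (l : ℕ) (c : ℕ → ℕ) (β : Fin s → ℕ) {j : ℕ}
    (hj : 2 ^ j < Wn 1) :
    ∑ p ∈ dy Wn j, ∑ c0 ∈ range p, Zfp Wn s t b l c β p c0 ^ 2 ≤
      2 * (2 ^ j) ^ 2 * (t : ℝ) ^ s + 2 * ((t : ℝ) ^ s) ^ 2 * 2 ^ j * Λ ^ 3 := by
  have hΛ : 0 ≤ Λ := le_trans (by norm_num) hn.l1
  have h1 : ∀ p, ∑ c0 ∈ range p, Zfp Wn s t b l c β p c0 ^ 2 ≤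
      ∑ τ ∈ blk Wn s t β, ∑ τ' ∈ blk Wn s t β,
        |∑ c0 ∈ range p, disc (Aset l c τ) p c0 * disc (Aset l c τ') p c0| := fun p => by
    simp only [Zfp_eq, sq, sum_mul_sum]
    rw [sum_comm]
    refine sum_le_sum fun τ _ => ?_
    rw [sum_comm]
    refine sum_le_sum fun τ' _ => ?_
    calc _ = b p τ * b p τ' *
          ∑ c0 ∈ range p, disc (Aset l c τ) p c0 * disc (Aset l c τ') p c0 := by
          rw [mul_sum]
          exact sum_congr rfl fun c0 _ => by ring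
      _ ≤ _ := by
          refine (le_abs_self _).trans ?_
          rw [abs_mul, abs_mul]
          exact mul_le_of_le_one_left (abs_nonneg _)
            (mul_le_one₀ (hb _ _) (abs_nonneg _) (hb _ _))
  refine (sum_le_sum fun p _ => h1 p).trans ?_
  rw [sum_comm]
  have hT : ((blk Wn s t β).card : ℝ) ≤ (t : ℝ) ^ s := by exact_mod_cast card_blk hn.t1 β
  refine (sum_le_card_nsmul _ _ (2 * ((2 : ℝ) ^ j) ^ 2 + (t : ℝ) ^ s * (2 * 2 ^ j * Λ ^ 3))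
    fun τ hτ => ?_).trans ?_
  · rw [sum_comm]
    refine (sum_le_sum fun τ' hτ' =>
      FpD.pair hn l c hj (blk_subset _ _ _ _ hτ) (blk_subset _ _ _ _ hτ')).trans ?_
    rw [sum_add_distrib, sum_ite_eq, if_pos hτ, sum_const, nsmul_eq_mul]
    gcongr
  · rw [nsmul_eq_mul]
    calc _ ≤ (t : ℝ) ^ s * (2 * ((2 : ℝ) ^ j) ^ 2 + (t : ℝ) ^ s * (2 * 2 ^ j * Λ ^ 3)) := by gcongr
      _ = _ := by ring

/-- Chebyshev: `#Lst (t^s/Λ⁴)² ≤ 2 P² t^s + 2 t^(2s) P Λ³` and `2 P ≤ 2 Wn 1 ≤ t^s` (`t3`), so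
`#Lst ≤ Λ⁸ (P + 2 P Λ³) ≤ P Λ^12`. -/
theorem card_Lst {m s t : ℕ} {Wn : ℕ → ℕ} {Λ : ℝ} (hn : FpNum m s t Wn Λ)
    {b : ℕ → (Fin s → ℕ) → ℝ} (hb : ∀ p τ, |b p τ| ≤ 1) (l : ℕ) (c : ℕ → ℕ) (β : Fin s → ℕ) {j : ℕ}
    (hj : 2 ^ j < Wn 1) : ((Lst Wn s t Λ b l c β j).card : ℝ) ≤ 2 ^ j * Λ ^ 12 := by
  classical
  have hΛ := hn.l1
  have ht : (0 : ℝ) < (t : ℝ) ^ s := pow_pos (by exact_mod_cast hn.t1) s
  have h1 : ((Lst Wn s t Λ b l c β j).card : ℝ) * ((t : ℝ) ^ s / Λ ^ 4) ^ 2 ≤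
      ∑ p ∈ dy Wn j, ∑ c0 ∈ range p, Zfp Wn s t b l c β p c0 ^ 2 := by
    rw [← nsmul_eq_mul]
    refine (card_nsmul_le_sum _ (fun a : ℕ × ℕ => Zfp Wn s t b l c β a.1 a.2 ^ 2) _
      fun a ha => ?_).trans ?_
    · rw [← sq_abs (Zfp Wn s t b l c β a.1 a.2)]
      exact pow_le_pow_left₀ (by positivity) (mem_filter.1 ha).2.2 2
    · rw [Lst, sum_filter, sum_product]
      refine sum_le_sum fun p _ => ?_
      rw [← sum_filter]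
      exact sum_le_sum_of_subset_of_nonneg (fun c0 hc => mem_range.2 (mem_filter.1 hc).2.1)
        fun _ _ _ => sq_nonneg _
  have h2 := h1.trans (second_moment hn hb l c β hj)
  have h3 : 2 * (2 : ℝ) ^ j ≤ (t : ℝ) ^ s := by
    have : 2 * 2 ^ j ≤ t ^ s := le_trans (by omega) hn.t3
    exact_mod_cast this
  have h4 : 2 * ((2 : ℝ) ^ j) ^ 2 * (t : ℝ) ^ s + 2 * ((t : ℝ) ^ s) ^ 2 * 2 ^ j * Λ ^ 3 ≤
      2 ^ j * Λ ^ 12 * ((t : ℝ) ^ s / Λ ^ 4) ^ 2 := by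
    have h5 : 1 + 2 * Λ ^ 3 ≤ Λ ^ 4 := by
      have : 1 ≤ Λ ^ 3 := one_le_pow₀ (by linarith)
      nlinarith
    calc _ = 2 * (2 : ℝ) ^ j * (2 ^ j * (t : ℝ) ^ s) + 2 * ((t : ℝ) ^ s) ^ 2 * 2 ^ j * Λ ^ 3 := by
          ring
      _ ≤ (t : ℝ) ^ s * (2 ^ j * (t : ℝ) ^ s) + 2 * ((t : ℝ) ^ s) ^ 2 * 2 ^ j * Λ ^ 3 := by gcongr
      _ = 2 ^ j * ((t : ℝ) ^ s) ^ 2 * (1 + 2 * Λ ^ 3) := by ring
      _ ≤ 2 ^ j * ((t : ℝ) ^ s) ^ 2 * Λ ^ 4 := by gcongr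
      _ = _ := by field_simp
  exact le_of_mul_le_mul_right (h2.trans h4) (by positivity)

end Fp
end Crest.Agent.R1
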