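import Crest.Agent.R1.FpA

/-! Row 1, fingerprint lemma: nodes on a line that is not rich. -/

set_option autoImplicit false

namespace Crest.Agent.R1
namespace Fp
open Finset

namespace FpE

theorem cnt_dvd {S : Finset ℕ} {f : ℕ → ℕ} (hf : Set.InjOn f S) {m H Ms : ℕ} (hM : m ≤ H * Ms)
    (hm : ∀ G ∈ S, f G ≤ m) {k a : ℤ} (hk : (H : ℤ) < |k|) (hd : ∀ G ∈ S, k ∣ (f G : ℤ) - a) :
    S.card ≤ Ms + 1 := by
  set K := k.natAbs with hK
  have hHK : H < K := by
    rw [Int.abs_eq_natAbs] at hk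
    exact_mod_cast hk
  have hK0 : 0 < K := by omega
  have h1 : S.card ≤ (range (Ms + 1)).card := by
    refine card_le_card_of_injOn (fun G => f G / K) (fun G hG => ?_) (fun G hG G' hG' h => ?_)
    · have h2 := hm G hG
      have h3 : H * Ms ≤ K * Ms := Nat.mul_le_mul_right _ hHK.le
      have h4 : f G / K ≤ Ms := Nat.div_le_of_le_mul (by omega)
      simp only [coe_range, Set.mem_Iio]
      omega
    · refine hf hG hG' ?_
      have h2 : k ∣ (f G' : ℤ) - f G := by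
        have := dvd_sub (hd G' hG') (hd G hG)
        rwa [sub_sub_sub_cancel_right] at this
      have h3 : f G ≡ f G' [MOD K] := by
        rw [Nat.modEq_iff_dvd, hK, Int.natCast_natAbs]
        exact (abs_dvd _ _).2 h2
      have h4 := Nat.div_add_mod (f G) K
      have h5 := Nat.div_add_mod (f G') K
      have h6 : f G / K = f G' / K := h
      have h7 : f G % K = f G' % K := h3
      rw [← h4, ← h5, h6, h7]
  simpa using h1

theorem reduce (x y : ℤ) (hy : y ≠ 0) :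
    ∃ (u g : ℤ) (v : ℕ), 1 ≤ v ∧ g ≠ 0 ∧ IsCoprime u (v : ℤ) ∧ x = g * u ∧ y = g * v := by
  have hg : 0 < Int.gcd x y := Int.gcd_pos_of_ne_zero_right x hy
  obtain ⟨x', y', hco, hx, hy'⟩ := Int.exists_gcd_one hg
  have hco' : IsCoprime x' y' := Int.isCoprime_iff_gcd_eq_one.2 hco
  have hg0 : ((Int.gcd x y : ℕ) : ℤ) ≠ 0 := by exact_mod_cast hg.ne'
  have hy0 : y' ≠ 0 := by
    rintro rfl
    exact hy (by rw [hy', zero_mul])
  rcases lt_or_gt_of_ne hy0 with h | h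
  · refine ⟨-x', -(Int.gcd x y : ℤ), y'.natAbs, Int.natAbs_pos.2 hy0, neg_ne_zero.2 hg0, ?_, ?_, ?_⟩
    · rw [Int.natCast_natAbs, abs_of_neg h]
      exact hco'.neg_neg
    · rw [neg_mul_neg, mul_comm]; exact hx
    · rw [Int.natCast_natAbs, abs_of_neg h, neg_mul_neg, mul_comm]; exact hy'
  · refine ⟨x', (Int.gcd x y : ℤ), y'.natAbs, Int.natAbs_pos.2 hy0, hg0, ?_, ?_, ?_⟩
    · rw [Int.natCast_natAbs, abs_of_pos h]
      exact hco'
    · rw [mul_comm]; exact hx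
    · rw [Int.natCast_natAbs, abs_of_pos h, mul_comm]; exact hy'

end FpE

/-- Let `x = fst G₂ - fst G₁`, `y = G₂ - G₁ ≠ 0`, `g = gcd x y`, `v = |y|/g ≥ 1`, `u = sign(y) x/g`, so that `u, v` are
coprime and `det3 N G₁ G₂ G = 0 ↔ v (fst G - fst G₁) = u (G - G₁)`. All `G`, `fst N G` lie in `[1, m]` (`fst_spec`).
If `v > H`: `v ∣ G - G₁`, so there are at most `m/v + 1 ≤ Ms + 1` such `G`. If `|u| > H`: `u ∣ fst G - fst G₁` and
`fst G` determines `G`, at most `m/|u| + 1 ≤ Ms + 1`. Otherwise `r = (v, u, u G₁ - v fst G₁)` lies in the box of `Rich`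
(`|u G₁ - v fst G₁| ≤ 2 H m`), `onL N r G₁`, so `r` is not rich and the count (`= #filter (onL N r)`) is `< Ms`. -/
theorem line_count (N : ℤ) {m H Ms : ℕ} (hH : 1 ≤ H) (hM : m ≤ H * Ms) {G₁ G₂ : ℕ}
    (h1 : G₁ ∈ Icc 1 m) (h2 : G₂ ∈ Icc 1 m) (hne : G₁ ≠ G₂) (hr : ¬ onRich N m H Ms G₁) :
    ((Icc 1 m).filter fun G => det3 N G₁ G₂ G = 0).card ≤ Ms + 1 := by
  classical
  have h1' := mem_Icc.1 h1
  have h2' := mem_Icc.1 h2
  have hy : (G₂ : ℤ) - G₁ ≠ 0 := sub_ne_zero.2 fun h => hne (by exact_mod_cast h.symm)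
  obtain ⟨u, g, v, hv, hg, hco, hx, hy'⟩ := FpE.reduce ((fst N G₂ : ℤ) - fst N G₁) _ hy
  have hv0 : (0 : ℤ) < v := by exact_mod_cast hv
  have hiff : ∀ G : ℕ, det3 N G₁ G₂ G = 0 ↔
      (v : ℤ) * ((fst N G : ℤ) - fst N G₁) = u * ((G : ℤ) - G₁) := by
    intro G
    rw [det3, hx, hy']
    constructor
    · intro h
      have h3 : g * (u * ((G : ℤ) - G₁) - v * ((fst N G : ℤ) - fst N G₁)) = 0 := by
        linear_combination h
      have h4 := (mul_eq_zero.1 h3).resolve_left hg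
      linear_combination -h4
    · intro h
      linear_combination (-g) * h
  set S := (Icc 1 m).filter fun G => det3 N G₁ G₂ G = 0 with hS
  have hmem : ∀ G ∈ S, 1 ≤ G ∧ G ≤ m ∧
      (v : ℤ) * ((fst N G : ℤ) - fst N G₁) = u * ((G : ℤ) - G₁) := by
    intro G hG
    have h3 := mem_filter.1 hG
    have h4 := mem_Icc.1 h3.1
    exact ⟨h4.1, h4.2, (hiff G).1 h3.2⟩
  by_cases hvH : H < v
  · refine FpE.cnt_dvd (f := fun G => G) (fun _ _ _ _ h => h) hM (fun G hG => (hmem G hG).2.1)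
      (k := v) (a := G₁) ?_ fun G hG => ?_
    · rw [abs_of_pos hv0]
      exact_mod_cast hvH
    · exact hco.symm.dvd_of_dvd_mul_left ⟨_, (hmem G hG).2.2.symm⟩
  by_cases huH : (H : ℤ) < |u|
  · have hu0 : u ≠ 0 := by
      rintro rfl
      rw [abs_zero] at huH
      omega
    refine FpE.cnt_dvd (f := fun G => fst N G) (fun G hG G' hG' h => ?_) hM
      (fun G hG => (fst_spec N (hmem G hG).1).2.1.trans (hmem G hG).2.1)
      (k := u) (a := fst N G₁) huH fun G hG => ?_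
    · have h3 := (hmem G hG).2.2
      have h4 := (hmem G' hG').2.2
      have h5 : fst N G = fst N G' := h
      rw [h5, h4] at h3
      have h6 := mul_left_cancel₀ hu0 h3
      omega
    · exact hco.dvd_of_dvd_mul_left ⟨_, (hmem G hG).2.2⟩
  have hu := abs_le.1 (not_lt.1 huH)
  have hvH' : (v : ℤ) ≤ H := by exact_mod_cast not_lt.1 hvH
  have hf := fst_spec N h1'.1
  have hf1 : (0 : ℤ) ≤ fst N G₁ := by positivity
  have hf2 : (fst N G₁ : ℤ) ≤ m := by exact_mod_cast hf.2.1.trans h1'.2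
  have hG1 : (0 : ℤ) ≤ G₁ := by positivity
  have hG2 : (G₁ : ℤ) ≤ m := by exact_mod_cast h1'.2
  have hH0 : (0 : ℤ) ≤ H := by positivity
  set r : ℕ × ℤ × ℤ := (v, u, u * G₁ - v * fst N G₁) with hrr
  have hon : ∀ G : ℕ, onL N r G ↔ det3 N G₁ G₂ G = 0 := by
    intro G
    rw [hiff, onL, hrr]
    constructor <;> intro h <;> linear_combination h
  have hn : r ∉ Rich N m H Ms := fun h => hr ⟨r, h, (hon G₁).2 ((hiff G₁).2 (by simp))⟩
  have b1 : u * G₁ ≤ H * m := by nlinarith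
  have b2 : -(H * m : ℤ) ≤ u * G₁ := by nlinarith
  have b3 : (v : ℤ) * fst N G₁ ≤ H * m := by nlinarith
  have b4 : (0 : ℤ) ≤ v * fst N G₁ := by positivity
  have b5 : (0 : ℤ) ≤ H * m := by positivity
  by_contra hc
  refine hn ?_
  rw [Rich, mem_filter]
  refine ⟨mem_product.2 ⟨mem_Icc.2 ⟨hv, not_lt.1 hvH⟩, mem_product.2 ⟨mem_Icc.2 hu, mem_Icc.2 ⟨?_, ?_⟩⟩⟩, ?_⟩
  · show -(2 * H * m : ℤ) ≤ u * G₁ - v * fst N G₁
    linarith
  · show u * G₁ - v * fst N G₁ ≤ (2 * H * m : ℤ)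
    linarith
  · refine le_trans (by omega : Ms ≤ S.card) (card_le_card fun G hG => ?_)
    have h3 := mem_filter.1 hG
    simp only [mem_filter]
    exact ⟨h3.1, (hon G).2 h3.2⟩

end Fp
end Crest.Agent.R1
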