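import Crest.Agent.R1.FpA

/-! Row 1, fingerprint lemma: the statistic `Zs` in terms of the sampled statistics. -/

set_option autoImplicit false

namespace Crest.Agent.R1
namespace Fp
open Finset

namespace FpF

theorem cnt_tup {m s : ℕ} {Wn : ℕ → ℕ} (hW : Monotone Wn) (N : ℤ) {G : ℕ} (hG : 1 ≤ G)
    {τ : Fin s → ℕ} (hτ : τ ∈ tup Wn s) (h : Nat.Coprime G (∏ i, τ i)) (j : ℕ) :
    (((∏ i, τ i : ℕ) : ℤ) ∣ N + fst N G + j * G) ↔ ∀ i, j % τ i = root N G (τ i) := by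
  rw [prod_dvd_iff hW hτ]
  refine forall_congr' fun i => root_spec N (tup_prime hτ i) (fun hd => ?_) j
  have h1 : τ i ∣ ∏ i, τ i := dvd_prod_of_mem τ (mem_univ i)
  exact (tup_prime hτ i).one_lt.ne' (Nat.eq_one_of_dvd_coprimes h hd h1)

theorem term {m s : ℕ} {Wn : ℕ → ℕ} (hW : Monotone Wn) (N : ℤ) {G : ℕ} (hG : 1 ≤ G)
    {τ : Fin s → ℕ} (hτ : τ ∈ tup Wn s) {p : ℕ} (hp : p ∈ win Wn 0)
    (h : Nat.Coprime G ((∏ i, τ i) * p)) :
    (cnt N m (G * (∏ i, τ i) * p) : ℝ) - (cnt N m (G * ∏ i, τ i) : ℝ) / p =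
      disc (Aset (cnt N m G) (root N G) τ) p (root N G p) := by
  have hp' := (mem_win.1 hp).2.2
  have h1 : Nat.Coprime G (∏ i, τ i) := Nat.Coprime.coprime_mul_right_right h
  have h2 : ¬ p ∣ G := (Nat.Prime.coprime_iff_not_dvd hp').1
    (Nat.Coprime.coprime_mul_left_right h).symm
  have h3 : IsCoprime ((∏ i, τ i : ℕ) : ℤ) (p : ℤ) := Nat.isCoprime_iff_coprime.2
    ((Nat.Prime.coprime_iff_not_dvd hp').2 (not_dvd_prod hW hp hτ)).symm
  have e1 : cnt N m (G * ∏ i, τ i) = (Aset (cnt N m G) (root N G) τ).card := by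
    rw [cnt_mul N m hG h1, Aset]
    congr 1
    exact filter_congr fun j _ => cnt_tup (m := m) hW N hG hτ h1 j
  have e2 : cnt N m (G * (∏ i, τ i) * p) =
      ((Aset (cnt N m G) (root N G) τ).filter fun j => j % p = root N G p).card := by
    rw [mul_assoc, cnt_mul N m hG h, Aset, filter_filter]
    congr 1
    refine filter_congr fun j _ => ?_
    rw [← cnt_tup (m := m) hW N hG hτ h1 j, ← root_spec N hp' h2 j, Nat.cast_mul]
    exact ⟨fun hd => ⟨dvd_of_mul_right_dvd hd, dvd_of_mul_left_dvd hd⟩,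
      fun hd => h3.mul_dvd hd.1 hd.2⟩
  rw [e1, e2, disc]

theorem card_win (Wn : ℕ → ℕ) (i : ℕ) : (win Wn i).card ≤ Wn (i + 1) := by
  have : win Wn i ⊆ range (Wn (i + 1)) := fun p hp => mem_range.2 (mem_win.1 hp).2.1
  simpa using card_le_card this

theorem card_tup {Wn : ℕ → ℕ} (hW : Monotone Wn) (s : ℕ) : (tup Wn s).card ≤ Wn (s + 1) ^ s := by
  rw [tup, Fintype.card_piFinset]
  have := prod_le_pow_card univ (fun i : Fin s => (win Wn (i + 1)).card) (Wn (s + 1))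
    fun i _ => (card_win Wn _).trans (hW (by omega))
  simpa using this

end FpF

/-- If `b p τ ≠ 0` then `G` is prime to `(∏ τ i) p`, so by `cnt_mul`, `prod_dvd_iff`, `root_spec`:
`cnt (G ∏τ) = #Aset l c τ`, and `cnt (G ∏τ p) = cnt (G (∏τ p)) = #{j ∈ Aset l c τ : j % p = c p}`
(`∏τ` and `p` are coprime by `not_dvd_prod`), `l = cnt N m G`, `c = root N G`. The blocks `blk Wn s t β`,
`β ∈ piFinset (range w2)`, partition `tup Wn s` (`β i = τ i / t ≤ τ i < w2`; `sum_fiberwise_of_maps_to`). -/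
theorem Zs_eq {m s t : ℕ} {Wn : ℕ → ℕ} {Λ : ℝ} (hW : Monotone Wn) (N : ℤ)
    {b : ℕ → (Fin s → ℕ) → ℝ} {G : ℕ} (hA : Adm m s Wn Λ b G) :
    Zs N m Wn s b G = ∑ p ∈ win Wn 0, ∑ β ∈ Fintype.piFinset (fun _ : Fin s => range (Wn (s + 1))),
      Zfp Wn s t b (cnt N m G) (root N G) β p (root N G p) := by
  unfold Zs
  refine sum_congr rfl fun p hp => ?_
  have hmap : ∀ τ ∈ tup Wn s, (fun i => τ i / t) ∈
      Fintype.piFinset (fun _ : Fin s => range (Wn (s + 1))) := fun τ hτ =>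
    Fintype.mem_piFinset.2 fun i =>
      mem_range.2 (lt_of_le_of_lt (Nat.div_le_self _ _) (tup_lt hW hτ i))
  rw [← sum_fiberwise_of_maps_to hmap]
  refine sum_congr rfl fun β _ => ?_
  rw [Zfp_eq]
  have e : (tup Wn s).filter (fun τ => (fun i => τ i / t) = β) = blk Wn s t β := by
    ext τ
    rw [mem_filter, mem_tup, mem_blk, funext_iff, forall_and]
  rw [e]
  refine sum_congr rfl fun τ hτ => ?_
  by_cases hb : b p τ = 0
  · rw [hb, zero_mul, zero_mul]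
  · have hτ' := blk_subset _ _ _ _ hτ
    rw [FpF.term hW N hA.1 hτ' hp (hA.2.2 p hp τ hτ' hb).1]

/-- Each term of `Zs` is `≤ 1` in absolute value (`cnt_prime` with `d = G ∏τ` if `b p τ ≠ 0`), there are at most
`Wn 1 · w2^s ≤ w2^(s+1)` terms, so `m/(ΛG) < w2^(s+1)` and `cnt N m G ≤ m/G + 1 ≤ 2 Λ w2^(s+1)` (`cnt_err`). -/
theorem cnt_le {m s t : ℕ} {Wn : ℕ → ℕ} {Λ : ℝ} (hn : FpNum m s t Wn Λ) (N : ℤ)
    {b : ℕ → (Fin s → ℕ) → ℝ} (hb : ∀ p τ, |b p τ| ≤ 1) {G : ℕ} (hA : Adm m s Wn Λ b G)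
    (hZ : m / (Λ * G) < |Zs N m Wn s b G|) :
    (cnt N m G : ℝ) ≤ 2 * Λ * (Wn (s + 1) : ℝ) ^ (s + 1) := by
  have hW := hn.mono
  have hΛ := hn.l1
  have hG : (1 : ℝ) ≤ G := by exact_mod_cast hA.1
  have hm : (G : ℝ) ≤ m := by exact_mod_cast hA.2.1
  have h1 : |Zs N m Wn s b G| ≤ ((Wn (s + 1) ^ (s + 1) : ℕ) : ℝ) := by
    unfold Zs
    refine (abs_sum_le_sum_abs _ _).trans ?_
    refine (sum_le_card_nsmul _ _ ((Wn (s + 1) ^ s : ℕ) : ℝ) fun p hp => ?_).trans ?_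
    · refine (abs_sum_le_sum_abs _ _).trans ?_
      refine (sum_le_card_nsmul _ _ 1 fun τ hτ => ?_).trans ?_
      · by_cases hb0 : b p τ = 0
        · rw [hb0, zero_mul, abs_zero]
          exact zero_le_one
        · rw [abs_mul, FpF.term hW N hA.1 hτ hp (hA.2.2 p hp τ hτ hb0).1]
          exact mul_le_one₀ (hb _ _) (abs_nonneg _)
            (disc_Aset hW hp hτ (root_lt N G (mem_win.1 hp).2.2) _ _)
      · rw [nsmul_eq_mul, mul_one]
        exact_mod_cast FpF.card_tup hW s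
    · rw [nsmul_eq_mul, pow_succ', Nat.cast_mul]
      refine mul_le_mul_of_nonneg_right ?_ (Nat.cast_nonneg _)
      exact_mod_cast (FpF.card_win Wn 0).trans (hW (by omega))
  have h2 : (m : ℝ) / (Λ * G) < ((Wn (s + 1) ^ (s + 1) : ℕ) : ℝ) := lt_of_lt_of_le hZ h1
  have h3 : (0 : ℝ) < m / (Λ * G) := div_pos (by linarith) (mul_pos (by linarith) (by linarith))
  have h4 : (1 : ℝ) ≤ ((Wn (s + 1) ^ (s + 1) : ℕ) : ℝ) := by
    have : 0 < Wn (s + 1) ^ (s + 1) := by exact_mod_cast h3.trans h2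
    exact_mod_cast this
  have h5 := (abs_le.1 (cnt_err N m hA.1)).2
  have h6 : (m : ℝ) / G ≤ Λ * ((Wn (s + 1) ^ (s + 1) : ℕ) : ℝ) := by
    rw [div_lt_iff₀ (mul_pos (by linarith) (by linarith))] at h2
    rw [div_le_iff₀ (by linarith)]
    linarith
  push_cast at h4 h6
  nlinarith

end Fp
end Crest.Agent.R1
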