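import Crest.Agent.R1.Eta

/-! Row 1: elementary bounds for the weights. -/

set_option autoImplicit false

namespace Crest.Agent.R1
open Finset MeasureTheory Filter

theorem valid.one_le {e : ℕ} {X : ℝ} {y : ℕ} (hv : valid e X y) :
    0 < Real.log y ∧ Real.log y ≤ Real.log X ∧ 1 ≤ Real.log X / Real.log y ∧
      (Even e → 2 ≤ Real.log X / Real.log y) := by
  obtain ⟨h2, hy, he⟩ := hv
  have h2' : (2 : ℝ) ≤ y := by exact_mod_cast h2
  have hl : 0 < Real.log y := Real.log_pos (by linarith)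
  have hle : Real.log y ≤ Real.log X := Real.log_le_log (by linarith) hy
  refine ⟨hl, hle, (one_le_div hl).2 hle, fun h => ?_⟩
  rw [le_div_iff₀ hl]
  have := Real.log_le_log (by positivity) (he h)
  rwa [Real.log_pow, Nat.cast_ofNat] at this

theorem valid.mono {e : ℕ} {X X' : ℝ} {y w : ℕ} (hv : valid e X y) (h2 : 2 ≤ w) (hw : w ≤ y)
    (hX : X ≤ X') : valid e X' w := by
  obtain ⟨_, hy, he⟩ := hv
  have hw' : (w : ℝ) ≤ y := by exact_mod_cast hw
  refine ⟨h2, hw'.trans (hy.trans hX), fun h => ?_⟩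
  exact (pow_le_pow_left₀ (by positivity) hw' 2).trans ((he h).trans hX)

theorem hh_nonneg {e : ℕ} {X : ℝ} {y : ℕ} (hv : valid e X y) : 0 ≤ hh e X y := by
  exact div_nonneg (eta_nonneg e hv.one_le.2.2.1) (by positivity)

theorem Gf_pos {e : ℕ} {X : ℝ} {y : ℕ} (hv : valid e X y) : 0 < Gf X y := by
  obtain ⟨h1, h2, -, -⟩ := hv.one_le
  have : 0 < Real.log X := h1.trans_le h2
  unfold Gf
  positivity

theorem GG_pos {e : ℕ} {X : ℝ} {y : ℕ} (hv : valid e X y) : 0 < GG X y := by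
  exact mul_pos hv.one_le.1 (Gf_pos hv)

theorem hh_le : ∃ K : ℝ, 0 < K ∧ ∀ (e : ℕ) (X : ℝ) (y : ℕ), valid e X y →
    hh e X y ≤ K * Real.exp (-2 * (Real.log X / Real.log y)) / Real.log X ^ 2 := by
  obtain ⟨K, hK, h⟩ := eta_le
  refine ⟨K, hK, fun e X y hv => ?_⟩
  exact div_le_div_of_nonneg_right (h e _ hv.one_le.2.2.1) (by positivity)

theorem Wf_le : ∃ K : ℝ, 0 < K ∧ ∀ (e : ℕ) (X : ℝ) (y : ℕ), valid e X y →
    Wf e X y ≤ K / Real.log X ^ 2 := by
  obtain ⟨K, hK, h⟩ := hh_le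
  refine ⟨K + 1, by positivity, fun e X y hv => ?_⟩
  obtain ⟨h1, h2, h3, -⟩ := hv.one_le
  have ht : 0 < Real.log X := h1.trans_le h2
  have hA : hh e X y ≤ K / Real.log X ^ 2 := by
    refine (h e X y hv).trans (div_le_div_of_nonneg_right ?_ (by positivity))
    have : Real.exp (-2 * (Real.log X / Real.log y)) ≤ 1 := Real.exp_le_one_iff.2 (by linarith)
    nlinarith
  have hB : GG X y ≤ 1 / Real.log X ^ 2 := by
    unfold GG Gf
    have : Real.exp (-(Real.log X / Real.log y)) ≤ 1 := Real.exp_le_one_iff.2 (by linarith)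
    calc Real.log y * (Real.exp (-(Real.log X / Real.log y)) / Real.log X ^ 3)
        ≤ Real.log X * (1 / Real.log X ^ 3) := by gcongr
      _ = 1 / Real.log X ^ 2 := by field_simp
  unfold Wf
  rw [add_div]
  linarith

theorem hh_ge (σ : ℕ) : ∃ c : ℝ, 0 < c ∧ ∀ (e : ℕ) (X : ℝ) (y : ℕ), valid e X y → X ≤ (y : ℝ) ^ σ →
    c / Real.log X ^ 2 ≤ hh e X y := by
  obtain ⟨c, hc, h⟩ := eta_ge (σ : ℝ)
  refine ⟨c, hc, fun e X y hv hX => ?_⟩
  obtain ⟨h1, h2, h3, h4⟩ := hv.one_le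
  refine div_le_div_of_nonneg_right (h e _ h3 h4 ?_) (by positivity)
  rw [div_le_iff₀ h1]
  have h2' : (2 : ℝ) ≤ y := by exact_mod_cast hv.1
  have := Real.log_le_log (by linarith [hv.2.1]) hX
  rwa [Real.log_pow] at this

/-- `GG X y = e^{-s}/(s t²)`, and `s e^{-s} ≤ 2 e^{-s/2}`. -/
theorem hh_le_GG : ∃ K : ℝ, 0 < K ∧ ∀ (σ e : ℕ) (X : ℝ) (y : ℕ), valid e X y → (y : ℝ) ^ σ ≤ X →
    hh e X y ≤ K * Real.exp (-(σ : ℝ) / 2) * GG X y := by
  obtain ⟨K, hK, h⟩ := hh_le
  refine ⟨2 * K, by positivity, fun σ e X y hv hX => ?_⟩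
  obtain ⟨h1, h2, h3, -⟩ := hv.one_le
  have ht : 0 < Real.log X := h1.trans_le h2
  have h2' : (2 : ℝ) ≤ y := by exact_mod_cast hv.1
  have hσ : (σ : ℝ) ≤ Real.log X / Real.log y := by
    rw [le_div_iff₀ h1]
    have := Real.log_le_log (by positivity) hX
    rwa [Real.log_pow] at this
  refine (h e X y hv).trans ?_
  have hG : GG X y = Real.exp (-(Real.log X / Real.log y)) /
      (Real.log X / Real.log y) / Real.log X ^ 2 := by
    unfold GG Gf
    field_simp
  rw [hG]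
  generalize Real.log X / Real.log y = s at h3 hσ ⊢
  rw [← mul_div_assoc]
  refine div_le_div_of_nonneg_right ?_ (by positivity)
  rw [← mul_div_assoc, le_div_iff₀ (by linarith)]
  have e1 : Real.exp (-2 * s) = Real.exp (-s) * (Real.exp (-s / 2) * Real.exp (-s / 2)) := by
    rw [← Real.exp_add, ← Real.exp_add]; congr 1; ring
  have e2 : s * Real.exp (-s / 2) ≤ 2 := by
    have h5 : s / 2 + 1 ≤ Real.exp (s / 2) := Real.add_one_le_exp _
    have h6 : Real.exp (s / 2) * Real.exp (-s / 2) = 1 := by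
      rw [← Real.exp_add, ← Real.exp_zero]; congr 1; ring
    have h7 := Real.exp_pos (-s / 2)
    nlinarith
  have e3 : Real.exp (-s / 2) ≤ Real.exp (-(σ : ℝ) / 2) := Real.exp_le_exp.2 (by linarith)
  calc K * Real.exp (-2 * s) * s
      = K * Real.exp (-s) * ((s * Real.exp (-s / 2)) * Real.exp (-s / 2)) := by rw [e1]; ring
    _ ≤ K * Real.exp (-s) * (2 * Real.exp (-(σ : ℝ) / 2)) := by gcongr
    _ = 2 * K * Real.exp (-(σ : ℝ) / 2) * Real.exp (-s) := by ring

/-- `log y · GG X y = e^{-s}/(s³ log y)`. -/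
theorem qq_le_GG : ∃ K : ℝ, 0 < K ∧ ∀ (e : ℕ) (X : ℝ) (y : ℕ), valid e X y →
    qq e (Real.log X / Real.log y) / Real.log y ≤ K * Real.log y * GG X y := by
  obtain ⟨K, hK, h⟩ := qq_le
  refine ⟨K, hK, fun e X y hv => ?_⟩
  obtain ⟨h1, h2, h3, -⟩ := hv.one_le
  have ht : 0 < Real.log X := h1.trans_le h2
  have hG : K * Real.log y * GG X y = K * (Real.exp (-(Real.log X / Real.log y)) /
      (Real.log X / Real.log y) ^ 3) / Real.log y := by
    unfold GG Gf
    field_simp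
  rw [hG]
  refine div_le_div_of_nonneg_right ((h e _ h3).trans ?_) h1.le
  generalize Real.log X / Real.log y = s at h3 ⊢
  refine mul_le_mul_of_nonneg_left ?_ hK.le
  have hs : 0 < s := by linarith
  rw [le_div_iff₀ (by positivity)]
  have h5 := Real.pow_div_factorial_le_exp (2 * s) (by positivity) 3
  have h6 : s ^ 3 ≤ Real.exp (2 * s) := by
    refine le_trans ?_ h5
    have : (Nat.factorial 3 : ℝ) = 6 := by norm_num [Nat.factorial]
    rw [this, mul_pow]
    have : 0 < s ^ 3 := by positivity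
    linarith
  calc Real.exp (-3 * s) * s ^ 3 ≤ Real.exp (-3 * s) * Real.exp (2 * s) := by gcongr
    _ = Real.exp (-s) := by rw [← Real.exp_add]; congr 1; ring

/-- the weights of a child in terms of `t = log X`, `u = log X / log p` -/
theorem child_eq (e : ℕ) {X : ℝ} {p : ℕ} (hp : 2 ≤ p) (hX : (p : ℝ) < X) :
    Real.log (X / p) = Real.log X * ((Real.log X / Real.log p - 1) / (Real.log X / Real.log p)) ∧
    Real.log (X / p) / Real.log p = Real.log X / Real.log p - 1 ∧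
    hh e (X / p) p = eta e (Real.log X / Real.log p - 1) * (Real.log X / Real.log p) ^ 2 /
      (Real.log X / Real.log p - 1) ^ 2 / Real.log X ^ 2 ∧
    Gf (X / p) p = Real.exp (-(Real.log X / Real.log p - 1)) * (Real.log X / Real.log p) ^ 3 /
      (Real.log X / Real.log p - 1) ^ 3 / Real.log X ^ 3 := by
  have hp' : (2 : ℝ) ≤ p := by exact_mod_cast hp
  have hl : 0 < Real.log p := Real.log_pos (by linarith)
  have hlt : Real.log p < Real.log X := Real.log_lt_log (by linarith) hX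
  have ht : 0 < Real.log X := hl.trans hlt
  have hlog : Real.log (X / p) = Real.log X - Real.log p :=
    Real.log_div (by linarith) (by linarith)
  have h1 : Real.log (X / p) =
      Real.log X * ((Real.log X / Real.log p - 1) / (Real.log X / Real.log p)) := by
    rw [hlog]; field_simp
  have h2 : Real.log (X / p) / Real.log p = Real.log X / Real.log p - 1 := by
    rw [hlog]; field_simp
  have hu : 1 < Real.log X / Real.log p := (one_lt_div hl).2 hlt
  refine ⟨h1, h2, ?_, ?_⟩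
  · unfold hh
    rw [h2, h1]
    generalize Real.log X / Real.log p = u at hu ⊢
    have : u - 1 ≠ 0 := by linarith
    have : u ≠ 0 := by linarith
    field_simp
  · unfold Gf
    rw [h2, h1]
    generalize Real.log X / Real.log p = u at hu ⊢
    have : u - 1 ≠ 0 := by linarith
    have : u ≠ 0 := by linarith
    field_simp

open Classical in
theorem filter_ok {e : ℕ} {X : ℝ} {y : ℕ} (hv : valid e X y) (w : ℕ) :
    (Pr w y).filter (ok e X) =
      (Pr w y).filter fun p : ℕ => cut e (Real.log X / Real.log y) ≤ Real.log X / Real.log p := by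
  obtain ⟨h1, h2, h3, -⟩ := hv.one_le
  have ht : 0 < Real.log X := h1.trans_le h2
  refine Finset.filter_congr fun p hp => ?_
  obtain ⟨hp1, hp2⟩ := Finset.mem_filter.1 hp
  have hpy : (p : ℝ) ≤ y := by exact_mod_cast (Finset.mem_Ico.1 hp1).2.le
  have hp' : (2 : ℝ) ≤ p := by exact_mod_cast hp2.two_le
  have hl : 0 < Real.log p := Real.log_pos (by linarith)
  have hs : Real.log X / Real.log y ≤ Real.log X / Real.log p :=
    div_le_div_of_nonneg_left ht.le hl (Real.log_le_log (by linarith) hpy)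
  have hX : 0 < X := by linarith [hv.2.1]
  unfold ok cut
  by_cases he : Odd e
  · rw [if_pos he, max_le_iff, le_div_iff₀ hl (a := 3)]
    have : (p : ℝ) ^ 3 ≤ X ↔ 3 * Real.log p ≤ Real.log X := by
      rw [← Real.log_le_log_iff (by positivity) hX, Real.log_pow, Nat.cast_ofNat]
    rw [← this]
    exact ⟨fun h => ⟨hs, h he⟩, fun h _ => h.2⟩
  · rw [if_neg he]
    exact ⟨fun _ => hs, fun _ h => absurd h he⟩

theorem Hb.profile {f : ℝ → ℝ} {c : ℝ} {k : ℕ} (hk : k ≤ 3) (hc : ∀ u, c ≤ u → 2 ≤ u)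
    (h0 : ∀ u, c ≤ u → 0 ≤ f u) (ha : AntitoneOn f (Set.Ici c)) :
    AntitoneOn (fun u => f u * u ^ k / (u - 1) ^ k) (Set.Ici c) ∧
      ∀ u, c ≤ u → 0 ≤ f u * u ^ k / (u - 1) ^ k ∧ f u * u ^ k / (u - 1) ^ k ≤ 8 * f u := by
  have e : ∀ u : ℝ, f u * u ^ k / (u - 1) ^ k = f u * (u / (u - 1)) ^ k := fun u => by
    rw [div_pow, mul_div_assoc]
  have hr0 : ∀ u, c ≤ u → 0 ≤ u / (u - 1) := fun u hu =>
    div_nonneg (by linarith [hc u hu]) (by linarith [hc u hu])
  refine ⟨fun a ha' b hb' hab => ?_, fun u hu => ?_⟩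
  · simp only [e]
    have h1 := hc a ha'
    have h2 := hc b hb'
    have h3 : b / (b - 1) ≤ a / (a - 1) := by
      rw [div_le_div_iff₀ (by linarith) (by linarith)]
      nlinarith
    exact mul_le_mul (ha ha' hb' hab) (pow_le_pow_left₀ (hr0 b hb') h3 k)
      (pow_nonneg (hr0 b hb') k) (h0 a ha')
  · rw [e]
    have h1 := hc u hu
    refine ⟨mul_nonneg (h0 u hu) (pow_nonneg (hr0 u hu) k), ?_⟩
    have h3 : u / (u - 1) ≤ 2 := by
      rw [div_le_iff₀ (by linarith)]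
      linarith
    have h4 : (u / (u - 1)) ^ k ≤ 8 :=
      calc (u / (u - 1)) ^ k ≤ 2 ^ k := pow_le_pow_left₀ (hr0 u hu) h3 k
        _ ≤ 2 ^ 3 := pow_le_pow_right₀ (by norm_num) hk
        _ = 8 := by norm_num
    rw [mul_comm 8]
    exact mul_le_mul_of_nonneg_left h4 (h0 u hu)

/-- the three profiles used in the prime sums are antitone and exponentially small on `[cut e s, ∞)` -/
theorem profiles : ∃ K : ℝ, 0 < K ∧ ∀ (e : ℕ) (s : ℝ), 1 ≤ s → (Even e → 2 ≤ s) →
    (AntitoneOn (fun u => eta (e + 1) (u - 1) * u ^ 2 / (u - 1) ^ 2) (Set.Ici (cut e s)) ∧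
      ∀ u, cut e s ≤ u → 0 ≤ eta (e + 1) (u - 1) * u ^ 2 / (u - 1) ^ 2 ∧
        eta (e + 1) (u - 1) * u ^ 2 / (u - 1) ^ 2 ≤ K * Real.exp (-2 * u)) ∧
    (AntitoneOn (fun u => eta (e + 1) (u - 1) * u ^ 3 / (u - 1) ^ 3) (Set.Ici (cut e s)) ∧
      ∀ u, cut e s ≤ u → 0 ≤ eta (e + 1) (u - 1) * u ^ 3 / (u - 1) ^ 3 ∧
        eta (e + 1) (u - 1) * u ^ 3 / (u - 1) ^ 3 ≤ K * Real.exp (-2 * u)) ∧
    (AntitoneOn (fun u => Real.exp (-(u - 1)) * u ^ 3 / (u - 1) ^ 3) (Set.Ici (cut e s)) ∧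
      ∀ u, cut e s ≤ u → 0 ≤ Real.exp (-(u - 1)) * u ^ 3 / (u - 1) ^ 3 ∧
        Real.exp (-(u - 1)) * u ^ 3 / (u - 1) ^ 3 ≤ K * Real.exp (-1 * u)) := by
  obtain ⟨K, hK, h⟩ := eta_le
  refine ⟨8 * (K * Real.exp 2 + Real.exp 1), by positivity, fun e s hs he => ?_⟩
  have hc : ∀ u, cut e s ≤ u → 2 ≤ u ∧ (Even (e + 1) → 2 ≤ u - 1) := by
    intro u hu
    unfold cut at hu
    by_cases ho : Odd e
    · rw [if_pos ho] at hu
      have := (le_max_right _ _).trans hu
      exact ⟨by linarith, fun _ => by linarith⟩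
    · rw [if_neg ho] at hu
      have hev : Even e := Nat.not_odd_iff_even.1 ho
      exact ⟨(he hev).trans hu, fun h' => absurd hev (Nat.even_add_one.1 h')⟩
  have hη0 : ∀ u, cut e s ≤ u → 0 ≤ eta (e + 1) (u - 1) := fun u hu =>
    eta_nonneg _ (by linarith [(hc u hu).1])
  have hηa : AntitoneOn (fun u => eta (e + 1) (u - 1)) (Set.Ici (cut e s)) :=
    fun a ha b _ hab => eta_anti _ (by linarith [(hc a ha).1]) (hc a ha).2 (by linarith)
  have hηb : ∀ u, cut e s ≤ u →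
      eta (e + 1) (u - 1) ≤ (K * Real.exp 2 + Real.exp 1) * Real.exp (-2 * u) := by
    intro u hu
    refine (h _ _ (by linarith [(hc u hu).1])).trans ?_
    have e1 : Real.exp (-2 * (u - 1)) = Real.exp 2 * Real.exp (-2 * u) := by
      rw [← Real.exp_add]; congr 1; ring
    rw [e1]
    have := Real.exp_pos 1
    have := Real.exp_pos (-2 * u)
    nlinarith
  have hE0 : ∀ u, cut e s ≤ u → 0 ≤ Real.exp (-(u - 1)) := fun u _ => (Real.exp_pos _).le
  have hEa : AntitoneOn (fun u => Real.exp (-(u - 1))) (Set.Ici (cut e s)) :=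
    fun a _ b _ hab => Real.exp_le_exp.2 (by linarith)
  have hEb : ∀ u, cut e s ≤ u →
      Real.exp (-(u - 1)) ≤ (K * Real.exp 2 + Real.exp 1) * Real.exp (-1 * u) := by
    intro u _
    have e1 : Real.exp (-(u - 1)) = Real.exp 1 * Real.exp (-1 * u) := by
      rw [← Real.exp_add]; congr 1; ring
    rw [e1]
    have := Real.exp_pos 2
    have := Real.exp_pos (-1 * u)
    have : 0 < K * Real.exp 2 * Real.exp (-1 * u) := by positivity
    nlinarith
  have hc2 : ∀ u, cut e s ≤ u → 2 ≤ u := fun u hu => (hc u hu).1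
  refine ⟨?_, ?_, ?_⟩
  · obtain ⟨h1, h2⟩ := Hb.profile (k := 2) (by norm_num) hc2 hη0 hηa
    exact ⟨h1, fun u hu => ⟨(h2 u hu).1, (h2 u hu).2.trans (by linarith [hηb u hu])⟩⟩
  · obtain ⟨h1, h2⟩ := Hb.profile (k := 3) (by norm_num) hc2 hη0 hηa
    exact ⟨h1, fun u hu => ⟨(h2 u hu).1, (h2 u hu).2.trans (by linarith [hηb u hu])⟩⟩
  · obtain ⟨h1, h2⟩ := Hb.profile (k := 3) (by norm_num) hc2 hE0 hEa
    exact ⟨h1, fun u hu => ⟨(h2 u hu).1, (h2 u hu).2.trans (by linarith [hEb u hu])⟩⟩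

end Crest.Agent.R1
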