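import Crest.Agent.R1.Cnt
import Crest.Agent.R1.SupD

/-! Row 1: the large primes. -/

set_option autoImplicit false

namespace Crest.Agent.R1
open Finset MeasureTheory Filter

namespace Loss

theorem ev : ∀ᶠ m : ℕ in atTop, 1 ≤ m ∧ 6144 ≤ Real.log m ∧ 1 ≤ Real.log (Real.log m) ∧
    Real.log (Real.log m) ≤ Real.log m / 8 := by
  have h0 : Tendsto (fun m : ℕ => Real.log m) atTop atTop :=
    Real.tendsto_log_atTop.comp tendsto_natCast_atTop_atTop
  have h1 := Real.isLittleO_log_id_atTop.bound (c := 1 / 8) (by norm_num)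
  filter_upwards [eventually_ge_atTop 1, h0.eventually (eventually_ge_atTop 6144),
    (Real.tendsto_log_atTop.comp h0).eventually (eventually_ge_atTop 1), h0.eventually h1]
    with m a b c d
  refine ⟨a, b, c, ?_⟩
  rw [Real.norm_eq_abs, Real.norm_eq_abs, id, abs_of_nonneg (a := Real.log m) (by linarith)] at d
  have := le_abs_self (Real.log (Real.log m))
  linarith

theorem card_Ch {e : ℕ} {X : ℝ} {w y : ℕ} (hv : valid e X y) : ((Ch e X w y).card : ℝ) ≤ X := by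
  have hX : 0 ≤ X := (Nat.cast_nonneg y).trans hv.2.1
  have hpr : ∀ s ∈ Ch e X w y, ∀ p ∈ s, p.Prime := fun s hs p hp =>
    (mem_Pr.1 ((mem_Ch.1 hs).1 hp)).2.2
  have h1 : (Ch e X w y).card ≤ (Icc 1 ⌊X⌋₊).card := by
    refine card_le_card_of_injOn pd ?_ ?_
    · intro s hs
      have hs' : s ∈ Ch e X w y := hs
      exact mem_coe.2 (mem_Icc.2 ⟨pd_pos (hpr s hs'), Nat.le_floor (pd_le hv hs')⟩)
    · intro s hs t ht h
      rw [← primeFactors_pd (hpr s hs), ← primeFactors_pd (hpr t ht), h]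
  rw [Nat.card_Icc, Nat.add_sub_cancel] at h1
  exact (Nat.cast_le.2 h1).trans (Nat.floor_le hX)

end Loss

/-- split at `z = ⌈√m log³ m⌉`: Mertens on `[y, z)` (`log z / log y ≤ 1 + C log log m / log m`), and `#B / z` -/
theorem tailB (hM : MerStmt) : ∃ K : ℝ, 0 < K ∧ ∀ᶠ m : ℕ in atTop, ∀ (B : Finset ℕ) (y : ℕ),
    √m / Real.log m ^ 2 ≤ y → (∀ p ∈ B, p.Prime ∧ y ≤ p) → (B.card : ℝ) ≤ √m * Real.log m →
    ∑ p ∈ B, 1 / (p : ℝ) ≤ K * Real.log (Real.log m) / Real.log m := by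
  obtain ⟨K, c, hc, hK, hM⟩ := hM
  refine ⟨25 + 64 * K, by positivity, ?_⟩
  filter_upwards [Loss.ev] with m ⟨hm, hL, hl1, hl2⟩ B y hy hB hcard
  set L := Real.log m with hLdef
  set l := Real.log L with hldef
  have hm' : (0 : ℝ) < m := by exact_mod_cast hm
  have hL0 : 0 < L := by linarith
  have hL1 : 1 ≤ L := by linarith
  have hs : 0 < √(m : ℝ) := Real.sqrt_pos.2 hm'
  have hs1 : 1 ≤ √(m : ℝ) := Real.one_le_sqrt.2 (by exact_mod_cast hm)
  set a : ℝ := √m / L ^ 2 with ha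
  have ha0 : 0 < a := by positivity
  have hla : Real.log a = L / 2 - 2 * l := by
    rw [ha, Real.log_div hs.ne' (by positivity), Real.log_sqrt hm'.le, Real.log_pow,
      Nat.cast_ofNat]
  set w := ⌈a⌉₊ with hw
  set z := ⌈√(m : ℝ) * L ^ 3⌉₊ with hz
  have hwa : a ≤ w := Nat.le_ceil a
  have hlw : L / 4 ≤ Real.log w := by
    have := Real.log_le_log ha0 hwa
    linarith
  have hlw0 : 0 < Real.log w := by linarith
  have hw2 : 2 ≤ w := by
    by_contra h
    have h1 : (w : ℝ) ≤ 1 := by exact_mod_cast (by omega : w ≤ 1)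
    have := Real.log_nonpos (Nat.cast_nonneg w) h1
    linarith
  have hL3 : 1 ≤ L ^ 3 := one_le_pow₀ hL1
  have hwz : w ≤ z := by
    refine Nat.ceil_le_ceil ?_
    calc a ≤ √m := div_le_self hs.le (one_le_pow₀ hL1)
      _ ≤ √m * L ^ 3 := le_mul_of_one_le_right hs.le hL3
  have hz1 : √(m : ℝ) * L ^ 3 ≤ z := Nat.le_ceil _
  have hz0 : 0 < √(m : ℝ) * L ^ 3 := by positivity
  have hz2 : (z : ℝ) ≤ 2 * (√m * L ^ 3) := by
    have h1 := (Nat.ceil_lt_add_one hz0.le).le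
    have h2 : 1 ≤ √(m : ℝ) * L ^ 3 := one_le_mul_of_one_le_of_one_le hs1 hL3
    linarith
  have hlz : Real.log z ≤ Real.log w + 6 * l := by
    have h1 := Real.log_le_log (hz0.trans_le hz1) hz2
    rw [Real.log_mul two_ne_zero hz0.ne', Real.log_mul hs.ne' (by positivity),
      Real.log_sqrt hm'.le, Real.log_pow] at h1
    have h2 := Real.log_le_log ha0 hwa
    have h3 := Real.log_two_lt_d9
    push_cast at h1
    linarith
  have hlz0 : 0 < Real.log z := hlw0.trans_le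
    (Real.log_le_log (by positivity) (by exact_mod_cast hwz))
  have hwy : w ≤ y := Nat.ceil_le.2 hy
  have h1 : ∑ p ∈ B.filter (· < z), 1 / (p : ℝ) ≤ ∑ p ∈ Pr w z, 1 / (p : ℝ) := by
    refine sum_le_sum_of_subset_of_nonneg (fun p hp => ?_) fun p _ _ => by positivity
    obtain ⟨h1, h2⟩ := mem_filter.1 hp
    exact mem_Pr.2 ⟨hwy.trans (hB p h1).2, h2, (hB p h1).1⟩
  have h2 : ∑ p ∈ Pr w z, 1 / (p : ℝ) ≤ (24 + 64 * K) * l / L := by
    have h3 := (abs_le.1 (hM w z hw2 hwz).1).2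
    have h4 : Real.log (Real.log z / Real.log w) ≤ 24 * l / L := by
      refine (Real.log_le_sub_one_of_pos (div_pos hlz0 hlw0)).trans ?_
      rw [div_sub_one hlw0.ne']
      calc (Real.log z - Real.log w) / Real.log w ≤ 6 * l / (L / 4) := by
            gcongr
            linarith
        _ = 24 * l / L := by field_simp; ring
    have h5 : K / Real.log w ^ 3 ≤ 64 * K * l / L := by
      calc K / Real.log w ^ 3 ≤ K / (L / 4) ^ 3 := by gcongr
        _ = 64 * K * 1 / L ^ 3 := by field_simp; ring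
        _ ≤ 64 * K * l / L := by
            gcongr
            exact le_self_pow₀ hL1 (by norm_num)
    have h6 : (24 + 64 * K) * l / L = 24 * l / L + 64 * K * l / L := by ring
    linarith
  have h3 : ∑ p ∈ B.filter (fun p => ¬ p < z), 1 / (p : ℝ) ≤ l / L := by
    calc ∑ p ∈ B.filter (fun p => ¬ p < z), 1 / (p : ℝ)
        ≤ ∑ p ∈ B.filter (fun p => ¬ p < z), 1 / (√(m : ℝ) * L ^ 3) := by
          refine sum_le_sum fun p hp => one_div_le_one_div_of_le hz0 (hz1.trans ?_)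
          exact_mod_cast not_lt.1 (mem_filter.1 hp).2
      _ = ((B.filter (fun p => ¬ p < z)).card : ℝ) * (1 / (√(m : ℝ) * L ^ 3)) := by
          rw [sum_const, nsmul_eq_mul]
      _ ≤ (√m * L) * (1 / (√(m : ℝ) * L ^ 3)) := by
          gcongr
          exact (Nat.cast_le.2 (card_filter_le _ _)).trans hcard
      _ = 1 / L ^ 2 := by field_simp
      _ ≤ l / L := by
          gcongr
          exact le_self_pow₀ hL1 (by norm_num)
  rw [← sum_filter_add_sum_filter_not B (· < z)]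
  have h6 : (25 + 64 * K) * l / L = (24 + 64 * K) * l / L + l / L := by ring
  linarith

/-- the upper bound sieve: `buch_le` (`e = 1`) summed over `n`, `pd_dvd`, `cnt_err`; there are at most `X`
chains (`pd_le`, `primeFactors_pd`) -/
theorem Tn_upper (N : ℤ) (m : ℕ) {p y' y : ℕ} {X : ℝ} (hp : p.Prime) (h2 : 2 ≤ y') (hy : y' ≤ y)
    (hyp : y' ≤ p) (hX : (y' : ℝ) ≤ X) :
    (Tn N m {p} y : ℝ) ≤ m / p * Mn 1 X 2 y' + X := by
  classical
  have hv : valid 1 X y' := ⟨h2, hX, fun h => absurd h (by decide)⟩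
  have hpr : ∀ s ∈ Ch 1 X 2 y', ∀ q ∈ insert p s, q.Prime := by
    intro s hs q hq
    rcases mem_insert.1 hq with rfl | hq
    · exact hp
    · exact (mem_Pr.1 ((mem_Ch.1 hs).1 hq)).2.2
  have hnm : ∀ s ∈ Ch 1 X 2 y', p ∉ s := fun s hs h =>
    (mem_Pr.1 ((mem_Ch.1 hs).1 h)).2.1.not_ge hyp
  have h1 : ∀ n : ℕ, (if (pd {p} : ℤ) ∣ N + n ∧ ∀ q ∈ Pr 2 y, ¬ (q : ℤ) ∣ N + n then (1 : ℝ) else 0) ≤
      ∑ s ∈ Ch 1 X 2 y', if (pd (insert p s) : ℤ) ∣ N + n then (-1 : ℝ) ^ s.card else 0 := by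
    intro n
    have hb := buch_le (fun q => (q : ℤ) ∣ N + n) 1 X 2 y'
    rw [pow_one, neg_one_mul, neg_one_mul, neg_le_neg_iff] at hb
    have hpp : pd {p} = p := prod_singleton _ _
    rw [hpp]
    by_cases hd : (p : ℤ) ∣ N + n
    · have h3 : (∑ s ∈ Ch 1 X 2 y', if (pd (insert p s) : ℤ) ∣ N + n then (-1 : ℝ) ^ s.card else 0) =
          ∑ s ∈ Ch 1 X 2 y', if ∀ q ∈ s, (q : ℤ) ∣ N + n then (-1 : ℝ) ^ s.card else 0 := by
        refine sum_congr rfl fun s hs => if_congr ?_ rfl rfl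
        rw [pd_dvd (hpr s hs), forall_mem_insert]
        exact and_iff_right hd
      rw [h3]
      refine le_trans ?_ (le_trans hb (le_of_eq ?_))
      · by_cases h4 : ∀ q ∈ Pr 2 y, ¬ (q : ℤ) ∣ N + n
        · rw [if_pos ⟨hd, h4⟩, if_pos]
          intro q hq
          rw [mem_Pr] at hq
          exact h4 q (mem_Pr.2 ⟨hq.1, hq.2.1.trans_le hy, hq.2.2⟩)
        · rw [if_neg fun h => h4 h.2]
          split_ifs <;> norm_num
      · refine sum_congr rfl fun s _ => ?_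
        congr
    · rw [if_neg fun h => hd h.1]
      refine le_of_eq (sum_eq_zero fun s hs => if_neg fun h => hd ?_).symm
      exact (pd_dvd (hpr s hs) _).1 h p (mem_insert_self _ _)
  have h3 : (Tn N m {p} y : ℝ) ≤
      ∑ s ∈ Ch 1 X 2 y', (-1 : ℝ) ^ s.card * cnt N m (pd (insert p s)) := by
    rw [Tn, card_filter]
    push_cast
    refine (sum_le_sum fun n _ => h1 n).trans (le_of_eq ?_)
    rw [sum_comm]
    refine sum_congr rfl fun s _ => ?_
    rw [cnt, ← sum_filter, sum_const, nsmul_eq_mul, mul_comm]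
  have h4 : ∀ s ∈ Ch 1 X 2 y', (-1 : ℝ) ^ s.card * cnt N m (pd (insert p s)) ≤
      m / p * ((-1 : ℝ) ^ s.card / pd s) + 1 := by
    intro s hs
    have h5 := cnt_err N m (pd_pos (hpr s hs))
    rw [ChainB.pd_insert (hnm s hs)] at h5
    have h6 : (m : ℝ) / p * ((-1 : ℝ) ^ s.card / pd s) = (-1 : ℝ) ^ s.card * (m / (p * pd s)) := by
      rw [div_mul_div_comm, mul_div_assoc', mul_comm (m : ℝ)]
    rw [h6]
    rw [abs_le] at h5
    rcases neg_one_pow_eq_or ℝ s.card with h | h <;> rw [h] <;> linarith [h5.1, h5.2]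
  refine h3.trans ((sum_le_sum h4).trans ?_)
  rw [sum_add_distrib, ← mul_sum, sum_const, nsmul_eq_mul, mul_one, Mn]
  have := Loss.card_Ch (w := 2) hv
  linarith

/-- `Tn_upper` with `X = y' = ⌊m^0.1⌋` for every `p ∈ B`, `Mn_upper`, `tailB`; `#B · X ≤ m^0.6 log m`. -/
theorem loss (hM : MerStmt) : ∃ K : ℝ, 0 < K ∧ ∀ᶠ m : ℕ in atTop, ∀ (N : ℤ) (B : Finset ℕ) (y : ℕ),
    √m / Real.log m ^ 2 ≤ y → (∀ p ∈ B, p.Prime ∧ y ≤ p) → (B.card : ℝ) ≤ √m * Real.log m →
    ∑ p ∈ B, (Tn N m {p} y : ℝ) ≤ K * m * Real.log (Real.log m) / Real.log m ^ 2 := by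
  obtain ⟨K1, hK1, h1⟩ := tailB hM
  obtain ⟨K2, hK2, h2⟩ := Mn_upper hM
  refine ⟨8 * K2 * K1 + 1, by positivity, ?_⟩
  filter_upwards [Loss.ev, h1] with m ⟨hm, hL, hl1, hl2⟩ h1 N B y hy hB hcard
  have h1 := h1 B y hy hB hcard
  set L := Real.log m with hLdef
  set l := Real.log L with hldef
  have hm' : (0 : ℝ) < m := by exact_mod_cast hm
  have hL0 : 0 < L := by linarith
  have hL1 : 1 ≤ L := by linarith
  set u := Real.exp (L / 4) with hu
  have hu0 : 0 < u := Real.exp_pos _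
  have hu4 : (m : ℝ) = u ^ 4 := by
    rw [hu, ← Real.exp_nat_mul]
    have : ((4 : ℕ) : ℝ) * (L / 4) = L := by push_cast; ring
    rw [this, hLdef, Real.exp_log hm']
  have hu2 : √(m : ℝ) = u ^ 2 := by
    rw [hu4, show u ^ 4 = (u ^ 2) ^ 2 by ring, Real.sqrt_sq (by positivity)]
  have hLu : L ^ 3 ≤ u := by
    have h3 := Real.pow_div_factorial_le_exp (L / 4) (by positivity) 4
    have h4 : (L / 4) ^ 4 / ((4 : ℕ).factorial : ℝ) = L ^ 3 * (L / 6144) := by
      rw [show ((4 : ℕ).factorial : ℝ) = 24 by norm_num [Nat.factorial]]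
      ring
    rw [h4] at h3
    refine le_trans (le_mul_of_one_le_right (by positivity) ?_) h3
    rw [le_div_iff₀ (by norm_num)]
    linarith
  have hL3 : L ≤ L ^ 3 := le_self_pow₀ hL1 (by norm_num)
  set y' := ⌊u⌋₊ with hy'
  have hy1 : (y' : ℝ) ≤ u := Nat.floor_le hu0.le
  have hy2 : u / 2 ≤ y' := by
    have := Nat.lt_floor_add_one u
    linarith
  have hy3 : 2 ≤ y' := Nat.le_floor (by push_cast; linarith)
  have hy4 : y' ≤ y := by
    have h3 : u ≤ √m / L ^ 2 := by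
      rw [hu2, le_div_iff₀ (by positivity), pow_two u]
      exact mul_le_mul_of_nonneg_left ((pow_le_pow_right₀ hL1 (by norm_num)).trans hLu) hu0.le
    exact_mod_cast hy1.trans (h3.trans hy)
  have hy5 : L / 8 ≤ Real.log y' := by
    have h3 := Real.log_le_log (by positivity) hy2
    rw [Real.log_div hu0.ne' two_ne_zero, hu, Real.log_exp] at h3
    have := Real.log_two_lt_d9
    linarith
  have hMn : Mn 1 y' 2 y' ≤ 8 * K2 / L := by
    refine (h2 y' 2 y' le_rfl hy3 le_rfl).trans ?_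
    have h3 : Real.log (2 : ℕ) ≤ 1 := by
      have := Real.log_two_lt_d9
      push_cast
      linarith
    calc K2 * (Real.log (2 : ℕ) / Real.log y') ≤ K2 * (1 / (L / 8)) := by gcongr
      _ = 8 * K2 / L := by field_simp
  have h3 : ∀ p ∈ B, (Tn N m {p} y : ℝ) ≤ m * (8 * K2 / L) * (1 / p) + u := by
    intro p hp
    refine (Tn_upper N m (X := y') (hB p hp).1 hy3 hy4 (hy4.trans (hB p hp).2) le_rfl).trans ?_
    have h4 : (m : ℝ) / p * Mn 1 y' 2 y' ≤ m / p * (8 * K2 / L) :=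
      mul_le_mul_of_nonneg_left hMn (by positivity)
    have h5 : (m : ℝ) / p * (8 * K2 / L) = m * (8 * K2 / L) * (1 / p) := by ring
    linarith
  refine (sum_le_sum h3).trans ?_
  rw [sum_add_distrib, ← mul_sum, sum_const, nsmul_eq_mul]
  have h4 : (m : ℝ) * (8 * K2 / L) * ∑ p ∈ B, 1 / (p : ℝ) ≤ m * (8 * K2 / L) * (K1 * l / L) :=
    mul_le_mul_of_nonneg_left h1 (by positivity)
  have h5 : (B.card : ℝ) * u ≤ m * l / L ^ 2 := by
    calc (B.card : ℝ) * u ≤ (√m * L) * u := mul_le_mul_of_nonneg_right hcard hu0.le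
      _ = u ^ 3 * L ^ 3 * 1 / L ^ 2 := by rw [hu2]; field_simp
      _ ≤ u ^ 3 * u * l / L ^ 2 := by gcongr
      _ = m * l / L ^ 2 := by rw [hu4]; ring
  have h6 : (8 * K2 * K1 + 1) * m * l / L ^ 2 = m * (8 * K2 / L) * (K1 * l / L) + m * l / L ^ 2 := by
    field_simp
  linarith

end Crest.Agent.R1
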