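import Crest.Agent.R1.Num
import Crest.Agent.R1.Asm1
import Crest.Agent.R1.Asm3
import Crest.Agent.R1.Asm4
import Crest.Agent.R1.Loss
import Crest.Agent.R1.CaseA

/-! Row 1: the main theorem. -/

set_option autoImplicit false

namespace Crest.Agent.R1
open Finset MeasureTheory Filter

namespace Main

theorem tendsto_L : Tendsto (fun m : ℕ => Real.log m) atTop atTop :=
  Real.tendsto_log_atTop.comp tendsto_natCast_atTop_atTop

theorem tendsto_ll : Tendsto (fun m : ℕ => Real.log (Real.log m)) atTop atTop :=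
  Real.tendsto_log_atTop.comp tendsto_L

theorem ev_tail (K : ℝ) {ε : ℝ} (hε : 0 < ε) :
    ∀ᶠ m : ℕ in atTop, K * Real.log (Real.log m) / Real.log m ≤ ε := by
  have h := (Real.isLittleO_log_id_atTop.tendsto_div_nhds_zero.comp tendsto_L).const_mul K
  rw [mul_zero] at h
  filter_upwards [h.eventually_le_const hε] with m hm
  simpa only [Function.comp, id, mul_div_assoc] using hm

theorem log_pw {A m : ℕ} (h : 1 ≤ Real.log m) : A * Real.log (Real.log m) ≤ Real.log (pw A m) := by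
  rw [← Real.log_pow]
  exact Real.log_le_log (by positivity) (Nat.le_ceil _)

theorem tendsto_pw {A : ℕ} (hA : 1 ≤ A) : Tendsto (pw A) atTop atTop :=
  tendsto_nat_ceil_atTop.comp ((tendsto_pow_atTop (by omega)).comp tendsto_L)

/-- if nothing survives, the rough numbers are covered by the large primes -/
theorem cover (N : ℤ) (m y : ℕ) (B : Finset ℕ) (hB : ∀ p ∈ B, p.Prime)
    (h : ¬ ∃ n ∈ Icc 1 m, ∀ p ∈ B, ¬ (p : ℤ) ∣ N + n) :
    (Tn N m ∅ y : ℝ) ≤ ∑ p ∈ B.filter (y ≤ ·), (Tn N m {p} y : ℝ) := by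
  classical
  push Not at h
  unfold Tn
  rw [← Nat.cast_sum, Nat.cast_le]
  refine le_trans (card_le_card fun n hn => ?_) card_biUnion_le
  rw [mem_filter] at hn
  obtain ⟨p, hp, hd⟩ := h n hn.1
  refine mem_biUnion.2 ⟨p, mem_filter.2 ⟨hp, ?_⟩, mem_filter.2 ⟨hn.1, ?_, hn.2.2⟩⟩
  · by_contra hc
    exact hn.2.2 p (mem_Pr.2 ⟨(hB p hp).two_le, by omega, hB p hp⟩) hd
  · simpa [pd] using hd

/-- the foreign primes of `B` -/
theorem foreign (N : ℤ) (r : ℕ × ℤ × ℤ) (x : ℝ) (y : ℕ) (B : Finset ℕ) (hB : ∀ p ∈ B, p.Prime) :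
    ∑ p ∈ B.filter (fun p : ℕ => x ≤ p ∧ ¬ (p : ℤ) ∣ r.1 * N - r.2.2), 1 / (p : ℝ) ≤
      fm N r ⌈x⌉₊ y + ∑ p ∈ B.filter (y ≤ ·), 1 / (p : ℝ) := by
  classical
  unfold fm
  refine le_trans ?_ (sum_union_inter.le.trans' (le_add_of_nonneg_right (by positivity)))
  refine sum_le_sum_of_subset_of_nonneg (fun p hp => ?_) fun _ _ _ => by positivity
  rw [mem_filter] at hp
  rw [mem_union, mem_filter, mem_filter, mem_Pr]
  by_cases h : y ≤ p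
  · exact Or.inr ⟨hp.1, h⟩
  · exact Or.inl ⟨⟨Nat.ceil_le.2 hp.2.1, by omega, hB p hp.1⟩, hp.2.2⟩

theorem split (Q : Par) :
    ∑ g ∈ Q.C1, ∑ e ∈ Q.C2 g, (-1 : ℝ) ^ (g.card + e.card) * cnt Q.N Q.m (pd g * pd e) =
      ∑ g ∈ Q.C1, ∑ e ∈ Q.C2 g, (-1 : ℝ) ^ (g.card + e.card) *
        ((cnt Q.N Q.m (pd g * pd e) : ℝ) - Q.m / ((pd g * pd e : ℕ) : ℝ)) +
      Q.m * ∑ g ∈ Q.C1, ∑ e ∈ Q.C2 g, (-1 : ℝ) ^ (g.card + e.card) / ((pd g * pd e : ℕ) : ℝ) := by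
  simp only [mul_sum, ← sum_add_distrib]
  refine sum_congr rfl fun g _ => sum_congr rfl fun e _ => by ring

/-- the remainder is `O(m / L²)` -/
theorem rem_le {m L D w W Λ E H Ms x : ℝ} (hL : 1 ≤ L) (hm : 0 < m) (hD0 : 0 ≤ D) (hD : D ≤ m / L ^ 3)
    (hw : w ≤ W) (hW : 0 < W) (hΛ : L ^ 3 ≤ Λ) (hE : Λ * E ≤ x) (hH : x * x ≤ H) (hE1 : 1 ≤ E)
    (hMs : Ms ≤ m / H + 1) (hHm : H ≤ m) (hMs0 : 0 ≤ Ms) :
    D + w * D / W + m * (1 + L) / Λ + 8 * Λ * E * (Ms + 2) ≤ 36 * (m / L ^ 2) := by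
  have h0 : 0 < L := by linarith
  have h23 : L ^ 2 ≤ L ^ 3 := pow_le_pow_right₀ hL (by norm_num)
  have hΛ0 : 0 < Λ := lt_of_lt_of_le (by positivity) hΛ
  have hx : L ^ 2 ≤ x := by nlinarith
  have hx0 : 0 < x := lt_of_lt_of_le (by positivity) hx
  have hH0 : 0 < H := lt_of_lt_of_le (by positivity) hH
  have a1 : D ≤ m / L ^ 2 := hD.trans (div_le_div_of_nonneg_left hm.le (by positivity) h23)
  have a2 : w * D / W ≤ D := by
    rw [div_le_iff₀ hW]; nlinarith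
  have a3 : m * (1 + L) / Λ ≤ 2 * (m / L ^ 2) := by
    calc m * (1 + L) / Λ ≤ m * (2 * L) / L ^ 3 := by gcongr; linarith
      _ = _ := by field_simp
  have a4 : Ms + 2 ≤ 4 * (m / H) := by
    have : 1 ≤ m / H := (one_le_div hH0).2 hHm
    linarith
  have a5 : 8 * Λ * E * (Ms + 2) ≤ 32 * (m / L ^ 2) := by
    calc 8 * Λ * E * (Ms + 2) = 8 * (Λ * E) * (Ms + 2) := by ring
      _ ≤ 8 * x * (4 * (m / (x * x))) := by
        gcongr
        exact a4.trans (by gcongr)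
      _ = 32 * (m / x) := by field_simp; norm_num
      _ ≤ _ := by gcongr
  linarith

/-- the final comparison -/
theorem final {m L l lD lw S T M Rm K2 Kl c κ A : ℝ} (hm : 0 < m) (hL : 1 ≤ L) (h1 : L / 2 ≤ lD)
    (h2 : lD ≤ L) (hl : 4 * K2 + 36 < l) (hK2 : 0 < K2) (hc : 0 < c) (hκ : 0 < κ) (hA0 : 0 ≤ A)
    (hA : Kl + 1 ≤ c * κ * A) (hlw : A * l ≤ lw) (hS : κ / lD ^ 2 ≤ S)
    (hM : -(K2 / lD ^ 2) + c * lw * S ≤ M) (hR : |Rm| ≤ 36 * (m / L ^ 2)) (hT : Rm + m * M ≤ T) :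
    Kl * m * l / L ^ 2 < T := by
  have h0 : 0 < L := by linarith
  have hD : 0 < lD := by linarith
  have hl0 : 0 < l := by linarith
  have a1 : K2 / lD ^ 2 ≤ 4 * K2 / L ^ 2 := by
    calc K2 / lD ^ 2 ≤ K2 / (L / 2) ^ 2 := by gcongr
      _ = _ := by field_simp; norm_num
  have a2 : κ / L ^ 2 ≤ S := le_trans (by gcongr) hS
  have a3 : (Kl + 1) * l / L ^ 2 ≤ c * lw * S := by
    calc (Kl + 1) * l / L ^ 2 ≤ c * κ * A * l / L ^ 2 := by gcongr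
      _ = c * (A * l) * (κ / L ^ 2) := by ring
      _ ≤ _ := by
        have : 0 ≤ lw := le_trans (by positivity) hlw
        gcongr
  have a4 : m * (-(4 * K2 / L ^ 2) + (Kl + 1) * l / L ^ 2) ≤ m * M := by
    gcongr; linarith
  have a5 : 0 < (l - 4 * K2 - 36) * (m / L ^ 2) := mul_pos (by linarith) (by positivity)
  have a6 := (abs_le.1 hR).1
  have e : m * (-(4 * K2 / L ^ 2) + (Kl + 1) * l / L ^ 2) =
      Kl * m * l / L ^ 2 + (l - 4 * K2 - 36) * (m / L ^ 2) + 36 * (m / L ^ 2) := by ring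
  linarith

theorem elig_ge {κ c4 c1 K5 s a b lw σL o P lD S : ℝ} (hκ : 0 < κ) (hκe : c4 * (c1 / 4) = 2 * κ)
    (hc1 : 0 < c1) (hc4 : 0 < c4) (hK5 : 0 < K5) (hs : 0 ≤ s) (ha : K5 * a ≤ κ / 4)
    (hb : (s + 1) * b ≤ κ / 4 / K5) (hlw : K5 * (s + 3) / (κ / 4) ≤ lw) (h1 : 1 / 2 ≤ σL) (h2 : o ≤ 1 / 4)
    (hP : c1 * (σL - o) ≤ P)
    (h : c4 * P / lD ^ 2 ≤ S + K5 * ((s + 3) / lw + a + a + (s + 1) * b) / lD ^ 2) :
    κ / lD ^ 2 ≤ S := by
  have hlw0 : 0 < lw := lt_of_lt_of_le (by positivity) hlw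
  have b1 : 2 * κ / lD ^ 2 ≤ c4 * P / lD ^ 2 := by
    rw [← hκe]
    gcongr
    exact le_trans (by nlinarith) hP
  have b2 : K5 * ((s + 3) / lw) ≤ κ / 4 := by
    rw [div_le_iff₀ (by positivity)] at hlw
    rw [← mul_div_assoc, div_le_iff₀ hlw0]
    linarith
  rw [le_div_iff₀ hK5] at hb
  have b3 : K5 * ((s + 3) / lw + a + a + (s + 1) * b) / lD ^ 2 ≤ κ / lD ^ 2 := by
    gcongr
    linarith
  have e : 2 * κ / lD ^ 2 = κ / lD ^ 2 + κ / lD ^ 2 := by ring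
  linarith

theorem ex_sigma (K : ℝ) {ε : ℝ} (hε : 0 < ε) : ∃ σ : ℕ, K * Real.exp (-(σ : ℝ) / 2) ≤ ε := by
  have h : Tendsto (fun σ : ℕ => K * Real.exp (-(σ : ℝ) / 2)) atTop (nhds (K * 0)) :=
    (Real.tendsto_exp_atBot.comp ((tendsto_neg_atTop_atBot.comp
      tendsto_natCast_atTop_atTop).atBot_div_const (by norm_num))).const_mul K
  rw [mul_zero] at h
  exact (h.eventually_le_const hε).exists

end Main

open Main in
theorem main (hθ : ThetaStmt) : ∀ᶠ m : ℕ in atTop, ∀ (N : ℤ) (B : Finset ℕ), (∀ p ∈ B, p.Prime) →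
    (B.card : ℝ) ≤ √m * Real.log m → ∃ n ∈ Icc 1 m, ∀ p ∈ B, ¬ (p : ℤ) ∣ N + n := by
  classical
  have hM := mer hθ
  obtain ⟨η0, hη0, hA⟩ := caseA hθ
  obtain ⟨η, hη, hη1, hη2⟩ : ∃ η : ℝ, 0 < η ∧ η ≤ η0 ∧ η ≤ 1 / 100 :=
    ⟨min η0 (1 / 100), by positivity, min_le_left _ _, min_le_right _ _⟩
  obtain ⟨c0, hc0, hA⟩ := hA η hη hη1
  obtain ⟨c1, hc1, hc11, hc12⟩ : ∃ c : ℝ, 0 < c ∧ c ≤ c0 / 2 ∧ c ≤ 1 :=
    ⟨min (c0 / 2) 1, by positivity, min_le_left _ _, min_le_right _ _⟩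
  obtain ⟨Kt, hKt, ht⟩ := tailB hM
  obtain ⟨Kl, hKl, hl⟩ := loss hM
  obtain ⟨K2, hK2, h2⟩ := asm2 hM
  obtain ⟨c4, w4, hc4, h4⟩ := asm4a hM ⌈2 / η⌉₊
  obtain ⟨K5, w5, hK5, h5⟩ := asm4b hM
  obtain ⟨κ, hκ, hκe⟩ : ∃ κ : ℝ, 0 < κ ∧ c4 * (c1 / 4) = 2 * κ := ⟨c4 * c1 / 8, by positivity, by ring⟩
  obtain ⟨σ, hσ⟩ := ex_sigma K5 (ε := κ / 4) (by positivity)
  obtain ⟨c2, w2, hc2, h2⟩ := h2 σ
  obtain ⟨A, hA1, hA2⟩ : ∃ A : ℕ, 1 ≤ A ∧ Kl + 1 ≤ c2 * κ * A := by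
    refine ⟨⌈(Kl + 1) / (c2 * κ)⌉₊ + 1, by omega, ?_⟩
    have := Nat.le_ceil ((Kl + 1) / (c2 * κ))
    rw [div_le_iff₀ (by positivity)] at this
    push_cast
    nlinarith [mul_pos hc2 hκ]
  obtain ⟨R, hR, hRe⟩ := num_R A (ε := κ / 4 / K5) (by positivity)
  have hlw : Tendsto (fun m : ℕ => Real.log (pw A m)) atTop atTop := tendsto_L.comp (tendsto_pw hA1)
  filter_upwards [hA, ht, hl, num_D, num_fp A R hR,
    num_w2 A R (2 * σ + 3 * ps A R + 4) (θ := η / 32) (by positivity), num_eta hη hη2, num_mer hM hη hη2,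
    ev_tail Kt (ε := c0 / 2) (by positivity), tendsto_L.eventually_ge_atTop 1,
    tendsto_ll.eventually_gt_atTop (4 * K2 + 36), (tendsto_pw hA1).eventually_ge_atTop (w2 + w4 + w5 + 2),
    hlw.eventually_ge_atTop (K5 * (ps A R + 3) / (κ / 4)), eventually_ge_atTop 1]
    with m hA ht hl hD hfp hw2 he hm htail hL hll hwl hlw hm1 N B hB hcard
  obtain ⟨d1, d2, d3, d4, d5⟩ := hD
  obtain ⟨f1, f2, f3⟩ := hfp
  obtain ⟨e1, e2, e3, e4, e5, e6, e7, e8⟩ := he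
  by_contra hno
  set H := pc (η / 16) m with hH
  set y0 := Nat.sqrt (pD m) with hy0
  have hm0 : (0 : ℝ) < m := by exact_mod_cast hm1
  have hm1' : (1 : ℝ) ≤ m := by exact_mod_cast hm1
  have hMs : m ≤ H * (m / H + 1) := (Nat.lt_mul_div_succ m e1).le
  have hBf : ∀ p ∈ B.filter (y0 ≤ ·), p.Prime ∧ y0 ≤ p := fun p hp =>
    ⟨hB p (mem_filter.1 hp).1, (mem_filter.1 hp).2⟩
  have hBc : ((B.filter (y0 ≤ ·)).card : ℝ) ≤ √m * Real.log m :=
    le_trans (by exact_mod_cast card_filter_le _ _) hcard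
  -- no rich line carries almost all primes
  have hf : ∀ r ∈ Rich N m H (m / H + 1), c1 ≤ fm N r (pc η m) y0 := by
    intro r hr
    by_contra hc
    obtain ⟨r1, r2, r3⟩ := mem_Rich hr
    refine hno (hA N r.2.2 r.1 B hB hcard r1 (le_trans (by exact_mod_cast r2) e5)
      (le_trans (by exact_mod_cast r3) e6) ((foreign N r _ y0 B hB).trans ?_))
    have := (ht _ y0 d1 hBf hBc).trans htail
    have e : fm N r ⌈(m : ℝ) ^ η⌉₊ y0 = fm N r (pc η m) y0 := rfl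
    linarith [not_le.1 hc]
  have hP := pairs N (Nat.le_add_left 1 _) hMs e2 e3 hc1.le (hc12.trans hm.2) hf
  let Q : Par := ⟨N, m, pD m, y0, pw A m, ps A R, σ, σ, H, m / H + 1, pc (η / 2) m, pW A R m⟩
  have hΛ3 : Real.log m ^ 3 ≤ pL A m := pow_le_pow_right₀ hL (by omega)
  have hΛ1 : 1 ≤ pL A m := (one_le_pow₀ hL).trans hΛ3
  have hW0 : 1 ≤ pW A R m 0 := by omega
  have hW2 : (1 : ℝ) ≤ pW A R m (ps A R + 1) := by exact_mod_cast hW0.trans (f1.mono (Nat.zero_le _))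
  have hxx : (m : ℝ) ^ (η / 32) * (m : ℝ) ^ (η / 32) ≤ H := by
    rw [← Real.rpow_add hm0, show η / 32 + η / 32 = η / 16 by ring]
    exact Nat.le_ceil _
  have hx1 : 1 ≤ (m : ℝ) ^ (η / 32) := Real.one_le_rpow hm1' (by positivity)
  have hwH : pW A R m (ps A R + 1) ≤ H := by
    have b1 := le_self_pow₀ hW2 (n := 2 * σ + 3 * ps A R + 4 + ps A R * pt m) (by omega)
    have b2 := le_mul_of_one_le_left (hW2.trans' zero_le_one |>.trans b1) hΛ1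
    have b3 := le_mul_of_one_le_left (zero_le_one.trans hx1) hx1
    exact_mod_cast (b1.trans (b2.trans hw2)).trans (b3.trans hxx)
  have h60 : pc η m ≤ y0 := (Nat.le_self_pow (by norm_num) _).trans e4
  have ho : Q.Ord := ⟨f1.mono, by change 2 ≤ pw A m; omega, f3, hwH.trans e2.le, e3.trans h60,
    Nat.sqrt_le' _, d2, d3⟩
  have hlD : Real.log (pD m) ≤ Real.log m := by
    refine Real.log_le_log ?_ (by exact_mod_cast d3)
    by_contra h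
    have : (pD m : ℝ) = 0 := le_antisymm (not_lt.1 h) (Nat.cast_nonneg _)
    rw [this, Real.log_zero] at d5
    linarith
  have k4 := h4 Q (pc η m) _ ho (by change w4 ≤ pw A m; omega) (d3.trans e7) e3 e4 (filter_subset _ _)
    fun a ha => (mem_filter.1 ha).2
  have k5 := h5 Q R ho (by change w5 ≤ pw A m; omega) fun i _ => by
    change (_ ^ R ^ i) ^ R ≤ _ ^ R ^ (i + 1)
    rw [← pow_mul, pow_succ R i]
  have k2 := h2 Q ho rfl (by change w2 ≤ pw A m; omega)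
  have k3 := asm3 Q ho (pt m) (pL A m) f1 f2 e1 hMs
  have k1 := asm1 Q ho
  rw [split] at k1
  have hHm : (H : ℝ) ≤ m := e5.trans (Real.rpow_le_self_of_one_le hm1' (by linarith))
  have k3' := k3.trans (rem_le (x := (m : ℝ) ^ (η / 32)) hL hm0 (Nat.cast_nonneg _) d4
    (by exact_mod_cast f3) (by exact_mod_cast hW0) hΛ3 hw2 hxx (one_le_pow₀ hW2)
    (by change ((m / H + 1 : ℕ) : ℝ) ≤ _; push_cast; linarith [Nat.cast_div_le (α := ℝ) (m := m) (n := H)])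
    hHm (Nat.cast_nonneg _))
  have hS := elig_ge hκ hκe hc1 hc4 hK5 (Nat.cast_nonneg _) hσ hRe hlw hm.1 e8 hP (k4.trans k5)
  exact absurd ((cover N m y0 B hB hno).trans (hl N _ y0 d1 hBf hBc)) (not_le.2
    (final hm0 hL d5 hlD hll hK2 hc2 hκ (Nat.cast_nonneg A) hA2 (log_pw hL) hS k2 k3' k1))

end Crest.Agent.R1
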