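import Crest.Agent.R1.ChainB

/-! Row 1: Mertens estimates. -/

set_option autoImplicit false

namespace Crest.Agent.R1
open Finset MeasureTheory Filter

namespace Mer

/-- the weight `1/(n log n)` -/
noncomputable def f (n : ℕ) : ℝ := 1 / ((n : ℝ) * Real.log n)

theorem log_two_pos : 0 < Real.log 2 := Real.log_pos one_lt_two

theorem log_ge {n : ℕ} (hn : 2 ≤ n) : Real.log 2 ≤ Real.log n :=
  Real.log_le_log two_pos (by exact_mod_cast hn)

theorem half_le_log {n : ℕ} (hn : 2 ≤ n) : 1 / 2 ≤ Real.log n := by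
  have := log_ge hn
  have := Real.log_two_gt_d9
  linarith

theorem log_pos' {n : ℕ} (hn : 2 ≤ n) : 0 < Real.log n := lt_of_lt_of_le log_two_pos (log_ge hn)

theorem f_pos {n : ℕ} (hn : 2 ≤ n) : 0 < f n := by
  have h1 : (0 : ℝ) < n := by exact_mod_cast (by omega : 0 < n)
  have := log_pos' hn
  unfold f; positivity

theorem f_le {n : ℕ} (hn : 2 ≤ n) : f n ≤ 2 / n := by
  have h1 : (0 : ℝ) < n := by exact_mod_cast (by omega : 0 < n)
  have h2 := half_le_log hn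
  have h3 := log_pos' hn
  unfold f
  rw [div_le_div_iff₀ (by positivity) h1]
  nlinarith

theorem log_succ_le {n : ℕ} (hn : 1 ≤ n) :
    Real.log ((n + 1 : ℕ) : ℝ) - Real.log n ≤ 1 / n := by
  have h1 : (0 : ℝ) < n := by exact_mod_cast hn
  push_cast
  rw [← Real.log_div (by positivity) h1.ne']
  have := Real.log_le_sub_one_of_pos (x := ((n : ℝ) + 1) / n) (by positivity)
  have e : ((n : ℝ) + 1) / n - 1 = 1 / n := by field_simp; ring
  linarith

theorem le_log_succ {n : ℕ} (hn : 1 ≤ n) :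
    1 / ((n + 1 : ℕ) : ℝ) ≤ Real.log ((n + 1 : ℕ) : ℝ) - Real.log n := by
  have h1 : (0 : ℝ) < n := by exact_mod_cast hn
  push_cast
  have := Real.log_le_sub_one_of_pos (x := (n : ℝ) / (n + 1)) (by positivity)
  rw [Real.log_div h1.ne' (by positivity)] at this
  have e : (n : ℝ) / (n + 1) - 1 = -(1 / (n + 1)) := by field_simp; ring
  linarith

theorem loglog_le {n : ℕ} (hn : 2 ≤ n) :
    Real.log (Real.log ((n + 1 : ℕ) : ℝ)) - Real.log (Real.log n) ≤ f n := by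
  have h1 : (0 : ℝ) < n := by exact_mod_cast (by omega : 0 < n)
  have h2 := log_pos' hn
  have h3 := log_pos' (n := n + 1) (by omega)
  rw [← Real.log_div h3.ne' h2.ne']
  have h4 := Real.log_le_sub_one_of_pos (div_pos h3 h2)
  have h5 := log_succ_le (n := n) (by omega)
  have e : Real.log ((n + 1 : ℕ) : ℝ) / Real.log n - 1 =
      (Real.log ((n + 1 : ℕ) : ℝ) - Real.log n) / Real.log n := by field_simp
  have h6 : (Real.log ((n + 1 : ℕ) : ℝ) - Real.log n) / Real.log n ≤ (1 / n) / Real.log n :=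
    div_le_div_of_nonneg_right h5 h2.le
  have e2 : (1 / (n : ℝ)) / Real.log n = f n := by unfold f; rw [div_div]
  linarith

theorem le_loglog {n : ℕ} (hn : 2 ≤ n) :
    f (n + 1) ≤ Real.log (Real.log ((n + 1 : ℕ) : ℝ)) - Real.log (Real.log n) := by
  have h2 := log_pos' hn
  have h3 := log_pos' (n := n + 1) (by omega)
  have h4 := Real.log_le_sub_one_of_pos (div_pos h2 h3)
  rw [Real.log_div h2.ne' h3.ne'] at h4
  have h5 := le_log_succ (n := n) (by omega)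
  have e : Real.log n / Real.log ((n + 1 : ℕ) : ℝ) - 1 =
      -((Real.log ((n + 1 : ℕ) : ℝ) - Real.log n) / Real.log ((n + 1 : ℕ) : ℝ)) := by
    field_simp; ring
  have h6 : (1 / ((n + 1 : ℕ) : ℝ)) / Real.log ((n + 1 : ℕ) : ℝ) ≤
      (Real.log ((n + 1 : ℕ) : ℝ) - Real.log n) / Real.log ((n + 1 : ℕ) : ℝ) :=
    div_le_div_of_nonneg_right h5 h3.le
  have e2 : (1 / ((n + 1 : ℕ) : ℝ)) / Real.log ((n + 1 : ℕ) : ℝ) = f (n + 1) := by
    unfold f; rw [div_div]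
  linarith

theorem f_sub_bounds {n : ℕ} (hn : 2 ≤ n) : 0 ≤ f n - f (n + 1) ∧ f n - f (n + 1) ≤ 6 / (n : ℝ) ^ 2 := by
  refine ⟨by linarith [loglog_le hn, le_loglog hn], ?_⟩
  have h1 : (0 : ℝ) < n := by exact_mod_cast (by omega : 0 < n)
  have h2 := half_le_log hn
  have h3 := half_le_log (n := n + 1) (by omega)
  have h5 := log_succ_le (n := n) (by omega)
  unfold f
  set a := Real.log n
  set b := Real.log ((n + 1 : ℕ) : ℝ)
  push_cast
  have ha : 0 < a := by linarith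
  have hb : 0 < b := by linarith
  have h6 : (n : ℝ) * (b - a) ≤ 1 := by
    have := mul_le_mul_of_nonneg_left h5 h1.le
    rwa [mul_one_div_cancel h1.ne'] at this
  rw [div_sub_div _ _ (by positivity) (by positivity), div_le_div_iff₀ (by positivity) (by positivity)]
  have h7 : 1 * (((n : ℝ) + 1) * b) - n * a * 1 ≤ 3 * b := by nlinarith
  have h8 : b * (n : ℝ) ^ 2 ≤ 2 * (n * a * ((n + 1) * b)) := by
    have : (n : ℝ) ^ 2 ≤ 2 * (n * a * (n + 1)) := by nlinarith [mul_pos h1 h1]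
    nlinarith
  have h9 : (0 : ℝ) ≤ (n : ℝ) ^ 2 := by positivity
  nlinarith [mul_le_mul_of_nonneg_right h7 h9]

/-- sum of `f` against `log log` -/
theorem sum_f {w : ℕ} (hw : 2 ≤ w) : ∀ y : ℕ, w ≤ y →
    0 ≤ ∑ n ∈ Ico w y, f n - (Real.log (Real.log y) - Real.log (Real.log w)) ∧
    ∑ n ∈ Ico w y, f n - (Real.log (Real.log y) - Real.log (Real.log w)) ≤ f w - f y := by
  intro y hy
  induction y, hy using Nat.le_induction with
  | base => simp
  | succ y hy ih =>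
    rw [sum_Ico_succ_top hy]
    have h1 := loglog_le (n := y) (by omega)
    have h2 := le_loglog (n := y) (by omega)
    constructor <;> linarith [ih.1, ih.2]

/-- Abel summation -/
theorem abel (a E : ℕ → ℝ) (hE : ∀ n, E (n + 1) = E n + a n) {w : ℕ} (hw : 2 ≤ w) :
    ∀ y : ℕ, w ≤ y → |∑ n ∈ Ico w y, a n * f n - E y * f y + E w * f w| ≤
      ∑ n ∈ Ico w y, |E (n + 1)| * (f n - f (n + 1)) := by
  intro y hy
  induction y, hy using Nat.le_induction with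
  | base => simp
  | succ y hy ih =>
    rw [sum_Ico_succ_top hy, sum_Ico_succ_top hy]
    have h1 := (f_sub_bounds (n := y) (by omega)).1
    have e : ∑ n ∈ Ico w y, a n * f n + a y * f y - E (y + 1) * f (y + 1) + E w * f w =
        (∑ n ∈ Ico w y, a n * f n - E y * f y + E w * f w) + E (y + 1) * (f y - f (y + 1)) := by
      rw [hE y]; ring
    rw [e]
    refine (abs_add_le _ _).trans (add_le_add ih ?_)
    rw [abs_mul, abs_of_nonneg h1]

/-- tail sums -/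
theorem tail {δ : ℝ} (hδ : 0 < δ) : ∃ Z : ℝ, 0 < Z ∧ ∀ w y : ℕ, 1 ≤ w →
    ∑ n ∈ Ico w y, (n : ℝ) ^ (-1 - δ) ≤ Z * (w : ℝ) ^ (-(δ / 2)) := by
  have hs : Summable fun n : ℕ => (n : ℝ) ^ (-1 - δ / 2) :=
    Real.summable_nat_rpow.2 (by linarith)
  refine ⟨∑' n : ℕ, (n : ℝ) ^ (-1 - δ / 2) + 1, ?_, fun w y hw => ?_⟩
  · have : 0 ≤ ∑' n : ℕ, (n : ℝ) ^ (-1 - δ / 2) := tsum_nonneg fun n => by positivity
    linarith
  have hw0 : (0 : ℝ) < w := by exact_mod_cast hw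
  have h1 : ∑ n ∈ Ico w y, (n : ℝ) ^ (-1 - δ) ≤
      ∑ n ∈ Ico w y, (n : ℝ) ^ (-1 - δ / 2) * (w : ℝ) ^ (-(δ / 2)) := by
    refine sum_le_sum fun n hn => ?_
    have hn' : (w : ℝ) ≤ n := by exact_mod_cast (mem_Ico.1 hn).1
    have hn0 : (0 : ℝ) < n := hw0.trans_le hn'
    have e : (n : ℝ) ^ (-1 - δ) = (n : ℝ) ^ (-1 - δ / 2) * (n : ℝ) ^ (-(δ / 2)) := by
      rw [← Real.rpow_add hn0]; congr 1; ring
    rw [e]
    exact mul_le_mul_of_nonneg_left
      (Real.rpow_le_rpow_of_nonpos hw0 hn' (by linarith)) (by positivity)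
  rw [← sum_mul] at h1
  refine h1.trans (mul_le_mul_of_nonneg_right ?_ (by positivity))
  have := hs.sum_le_tsum (Ico w y) fun n _ => by positivity
  linarith

theorem rpow_le_log {δ : ℝ} (hδ : 0 < δ) {w : ℕ} (hw : 2 ≤ w) :
    (w : ℝ) ^ (-(δ / 2)) ≤ (6 / δ) ^ 3 / Real.log w ^ 3 := by
  have hw0 : (0 : ℝ) < w := by exact_mod_cast (by omega : 0 < w)
  have hl := log_pos' hw
  have h1 := Real.log_le_rpow_div hw0.le (ε := δ / 6) (by positivity)
  have h2 : Real.log w ^ 3 ≤ ((w : ℝ) ^ (δ / 6) / (δ / 6)) ^ 3 := pow_le_pow_left₀ hl.le h1 3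
  have e : ((w : ℝ) ^ (δ / 6) / (δ / 6)) ^ 3 = (6 / δ) ^ 3 * (w : ℝ) ^ (δ / 2) := by
    rw [div_pow, ← Real.rpow_natCast ((w : ℝ) ^ (δ / 6)), ← Real.rpow_mul hw0.le]
    have : δ / 6 * ((3 : ℕ) : ℝ) = δ / 2 := by push_cast; ring
    rw [this]; field_simp
  rw [e] at h2
  rw [Real.rpow_neg hw0.le, le_div_iff₀ (by positivity), inv_mul_le_iff₀ (by positivity)]
  linarith

theorem sum_prime_eq (w y : ℕ) (hw : 2 ≤ w) :
    ∑ p ∈ Pr w y, 1 / (p : ℝ) = ∑ n ∈ Ico w y, (if n.Prime then Real.log n else 0) * f n := by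
  unfold Pr
  rw [sum_filter]
  refine sum_congr rfl fun n hn => ?_
  have h2 : 2 ≤ n := hw.trans (mem_Ico.1 hn).1
  have h1 : (0 : ℝ) < n := by exact_mod_cast (by omega : 0 < n)
  have h3 := log_pos' h2
  split_ifs
  · unfold f; field_simp
  · simp

/-- Mertens' second theorem with a power saving -/
theorem second (hθ : ThetaStmt) : ∃ δ K : ℝ, 0 < δ ∧ δ ≤ 1 ∧ 0 < K ∧ ∀ w y : ℕ, 2 ≤ w → w ≤ y →
    |∑ p ∈ Pr w y, 1 / (p : ℝ) - (Real.log (Real.log y) - Real.log (Real.log w))| ≤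
      K * (w : ℝ) ^ (-(δ / 2)) := by
  obtain ⟨δ, K, hδ, hδ1, hK, h⟩ := hθ
  obtain ⟨Z, hZ, hT⟩ := tail hδ
  set a : ℕ → ℝ := fun n => (if n.Prime then Real.log n else 0) - 1 with ha
  set E : ℕ → ℝ := fun N => ∑ n ∈ range N, a n + 1 with hEdef
  have hE : ∀ n, E (n + 1) = E n + a n := fun n => by
    simp only [hEdef, sum_range_succ]; ring
  have hb : ∀ N : ℕ, |E (N + 1)| ≤ K * (N : ℝ) ^ (1 - δ) := by
    intro N
    have h1 := h 1 0 N le_rfl (by simp)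
    have e : E (N + 1) = ∑ n ∈ Ioc 0 N, (if n.Prime ∧ n ≡ 0 [MOD 1] then Real.log n else 0) -
        N / ((Nat.totient 1 : ℕ) : ℝ) := by
      simp only [hEdef, ha, Nat.modEq_one, and_true, Nat.totient_one, Nat.cast_one, div_one]
      rw [sum_sub_distrib, sum_range_succ', range_eq_Ico, sum_Ico_add' (fun n : ℕ =>
        if n.Prime then Real.log n else 0) 0 N 1]
      have : Ico (0 + 1) (N + 1) = Ioc 0 N := by ext; simp; omega
      rw [this]
      simp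
      ring
    rw [e]
    refine h1.trans ?_
    have h2 : Real.log (2 * ((1 : ℕ) : ℝ)) ≤ 1 := by
      have := Real.log_two_lt_d9
      simp only [Nat.cast_one, mul_one]; linarith
    have h3 : 0 ≤ K * (N : ℝ) ^ (1 - δ) := by positivity
    nlinarith
  have hb' : ∀ w N : ℕ, 2 ≤ w → w ≤ N → |E N * f N| ≤ 2 * K * (w : ℝ) ^ (-(δ / 2)) := by
    intro w N hw hN
    obtain ⟨M, rfl⟩ : ∃ M, N = M + 1 := ⟨N - 1, by omega⟩
    have hw0 : (1 : ℝ) ≤ w := by exact_mod_cast (by omega : 1 ≤ w)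
    have hN' : (w : ℝ) ≤ ((M + 1 : ℕ) : ℝ) := by exact_mod_cast hN
    have hN0 : (0 : ℝ) < ((M + 1 : ℕ) : ℝ) := by linarith
    rw [abs_mul, abs_of_pos (f_pos (by omega))]
    have h1 : (M : ℝ) ^ (1 - δ) ≤ ((M + 1 : ℕ) : ℝ) ^ (1 - δ) :=
      Real.rpow_le_rpow (by positivity) (by push_cast; linarith) (by linarith)
    have h2 : ((M + 1 : ℕ) : ℝ) ^ (1 - δ) * (2 / ((M + 1 : ℕ) : ℝ)) =
        2 * ((M + 1 : ℕ) : ℝ) ^ (-δ) := by
      rw [sub_eq_add_neg, Real.rpow_add hN0, Real.rpow_one]; field_simp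
    have h3 : ((M + 1 : ℕ) : ℝ) ^ (-δ) ≤ (w : ℝ) ^ (-(δ / 2)) :=
      (Real.rpow_le_rpow_of_nonpos (by linarith) hN' (by linarith)).trans
        (Real.rpow_le_rpow_of_exponent_le hw0 (by linarith))
    calc |E (M + 1)| * f (M + 1) ≤ (K * ((M + 1 : ℕ) : ℝ) ^ (1 - δ)) * (2 / ((M + 1 : ℕ) : ℝ)) :=
          mul_le_mul ((hb M).trans (mul_le_mul_of_nonneg_left h1 hK.le)) (f_le (by omega))
            (f_pos (by omega)).le (by positivity)
      _ = 2 * K * ((M + 1 : ℕ) : ℝ) ^ (-δ) := by rw [mul_assoc, h2]; ring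
      _ ≤ _ := mul_le_mul_of_nonneg_left h3 (by positivity)
  refine ⟨δ, 6 * K * Z + 4 * K + 2, hδ, by linarith, by positivity, fun w y hw hy => ?_⟩
  have hw0 : (1 : ℝ) ≤ w := by exact_mod_cast (by omega : 1 ≤ w)
  have h1 := abel a E hE hw y hy
  have h2 : ∑ n ∈ Ico w y, |E (n + 1)| * (f n - f (n + 1)) ≤
      ∑ n ∈ Ico w y, 6 * K * (n : ℝ) ^ (-1 - δ) := by
    refine sum_le_sum fun n hn => ?_
    have hn2 : 2 ≤ n := hw.trans (mem_Ico.1 hn).1
    have hn0 : (0 : ℝ) < n := by exact_mod_cast (by omega : 0 < n)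
    obtain ⟨b1, b2⟩ := f_sub_bounds hn2
    have e : (n : ℝ) ^ (1 - δ) = (n : ℝ) ^ (-1 - δ) * (n : ℝ) ^ 2 := by
      rw [← Real.rpow_natCast, ← Real.rpow_add hn0]; congr 1; push_cast; ring
    calc |E (n + 1)| * (f n - f (n + 1)) ≤ (K * (n : ℝ) ^ (1 - δ)) * (6 / (n : ℝ) ^ 2) :=
          mul_le_mul (hb n) b2 b1 (by positivity)
      _ = _ := by rw [e]; field_simp
  rw [← mul_sum] at h2
  have h3 := mul_le_mul_of_nonneg_left (hT w y (by omega)) (by positivity : 0 ≤ 6 * K)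
  have h4 := hb' w y hw hy
  have h5 := hb' w w hw le_rfl
  obtain ⟨h6, h7⟩ := sum_f hw y hy
  have h8 := f_pos (n := y) (by omega)
  have h9 : f w ≤ 2 * (w : ℝ) ^ (-(δ / 2)) := by
    refine (f_le hw).trans ?_
    rw [div_eq_mul_inv, ← Real.rpow_neg_one]
    exact mul_le_mul_of_nonneg_left (Real.rpow_le_rpow_of_exponent_le hw0 (by linarith))
      (by norm_num)
  have e : ∑ p ∈ Pr w y, 1 / (p : ℝ) = ∑ n ∈ Ico w y, a n * f n + ∑ n ∈ Ico w y, f n := by
    rw [sum_prime_eq w y hw, ← sum_add_distrib]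
    exact sum_congr rfl fun n _ => by simp only [ha]; ring
  rw [e]
  rw [abs_le] at h1 h4 h5 ⊢
  constructor <;> linarith [h1.1, h1.2, h4.1, h4.2, h5.1, h5.2]

theorem memPr {w y p : ℕ} (h : p ∈ Pr w y) : w ≤ p ∧ p < y ∧ 2 ≤ p := by
  unfold Pr at h
  rw [mem_filter, mem_Ico] at h
  exact ⟨h.1.1, h.1.2, h.2.two_le⟩

theorem one_sub_pos {p : ℕ} (hp : 2 ≤ p) : 0 < 1 - 1 / (p : ℝ) := by
  have h : (2 : ℝ) ≤ p := by exact_mod_cast hp
  have : 1 / (p : ℝ) ≤ 1 / 2 := one_div_le_one_div_of_le two_pos h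
  linarith

theorem Vp_pos (y : ℕ) : 0 < Vp y :=
  prod_pos fun _ hp => one_sub_pos (memPr hp).2.2

theorem log_Vp {w y : ℕ} (hw : 2 ≤ w) (hy : w ≤ y) :
    Real.log (Vp y) = Real.log (Vp w) + ∑ p ∈ Pr w y, Real.log (1 - 1 / (p : ℝ)) := by
  unfold Vp
  rw [Real.log_prod fun p hp => (one_sub_pos (memPr hp).2.2).ne',
    Real.log_prod fun p hp => (one_sub_pos (memPr hp).2.2).ne']
  unfold Pr
  rw [sum_filter, sum_filter, sum_filter, sum_Ico_consecutive _ hw hy]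

theorem log_one_sub {p : ℕ} (hp : 2 ≤ p) :
    |Real.log (1 - 1 / (p : ℝ)) + 1 / (p : ℝ)| ≤ 2 / (p : ℝ) ^ 2 := by
  have h : (2 : ℝ) ≤ p := by exact_mod_cast hp
  have h0 := one_sub_pos hp
  have h1 := Real.log_le_sub_one_of_pos h0
  have h2 := Real.log_le_sub_one_of_pos (inv_pos.2 h0)
  rw [Real.log_inv] at h2
  have h3 : (1 - 1 / (p : ℝ))⁻¹ - 1 ≤ 1 / (p : ℝ) + 2 / (p : ℝ) ^ 2 := by
    have e : (1 - 1 / (p : ℝ))⁻¹ - 1 = 1 / ((p : ℝ) - 1) := by
      have : (p : ℝ) - 1 ≠ 0 := by linarith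
      field_simp; ring
    have e2 : 1 / (p : ℝ) + 2 / (p : ℝ) ^ 2 = (p + 2) / (p : ℝ) ^ 2 := by field_simp
    rw [e, e2, div_le_div_iff₀ (by linarith) (by positivity)]
    nlinarith
  have h4 : 0 ≤ 2 / (p : ℝ) ^ 2 := by positivity
  rw [abs_le]; constructor <;> linarith

theorem exp_sub_le {a b M : ℝ} (ha : Real.exp a ≤ M) (hb : Real.exp b ≤ M) :
    |Real.exp a - Real.exp b| ≤ M * |a - b| := by
  have key : ∀ a b : ℝ, Real.exp a ≤ M → Real.exp a - Real.exp b ≤ M * |a - b| := by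
    intro a b ha
    have h1 := Real.add_one_le_exp (b - a)
    have h2 : Real.exp b = Real.exp a * Real.exp (b - a) := by rw [← Real.exp_add]; congr 1; ring
    have h3 := Real.exp_pos a
    have h4 : Real.exp a - Real.exp b ≤ Real.exp a * (a - b) := by rw [h2]; nlinarith
    calc _ ≤ Real.exp a * (a - b) := h4
      _ ≤ Real.exp a * |a - b| := mul_le_mul_of_nonneg_left (le_abs_self _) h3.le
      _ ≤ _ := mul_le_mul_of_nonneg_right ha (abs_nonneg _)
  rw [abs_le]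
  constructor
  · have := key b a hb
    rw [abs_sub_comm] at this; linarith
  · exact key a b ha

end Mer

open Mer in
/-- From `θ(N) = N + O(N^{1-δ})` (take `r = 1`) and Abel summation with the antitone weight `1/(n log n)`:
`∑_{w ≤ p < y} 1/p = ∑_{w ≤ n < y} 1/(n log n) + O(w^{-δ})`, and
`∑_{w ≤ n < y} 1/(n log n) = log (log y / log w) + O(1/w)`; `w^{-δ} ≤ K / log³ w`.
For `Vp`: `log (Vp y / Vp w) = -∑ 1/p + O(∑_{n ≥ w} 1/n²)`, so
`Vp y log y = Vp w log w · exp(O(1/log³ w))`; taking `w = 2` gives the two-sided bound, and then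
`|exp x - 1| ≤ K' |x|` for bounded `x`. (`Crest.Agent.R26.PrimeAP.abel'` is an Abel lemma you may copy.) -/
theorem mer (hθ : ThetaStmt) : MerStmt := by
  obtain ⟨δ, K, hδ, hδ1, hK, h⟩ := second hθ
  obtain ⟨Z, hZ, hT⟩ := tail hδ
  set L : ℕ → ℝ := fun y => Real.log (Vp y) + Real.log (Real.log y) with hL
  have hexp : ∀ y : ℕ, 2 ≤ y → Vp y * Real.log y = Real.exp (L y) := by
    intro y hy
    simp only [hL]
    rw [Real.exp_add, Real.exp_log (Vp_pos y), Real.exp_log (log_pos' hy)]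
  have hLd : ∀ w y : ℕ, 2 ≤ w → w ≤ y → |L y - L w| ≤ (K + 2 * Z) * (w : ℝ) ^ (-(δ / 2)) := by
    intro w y hw hy
    have h1 := h w y hw hy
    have h2 : |∑ p ∈ Pr w y, (Real.log (1 - 1 / (p : ℝ)) + 1 / (p : ℝ))| ≤
        2 * ∑ n ∈ Ico w y, (n : ℝ) ^ (-1 - δ) := by
      refine (abs_sum_le_sum_abs _ _).trans ?_
      rw [mul_sum]
      refine (sum_le_sum (g := fun n : ℕ => 2 * (n : ℝ) ^ (-1 - δ)) fun p hp => ?_).trans
        (sum_le_sum_of_subset_of_nonneg (filter_subset _ _) fun n _ _ => by positivity)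
      have hp2 := (memPr hp).2.2
      have hp1 : (1 : ℝ) ≤ p := by exact_mod_cast (by omega : 1 ≤ p)
      refine (log_one_sub hp2).trans ?_
      rw [div_eq_mul_inv, ← Real.rpow_natCast, ← Real.rpow_neg (by linarith)]
      exact mul_le_mul_of_nonneg_left
        (Real.rpow_le_rpow_of_exponent_le hp1 (by push_cast; linarith)) (by norm_num)
    have h3 := hT w y (by omega)
    rw [sum_add_distrib] at h2
    simp only [hL]
    rw [log_Vp hw hy]
    rw [abs_le] at h1 h2 ⊢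
    constructor <;> linarith [h1.1, h1.2, h2.1, h2.2]
  have hLb : ∀ y : ℕ, 2 ≤ y → |L y - L 2| ≤ K + 2 * Z := by
    intro y hy
    refine (hLd 2 y le_rfl hy).trans ?_
    have : ((2 : ℕ) : ℝ) ^ (-(δ / 2)) ≤ 1 :=
      Real.rpow_le_one_of_one_le_of_nonpos (by norm_num) (by linarith)
    have h0 : 0 ≤ K + 2 * Z := by positivity
    nlinarith
  set M := Real.exp (L 2 + (K + 2 * Z)) with hM
  have hM0 : 0 < M := Real.exp_pos _
  have hup : ∀ y : ℕ, 2 ≤ y → Real.exp (L y) ≤ M := fun y hy =>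
    Real.exp_le_exp.2 (by linarith [(abs_le.1 (hLb y hy)).2])
  have hC : 0 < (6 / δ) ^ 3 := by positivity
  refine ⟨K * (6 / δ) ^ 3 + M * ((K + 2 * Z) * (6 / δ) ^ 3) + M, Real.exp (L 2 - (K + 2 * Z)),
    Real.exp_pos _, by positivity, fun w y hw hy => ?_⟩
  have hy2 : 2 ≤ y := hw.trans hy
  have hl := log_pos' hw
  have hr := rpow_le_log hδ hw
  have hA : 0 ≤ K * (6 / δ) ^ 3 := by positivity
  have hB : 0 ≤ M * ((K + 2 * Z) * (6 / δ) ^ 3) := by positivity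
  refine ⟨?_, ?_, ?_, ?_⟩
  · rw [Real.log_div (log_pos' hy2).ne' hl.ne']
    refine (h w y hw hy).trans ((mul_le_mul_of_nonneg_left hr hK.le).trans ?_)
    rw [← mul_div_assoc]
    exact div_le_div_of_nonneg_right (by linarith) (by positivity)
  · rw [hexp y hy2, hexp w hw]
    refine (exp_sub_le (hup y hy2) (hup w hw)).trans ?_
    refine (mul_le_mul_of_nonneg_left ((hLd w y hw hy).trans
      (mul_le_mul_of_nonneg_left hr (by positivity))) hM0.le).trans ?_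
    rw [← mul_div_assoc, ← mul_div_assoc]
    exact div_le_div_of_nonneg_right (by linarith) (by positivity)
  · rw [hexp y hy2]
    exact Real.exp_le_exp.2 (by linarith [(abs_le.1 (hLb y hy2)).1])
  · rw [hexp y hy2]
    linarith [hup y hy2]

open Mer in
theorem prod_one_add_le (hM : MerStmt) : ∃ K : ℝ, 0 < K ∧ ∀ w y : ℕ, 2 ≤ w → w ≤ y →
    ∏ p ∈ Pr w y, (1 + 1 / (p : ℝ)) ≤ K * (Real.log y / Real.log w) := by
  obtain ⟨K, c, hc, hK, h⟩ := hM
  refine ⟨Real.exp (8 * K), Real.exp_pos _, fun w y hw hy => ?_⟩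
  have h1 := (abs_le.1 (h w y hw hy).1).2
  have hl := half_le_log hw
  have hl0 := log_pos' hw
  have hly := log_pos' (hw.trans hy)
  have h2 : K / Real.log w ^ 3 ≤ 8 * K := by
    rw [div_le_iff₀ (by positivity)]
    have : (1 / 2 : ℝ) ^ 3 ≤ Real.log w ^ 3 := pow_le_pow_left₀ (by norm_num) hl 3
    nlinarith
  calc ∏ p ∈ Pr w y, (1 + 1 / (p : ℝ)) ≤ ∏ p ∈ Pr w y, Real.exp (1 / (p : ℝ)) :=
        prod_le_prod (fun p _ => by positivity) fun p _ => by
          linarith [Real.add_one_le_exp (1 / (p : ℝ))]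
    _ = Real.exp (∑ p ∈ Pr w y, 1 / (p : ℝ)) := (Real.exp_sum _ _).symm
    _ ≤ Real.exp (8 * K + Real.log (Real.log y / Real.log w)) := Real.exp_le_exp.2 (by linarith)
    _ = _ := by rw [Real.exp_add, Real.exp_log (div_pos hly hl0)]

open Mer in
theorem Vp_bounds (hM : MerStmt) : ∃ c K : ℝ, 0 < c ∧ 0 < K ∧ ∀ y : ℕ, 2 ≤ y →
    c / Real.log y ≤ Vp y ∧ Vp y ≤ K / Real.log y := by
  obtain ⟨K, c, hc, hK, h⟩ := hM
  refine ⟨c, K, hc, hK, fun y hy => ?_⟩
  obtain ⟨-, -, h1, h2⟩ := h 2 y le_rfl hy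
  have hly := log_pos' hy
  exact ⟨(div_le_iff₀ hly).2 h1, (le_div_iff₀ hly).2 h2⟩

open Mer in
theorem sum_Pr_le (hM : MerStmt) : ∃ K : ℝ, 0 < K ∧ ∀ y : ℕ, 3 ≤ y →
    ∑ p ∈ Pr 2 y, 1 / (p : ℝ) ≤ Real.log (Real.log y) + K := by
  obtain ⟨K, c, hc, hK, h⟩ := hM
  have hl := log_pos' (n := 2) le_rfl
  refine ⟨K / Real.log ((2 : ℕ) : ℝ) ^ 3 + |Real.log (Real.log ((2 : ℕ) : ℝ))|, by positivity,
    fun y hy => ?_⟩
  have h1 := (abs_le.1 (h 2 y le_rfl (by omega)).1).2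
  rw [Real.log_div (log_pos' (by omega)).ne' hl.ne'] at h1
  have h2 := neg_le_abs (Real.log (Real.log ((2 : ℕ) : ℝ)))
  generalize |Real.log (Real.log ((2 : ℕ) : ℝ))| = A at *
  generalize K / Real.log ((2 : ℕ) : ℝ) ^ 3 = B at *
  generalize Real.log (Real.log ((2 : ℕ) : ℝ)) = C at *
  generalize ∑ p ∈ Pr 2 y, 1 / (p : ℝ) = S at *
  linarith

end Crest.Agent.R1
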