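import Mathlib

/-! Row 1: asymptotic helper lemmas for `R1/Num.lean` (part 2). -/

set_option autoImplicit false

namespace Crest.Agent.R1.NumB
open Filter

theorem tendsto_L : Tendsto (fun m : ℕ => Real.log m) atTop atTop :=
  Real.tendsto_log_atTop.comp tendsto_natCast_atTop_atTop

theorem W0_le (A : ℕ) {L : ℝ} (hL : 2 ≤ L) :
    ((⌈(L ^ (A + 5)) ^ 40⌉₊ : ℕ) : ℝ) ≤ L ^ (40 * A + 201) := by
  have h1 : (1 : ℝ) ≤ L := by linarith
  have h2 : (1 : ℝ) ≤ (L ^ (A + 5)) ^ 40 := one_le_pow₀ (one_le_pow₀ h1)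
  have h3 := (Nat.ceil_lt_add_one (le_trans zero_le_one h2)).le
  have h4 : L ^ (40 * A + 201) = (L ^ (A + 5)) ^ 40 * L := by ring
  rw [h4]
  nlinarith

theorem one_le_W0 (A : ℕ) {L : ℝ} (hL : 2 ≤ L) : 1 ≤ ⌈(L ^ (A + 5)) ^ 40⌉₊ := by
  have h0 : (0 : ℝ) < L := by linarith
  exact Nat.one_le_ceil_iff.2 (by positivity)

theorem ev_logpow (c : ℝ) (n : ℕ) : ∀ᶠ L : ℝ in atTop, 2 * (1 + c * Real.log L) ^ n ≤ L := by
  have hc : (0 : ℝ) < 1 / (2 * (1 + |c|) ^ n) := by positivity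
  have h1 := (Real.isLittleO_pow_log_id_atTop (n := n)).bound hc
  have h2 : ∀ᶠ L : ℝ in atTop, 1 ≤ Real.log L := Real.tendsto_log_atTop.eventually_ge_atTop 1
  filter_upwards [h1, h2, eventually_ge_atTop (0 : ℝ)] with L h1 h2 h0
  simp only [id, Real.norm_eq_abs] at h1
  rw [abs_of_nonneg h0, abs_of_nonneg (by positivity)] at h1
  have h3 : |1 + c * Real.log L| ≤ (1 + |c|) * Real.log L := by
    have := abs_add_le 1 (c * Real.log L)
    rw [abs_mul, abs_of_nonneg (le_trans zero_le_one h2), abs_one] at this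
    nlinarith
  have h4 : (1 + c * Real.log L) ^ n ≤ ((1 + |c|) * Real.log L) ^ n :=
    (le_abs_self _).trans (by rw [abs_pow]; exact pow_le_pow_left₀ (abs_nonneg _) h3 n)
  rw [mul_pow] at h4
  have h5 : (0 : ℝ) < 2 * (1 + |c|) ^ n := by positivity
  have h6 : 2 * (1 + |c|) ^ n * Real.log L ^ n ≤ L := by
    have := mul_le_mul_of_nonneg_left h1 h5.le
    rwa [← mul_assoc, mul_one_div_cancel h5.ne', one_mul] at this
  nlinarith

theorem ev_logsqrt (B : ℝ) {θ : ℝ} (hθ : 0 < θ) :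
    ∀ᶠ L : ℝ in atTop, B * √L * Real.log L ≤ θ * L := by
  have hc : (0 : ℝ) < θ / (|B| + 1) := by positivity
  have h1 := (isLittleO_log_rpow_atTop (r := 1 / 2) (by norm_num)).bound hc
  filter_upwards [h1, eventually_ge_atTop (1 : ℝ)] with L h1 h0
  have hL : (0 : ℝ) ≤ L := by linarith
  have hl : 0 ≤ Real.log L := Real.log_nonneg h0
  simp only [Real.norm_eq_abs] at h1
  rw [← Real.sqrt_eq_rpow, abs_of_nonneg hl, abs_of_nonneg (Real.sqrt_nonneg _)] at h1
  have hs : 0 ≤ √L := Real.sqrt_nonneg _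
  have hss : √L * √L = L := Real.mul_self_sqrt hL
  have h2 : (|B| + 1) * Real.log L ≤ θ * √L := by
    have h5 : (0 : ℝ) < |B| + 1 := by positivity
    have := mul_le_mul_of_nonneg_left h1 h5.le
    rwa [← mul_assoc, mul_div_cancel₀ _ h5.ne'] at this
  have h3 : B * Real.log L ≤ θ * √L := by
    have : B * Real.log L ≤ (|B| + 1) * Real.log L :=
      mul_le_mul_of_nonneg_right (by linarith [le_abs_self B]) hl
    linarith
  calc B * √L * Real.log L = (B * Real.log L) * √L := by ring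
    _ ≤ θ * √L * √L := mul_le_mul_of_nonneg_right h3 hs
    _ = θ * L := by rw [mul_assoc, hss]

end Crest.Agent.R1.NumB
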