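import Crest.Agent.R1.Defs2
import Crest.Agent.R1.Mer
import Crest.Agent.R1.NumAux

/-! Row 1: the parameters. -/

set_option autoImplicit false

namespace Crest.Agent.R1
open Finset MeasureTheory Filter

noncomputable def pD (m : ℕ) : ℕ := ⌊(m : ℝ) / Real.log m ^ 3⌋₊
noncomputable def pw (A m : ℕ) : ℕ := ⌈Real.log m ^ A⌉₊
noncomputable def pL (A m : ℕ) : ℝ := Real.log m ^ (A + 5)
noncomputable def pW (A R m i : ℕ) : ℕ := ⌈pL A m ^ 40⌉₊ ^ R ^ i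
noncomputable def pt (m : ℕ) : ℕ := ⌈√(Real.log m)⌉₊
def ps (A R : ℕ) : ℕ := 2 * ((40 * A + 201) * R + 1)
noncomputable def pc (θ : ℝ) (m : ℕ) : ℕ := ⌈(m : ℝ) ^ θ⌉₊

namespace NumA

theorem ev_log (C : ℝ) (k : ℕ) {δ : ℝ} (hδ : 0 < δ) :
    ∀ᶠ m : ℕ in atTop, C * Real.log m ^ k ≤ (m : ℝ) ^ δ := by
  have h := (isLittleO_log_rpow_rpow_atTop (k : ℝ) hδ).const_mul_left C
  have h2 := tendsto_natCast_atTop_atTop.eventually (h.bound one_pos)
  filter_upwards [h2] with m hm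
  rw [one_mul, Real.norm_eq_abs, Real.norm_eq_abs, Real.rpow_natCast,
    abs_of_nonneg (Real.rpow_nonneg (Nat.cast_nonneg m) δ)] at hm
  exact (le_abs_self _).trans hm

theorem ev_L (C : ℝ) : ∀ᶠ m : ℕ in atTop, C ≤ Real.log m :=
  (Real.tendsto_log_atTop.comp tendsto_natCast_atTop_atTop).eventually_ge_atTop C

theorem ev_pow (C : ℝ) {δ : ℝ} (hδ : 0 < δ) : ∀ᶠ m : ℕ in atTop, C ≤ (m : ℝ) ^ δ := by
  simpa using ev_log C 0 hδ

end NumA

theorem num_D : ∀ᶠ m : ℕ in atTop, √m / Real.log m ^ 2 ≤ Nat.sqrt (pD m) ∧ pD m ≤ Nat.sqrt (pD m) ^ 3 ∧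
    pD m ≤ m ∧ (pD m : ℝ) ≤ m / Real.log m ^ 3 ∧ Real.log m / 2 ≤ Real.log (pD m) := by
  filter_upwards [NumA.ev_L 4, NumA.ev_log 4 6 one_pos, eventually_ge_atTop 1] with m hL h6 hm1
  rw [Real.rpow_one] at h6
  set L := Real.log m with hLdef
  have hm0 : (0 : ℝ) < m := by exact_mod_cast hm1
  have hL0 : 0 < L := by linarith
  have hL1 : 1 ≤ L := by linarith
  have hy0 : 0 ≤ (m : ℝ) / L ^ 3 := by positivity
  have hD1 : (pD m : ℝ) ≤ m / L ^ 3 := Nat.floor_le hy0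
  have hD2 : (m : ℝ) / L ^ 3 < pD m + 1 := Nat.lt_floor_add_one _
  set s := Nat.sqrt (pD m) with hs
  have hs1 : pD m < (s + 1) ^ 2 := by
    have := Nat.lt_succ_sqrt' (pD m)
    simpa using this
  have hs2 : (pD m : ℝ) + 1 ≤ ((s : ℝ) + 1) ^ 2 := by exact_mod_cast hs1
  have hsq : √(m : ℝ) ^ 2 = m := Real.sq_sqrt hm0.le
  have hsq0 : 0 < √(m : ℝ) := Real.sqrt_pos.2 hm0
  have h3 : 2 * L ^ 3 ≤ √(m : ℝ) := by
    apply Real.le_sqrt_of_sq_le
    nlinarith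
  have ha2 : 2 ≤ √(m : ℝ) / L ^ 2 := by
    rw [le_div_iff₀ (by positivity)]
    have : L ^ 2 ≤ L ^ 3 := pow_le_pow_right₀ hL1 (by norm_num)
    linarith
  have ha : (2 * (√(m : ℝ) / L ^ 2)) ^ 2 ≤ m / L ^ 3 := by
    rw [mul_pow, div_pow, hsq, ← mul_div_assoc, div_le_div_iff₀ (by positivity) (by positivity)]
    have : 2 ^ 2 * (m : ℝ) * L ^ 3 = (m * L ^ 3) * 4 := by ring
    rw [this]
    have : (m : ℝ) * (L ^ 2) ^ 2 = (m * L ^ 3) * L := by ring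
    rw [this]
    exact mul_le_mul_of_nonneg_left hL (by positivity)
  have hb : 2 * (√(m : ℝ) / L ^ 2) ≤ s + 1 :=
    (pow_le_pow_iff_left₀ (n := 2) (by positivity) (by positivity) two_ne_zero).1 (by linarith)
  have hA : √(m : ℝ) / L ^ 2 ≤ s := by linarith
  have hs3 : 2 ≤ s := by
    have : (2 : ℝ) ≤ s := ha2.trans hA
    exact_mod_cast this
  refine ⟨hA, ?_, ?_, hD1, ?_⟩
  · have : (s + 1) ^ 2 ≤ s ^ 3 + 1 := by
      obtain ⟨k, hk⟩ := Nat.exists_eq_add_of_le hs3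
      rw [hk]
      ring_nf
      omega
    omega
  · have : (pD m : ℝ) ≤ m := hD1.trans (div_le_self hm0.le (one_le_pow₀ hL1))
    exact_mod_cast this
  · have h1 : 2 * √(m : ℝ) ≤ m / L ^ 3 := by
      rw [le_div_iff₀ (by positivity)]
      nlinarith
    have h2 : 1 ≤ √(m : ℝ) := Real.one_le_sqrt.2 (by exact_mod_cast hm1)
    have h4 : √(m : ℝ) ≤ pD m := by linarith
    have := Real.log_le_log hsq0 h4
    rwa [Real.log_sqrt hm0.le] at this

theorem num_R (A : ℕ) {ε : ℝ} (hε : 0 < ε) : ∃ R : ℕ, 1 ≤ R ∧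
    ((ps A R : ℝ) + 1) * Real.exp (-(R : ℝ) / 2) ≤ ε := by
  obtain ⟨R, hR⟩ := exists_nat_ge (8 * (2 * (40 * A + 201) + 3) / ε + 1)
  have hA : (0 : ℝ) ≤ A := Nat.cast_nonneg A
  have h0 : (0 : ℝ) ≤ 8 * (2 * (40 * A + 201) + 3) / ε := by positivity
  have h1 : (1 : ℝ) ≤ R := by linarith
  refine ⟨R, by exact_mod_cast h1, ?_⟩
  have h2 : ((R : ℝ) / 2) ^ 2 / 2 ≤ Real.exp ((R : ℝ) / 2) := by
    have := Real.pow_div_factorial_le_exp ((R : ℝ) / 2) (by positivity) 2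
    simpa using this
  have h3 : 8 * (2 * (40 * (A : ℝ) + 201) + 3) ≤ ε * R := by
    have : 8 * (2 * (40 * (A : ℝ) + 201) + 3) / ε ≤ R := by linarith
    rwa [div_le_iff₀ hε, mul_comm (R : ℝ)] at this
  have h4 : ((ps A R : ℝ) + 1) ≤ (2 * (40 * (A : ℝ) + 201) + 3) * R := by
    unfold ps; push_cast; nlinarith
  rw [neg_div, Real.exp_neg, ← div_eq_mul_inv, div_le_iff₀ (Real.exp_pos _)]
  have h5 : ε * (((R : ℝ) / 2) ^ 2 / 2) ≤ ε * Real.exp ((R : ℝ) / 2) :=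
    mul_le_mul_of_nonneg_left h2 hε.le
  have h6 : 8 * (2 * (40 * (A : ℝ) + 201) + 3) * R ≤ ε * R * R :=
    mul_le_mul_of_nonneg_right h3 (by linarith)
  nlinarith

/-- with `L = log m`: `⌈Λ^40⌉ ≤ L^(40 A + 201)`, `t^s ≥ L^(s/2)`, `log (pW A R m i) ≤ C log L` -/
theorem num_fp (A R : ℕ) (hR : 1 ≤ R) : ∀ᶠ m : ℕ in atTop,
    FpNum m (ps A R) (pt m) (pW A R m) (pL A m) ∧ (pw A m : ℝ) ≤ pL A m ∧ pw A m ≤ pW A R m 0 := by
  have e1 := NumB.tendsto_L.eventually (eventually_ge_atTop (100 : ℝ))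
  have e2 := NumB.tendsto_L.eventually
    (NumB.ev_logpow ((R : ℝ) ^ (ps A R + 1) * ((40 * A + 201 : ℕ) : ℝ)) (ps A R + 1))
  filter_upwards [e1, e2] with m h1 h2
  set L := Real.log m with hL
  have hL2 : (2 : ℝ) ≤ L := by linarith
  have hL1 : (1 : ℝ) ≤ L := by linarith
  have hL0 : (0 : ℝ) < L := by linarith
  have hW1 := NumB.one_le_W0 A hL2
  have hWle := NumB.W0_le A hL2
  have hΛ : L ≤ L ^ (A + 5) := le_self_pow₀ hL1 (by omega)
  have hΛ40 : L ^ (A + 5) ≤ (L ^ (A + 5)) ^ 40 := le_self_pow₀ (one_le_pow₀ hL1) (by omega)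
  have hs : √L ≤ L := Real.sqrt_le_self_iff.2 (Or.inr hL1)
  have hW : ∀ i, pW A R m i = ⌈(L ^ (A + 5)) ^ 40⌉₊ ^ R ^ i := fun i => rfl
  have hLd : pL A m = L ^ (A + 5) := rfl
  have ht : pt m = ⌈√L⌉₊ := rfl
  have hw : pw A m = ⌈L ^ A⌉₊ := rfl
  generalize hW0 : ⌈(L ^ (A + 5)) ^ 40⌉₊ = W0 at hW1 hWle hW
  have hW0' : (L ^ (A + 5)) ^ 40 ≤ W0 := by rw [← hW0]; exact Nat.le_ceil _
  have hW0pos : (0 : ℝ) < W0 := by exact_mod_cast hW1
  refine ⟨⟨?_, ?_, ?_, ?_, ?_, ?_, ?_, ?_⟩, ?_, ?_⟩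
  · intro i j hij
    rw [hW, hW]
    exact Nat.pow_le_pow_right hW1 (Nat.pow_le_pow_right hR hij)
  · rw [ht]; exact Nat.one_le_ceil_iff.2 (Real.sqrt_pos.2 hL0)
  · rw [ht, hW]
    refine le_trans ?_ (Nat.le_self_pow (by positivity) W0)
    exact Nat.ceil_le.2 (by linarith)
  · rw [hW, ht, pow_one]
    have h3 : L ≤ ((⌈√L⌉₊ : ℕ) : ℝ) ^ 2 := by
      calc L = √L ^ 2 := (Real.sq_sqrt hL0.le).symm
        _ ≤ _ := pow_le_pow_left₀ (Real.sqrt_nonneg _) (Nat.le_ceil _) 2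
    have h4 : (2 : ℝ) * (W0 : ℝ) ^ R ≤ ((⌈√L⌉₊ : ℕ) : ℝ) ^ ps A R := by
      unfold ps
      rw [pow_mul]
      refine le_trans ?_ (pow_le_pow_left₀ hL0.le h3 _)
      rw [pow_succ, pow_mul, mul_comm]
      exact mul_le_mul (pow_le_pow_left₀ hW0pos.le hWle R) hL2 (by norm_num) (by positivity)
    exact_mod_cast h4
  · rw [hLd]; linarith
  · rw [hLd, hW]; simpa using hW0'
  · rw [hLd]; exact hΛ
  · rw [hLd, hW]
    refine le_trans ?_ (h2.trans hΛ)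
    have h5 : Real.log (W0 : ℝ) ≤ ((40 * A + 201 : ℕ) : ℝ) * Real.log L := by
      rw [← Real.log_pow]; exact Real.log_le_log hW0pos hWle
    have h6 : 0 ≤ Real.log (W0 : ℝ) := Real.log_nonneg (by exact_mod_cast hW1)
    have h7 : Real.log ((W0 ^ R ^ (ps A R + 1) : ℕ) : ℝ)
        = (R : ℝ) ^ (ps A R + 1) * Real.log (W0 : ℝ) := by
      push_cast; rw [Real.log_pow]; push_cast; ring
    rw [h7]
    have h8 : (0 : ℝ) ≤ (R : ℝ) ^ (ps A R + 1) := by positivity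
    have h9 : (R : ℝ) ^ (ps A R + 1) * Real.log (W0 : ℝ)
        ≤ (R : ℝ) ^ (ps A R + 1) * ((40 * A + 201 : ℕ) : ℝ) * Real.log L := by
      rw [mul_assoc]
      exact mul_le_mul_of_nonneg_left h5 h8
    refine mul_le_mul_of_nonneg_left (pow_le_pow_left₀ (by positivity) (by linarith) _) (by norm_num)
  · rw [hLd, hw]
    have h3 : (1 : ℝ) ≤ L ^ A := one_le_pow₀ hL1
    have h4 := (Nat.ceil_lt_add_one (le_trans zero_le_one h3)).le
    have h5 : L ≤ L ^ 5 := le_self_pow₀ hL1 (by omega)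
    rw [pow_add]
    nlinarith
  · rw [hw, hW, pow_zero, pow_one]
    refine Nat.ceil_le.2 (le_trans ?_ (hΛ40.trans hW0'))
    exact pow_le_pow_right₀ hL1 (by omega)

/-- the logarithm of the left side is `O(√L log L)` -/
theorem num_w2 (A R C : ℕ) {θ : ℝ} (hθ : 0 < θ) : ∀ᶠ m : ℕ in atTop,
    pL A m * (pW A R m (ps A R + 1) : ℝ) ^ (C + ps A R * pt m) ≤ (m : ℝ) ^ θ := by
  have e1 := NumB.tendsto_L.eventually (eventually_ge_atTop (100 : ℝ))
  have e2 := NumB.tendsto_L.eventually (NumB.ev_logsqrt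
    ((A + 5 : ℕ) + ((40 * A + 201) * R ^ (ps A R + 1) : ℕ) * (C + 2 * ps A R)) hθ)
  filter_upwards [e1, e2, eventually_gt_atTop 0] with m h1 h2 hm
  have hm0 : (0 : ℝ) < m := by exact_mod_cast hm
  rw [Real.rpow_def_of_pos hm0]
  set L := Real.log m with hL
  have hL2 : (2 : ℝ) ≤ L := by linarith
  have hL1 : (1 : ℝ) ≤ L := by linarith
  have hL0 : (0 : ℝ) < L := by linarith
  have hWle := NumB.W0_le A hL2
  have hW : ∀ i, pW A R m i = ⌈(L ^ (A + 5)) ^ 40⌉₊ ^ R ^ i := fun i => rfl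
  have hLd : pL A m = L ^ (A + 5) := rfl
  have ht : pt m = ⌈√L⌉₊ := rfl
  generalize ⌈(L ^ (A + 5)) ^ 40⌉₊ = W0 at hWle hW
  have hs1 : 1 ≤ √L := Real.one_le_sqrt.2 hL1
  have ht2 : (pt m : ℝ) ≤ 2 * √L := by
    rw [ht]
    have := (Nat.ceil_lt_add_one (Real.sqrt_nonneg L)).le
    linarith
  rw [hLd, hW]
  generalize ps A R = s at *
  generalize pt m = t at *
  have h3 : L ^ (A + 5) * ((W0 ^ R ^ (s + 1) : ℕ) : ℝ) ^ (C + s * t)
      ≤ L ^ ((A + 5) + (40 * A + 201) * R ^ (s + 1) * (C + s * t)) := by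
    rw [pow_add L (A + 5), pow_mul, pow_mul]
    push_cast
    gcongr
  refine h3.trans ?_
  generalize (40 * A + 201) * R ^ (s + 1) = K at *
  rw [← Real.exp_log hL0, ← Real.exp_nat_mul, Real.exp_log hL0]
  refine Real.exp_le_exp.2 ?_
  rw [mul_comm L θ]
  refine le_trans ?_ h2
  refine mul_le_mul_of_nonneg_right ?_ (Real.log_nonneg hL1)
  push_cast
  have hA : (0 : ℝ) ≤ (A : ℝ) + 5 := by positivity
  have hC : (0 : ℝ) ≤ (C : ℝ) := by positivity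
  have hs : (0 : ℝ) ≤ (s : ℝ) := by positivity
  have hK : (0 : ℝ) ≤ (K : ℝ) := by positivity
  have h4 : (C : ℝ) + s * t ≤ (C + 2 * s) * √L := by nlinarith
  have h5 := mul_le_mul_of_nonneg_left h4 hK
  nlinarith

theorem num_eta {η : ℝ} (h0 : 0 < η) (h1 : η ≤ 1 / 100) : ∀ᶠ m : ℕ in atTop,
    1 ≤ pc (η / 16) m ∧ pc (η / 16) m < pc (η / 2) m ∧ pc (η / 2) m ≤ pc η m ∧
    pc η m ^ 3 ≤ Nat.sqrt (pD m) ∧ (pc (η / 16) m : ℝ) ≤ (m : ℝ) ^ (η / 2) ∧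
    2 * (pc (η / 16) m : ℝ) * m ≤ (m : ℝ) ^ (1 + η) ∧ m ≤ pc (η / 2) m ^ ⌈2 / η⌉₊ ∧
    9 * (pc (η / 16) m : ℝ) ^ 6 * (Nat.log 2 (4 * pc (η / 16) m ^ 2 * m) + 1) / pc (η / 2) m ≤ 1 / 4 := by
  filter_upwards [num_D, NumA.ev_L 1, NumA.ev_pow 2 (δ := η / 16) (by positivity),
    NumA.ev_log 8 2 (δ := 47 / 100) (by norm_num),
    NumA.ev_log (4 * 9 * 64 * 7) 1 (δ := η / 8) (by positivity), eventually_ge_atTop 1]
    with m hD hL ht2 h47 h8 hm1
  set L := Real.log m with hLdef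
  have hm1' : (1 : ℝ) ≤ m := by exact_mod_cast hm1
  have hm0 : (0 : ℝ) < m := by linarith
  set t := (m : ℝ) ^ (η / 16) with ht
  have e2 : (m : ℝ) ^ (η / 8) = t ^ 2 := by
    rw [ht, ← Real.rpow_natCast, ← Real.rpow_mul hm0.le]; congr 1; push_cast; ring
  have e8 : (m : ℝ) ^ (η / 2) = t ^ 8 := by
    rw [ht, ← Real.rpow_natCast, ← Real.rpow_mul hm0.le]; congr 1; push_cast; ring
  have e16 : (m : ℝ) ^ η = t ^ 16 := by
    rw [ht, ← Real.rpow_natCast, ← Real.rpow_mul hm0.le]; congr 1; push_cast; ring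
  have ht0 : 0 < t := by linarith
  have ht1 : 1 ≤ t := by linarith
  have c1a : t ≤ pc (η / 16) m := Nat.le_ceil _
  have c1b : (pc (η / 16) m : ℝ) < t + 1 := Nat.ceil_lt_add_one ht0.le
  have c2a : t ^ 8 ≤ pc (η / 2) m := e8 ▸ Nat.le_ceil _
  have c3b : (pc η m : ℝ) < t ^ 16 + 1 := by
    rw [← e16]; exact Nat.ceil_lt_add_one (by positivity)
  have ht22 : 2 * t ≤ t ^ 2 := by nlinarith
  have ht28 : t ^ 2 ≤ t ^ 8 := pow_le_pow_right₀ ht1 (by norm_num)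
  have ht816 : t ^ 8 ≤ t ^ 16 := pow_le_pow_right₀ ht1 (by norm_num)
  have ht4 : 4 * t ≤ t ^ 16 := by
    have h3 : t ^ 3 ≤ t ^ 16 := pow_le_pow_right₀ ht1 (by norm_num)
    nlinarith
  have h16m : t ^ 16 ≤ m := by
    rw [← e16]
    calc (m : ℝ) ^ η ≤ (m : ℝ) ^ (1 : ℝ) := Real.rpow_le_rpow_of_exponent_le hm1' (by linarith)
      _ = m := Real.rpow_one _
  have c1c : (pc (η / 16) m : ℝ) ≤ 2 * t := by linarith
  refine ⟨?_, ?_, ?_, ?_, ?_, ?_, ?_, ?_⟩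
  · have : (1 : ℝ) ≤ pc (η / 16) m := by linarith
    exact_mod_cast this
  · have : (pc (η / 16) m : ℝ) < pc (η / 2) m := by linarith
    exact_mod_cast this
  · exact Nat.ceil_mono (by rw [e8, e16]; exact ht816)
  · have h3 : (pc η m : ℝ) ≤ 2 * (m : ℝ) ^ (1 / 100 : ℝ) := by
      have a1 : t ^ 16 ≤ (m : ℝ) ^ (1 / 100 : ℝ) := by
        rw [← e16]; exact Real.rpow_le_rpow_of_exponent_le hm1' h1
      have a2 : 1 ≤ t ^ 16 := one_le_pow₀ ht1
      linarith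
    have h4 : (pc η m : ℝ) ^ 3 ≤ 8 * (m : ℝ) ^ (3 / 100 : ℝ) := by
      calc (pc η m : ℝ) ^ 3 ≤ (2 * (m : ℝ) ^ (1 / 100 : ℝ)) ^ 3 :=
            pow_le_pow_left₀ (Nat.cast_nonneg _) h3 3
        _ = 8 * (m : ℝ) ^ (3 / 100 : ℝ) := by
            rw [mul_pow, ← Real.rpow_natCast ((m : ℝ) ^ (1 / 100 : ℝ)), ← Real.rpow_mul hm0.le]
            norm_num
    have h5 : 8 * (m : ℝ) ^ (3 / 100 : ℝ) ≤ √m / L ^ 2 := by
      rw [le_div_iff₀ (by positivity), Real.sqrt_eq_rpow]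
      have : (m : ℝ) ^ (1 / 2 : ℝ) = (m : ℝ) ^ (3 / 100 : ℝ) * (m : ℝ) ^ (47 / 100 : ℝ) := by
        rw [← Real.rpow_add hm0]; norm_num
      rw [this]
      have p : 0 ≤ (m : ℝ) ^ (3 / 100 : ℝ) := by positivity
      nlinarith
    have : (pc η m : ℝ) ^ 3 ≤ Nat.sqrt (pD m) := h4.trans (h5.trans hD.1)
    exact_mod_cast this
  · rw [e8]; linarith
  · rw [Real.rpow_add hm0, Real.rpow_one, e16, mul_comm (m : ℝ)]
    exact mul_le_mul_of_nonneg_right (by linarith) hm0.le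
  · have a1 : (m : ℝ) ≤ ((m : ℝ) ^ (η / 2)) ^ ⌈2 / η⌉₊ := by
      rw [← Real.rpow_natCast, ← Real.rpow_mul hm0.le]
      have : 1 ≤ η / 2 * (⌈2 / η⌉₊ : ℝ) := by
        have b := Nat.le_ceil (2 / η)
        calc (1 : ℝ) = η / 2 * (2 / η) := by field_simp
          _ ≤ _ := mul_le_mul_of_nonneg_left b (by positivity)
      calc (m : ℝ) = (m : ℝ) ^ (1 : ℝ) := (Real.rpow_one _).symm
        _ ≤ _ := Real.rpow_le_rpow_of_exponent_le hm1' this
    have a2 : ((m : ℝ) ^ (η / 2)) ^ ⌈2 / η⌉₊ ≤ (pc (η / 2) m : ℝ) ^ ⌈2 / η⌉₊ :=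
      pow_le_pow_left₀ (by positivity) (Nat.le_ceil _) _
    have : (m : ℝ) ≤ (pc (η / 2) m : ℝ) ^ ⌈2 / η⌉₊ := a1.trans a2
    exact_mod_cast this
  · set n := 4 * pc (η / 16) m ^ 2 * m with hn
    have hc0 : (0 : ℝ) < pc (η / 16) m := by linarith
    have hn0 : n ≠ 0 := by
      have : (0 : ℝ) < n := by rw [hn]; push_cast; positivity
      exact_mod_cast this.ne'
    have hnm : (n : ℝ) ≤ (m : ℝ) ^ 3 := by
      rw [hn]; push_cast
      have b : 2 * (pc (η / 16) m : ℝ) ≤ m := by linarith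
      have b2 : (2 * (pc (η / 16) m : ℝ)) ^ 2 ≤ (m : ℝ) ^ 2 := pow_le_pow_left₀ (by positivity) b 2
      nlinarith
    have hlog : (Nat.log 2 n : ℝ) ≤ 6 * L := by
      have b1 : ((2 ^ Nat.log 2 n : ℕ) : ℝ) ≤ n := by exact_mod_cast Nat.pow_log_le_self 2 hn0
      have b2 := Real.log_le_log (by positivity) (b1.trans hnm)
      rw [Nat.cast_pow, Real.log_pow, Real.log_pow] at b2
      have b3 := Real.log_two_gt_d9
      push_cast at b2
      have b4 : (0 : ℝ) ≤ Nat.log 2 n := Nat.cast_nonneg _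
      nlinarith
    have hc6 : (pc (η / 16) m : ℝ) ^ 6 ≤ (2 * t) ^ 6 := pow_le_pow_left₀ hc0.le c1c 6
    rw [div_le_iff₀ (by linarith [pow_pos ht0 8])]
    rw [e2, pow_one] at h8
    calc 9 * (pc (η / 16) m : ℝ) ^ 6 * (Nat.log 2 n + 1) ≤ 9 * (2 * t) ^ 6 * (7 * L) := by
          gcongr
          linarith
      _ = 1 / 4 * (t ^ 6 * (4 * 9 * 64 * 7 * L)) := by ring
      _ ≤ 1 / 4 * (t ^ 6 * t ^ 2) := by gcongr
      _ = 1 / 4 * t ^ 8 := by ring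
      _ ≤ _ := by gcongr

/-- Mertens: `log 2 - o(1)` and `log (1/(2η)) - o(1)` -/
theorem num_mer (hM : MerStmt) {η : ℝ} (h0 : 0 < η) (h1 : η ≤ 1 / 100) : ∀ᶠ m : ℕ in atTop,
    1 / 2 ≤ ∑ p ∈ Pr (pc (η / 2) m) (pc η m), 1 / (p : ℝ) ∧
    1 ≤ ∑ p ∈ Pr (pc η m) (Nat.sqrt (pD m)), 1 / (p : ℝ) := by
  obtain ⟨K, c, hc, hK, hM⟩ := hM
  filter_upwards [num_eta h0 h1, NumA.ev_L ((100 * K + 40) / η), eventually_ge_atTop 1]
    with m hE hL hm1
  obtain ⟨e1, e2, e3, e4, -⟩ := hE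
  set L := Real.log m with hLdef
  have hm1' : (1 : ℝ) ≤ m := by exact_mod_cast hm1
  have hm0 : (0 : ℝ) < m := by linarith
  rw [div_le_iff₀ h0] at hL
  have hc2 : 2 ≤ pc (η / 2) m := by omega
  have hc3 : 2 ≤ pc η m := by omega
  have hc4 : pc η m ≤ Nat.sqrt (pD m) := (Nat.le_self_pow (by norm_num) _).trans e4
  have l2a : η / 2 * L ≤ Real.log (pc (η / 2) m) := by
    rw [hLdef, ← Real.log_rpow hm0]
    exact Real.log_le_log (by positivity) (Nat.le_ceil _)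
  have l3a : η * L ≤ Real.log (pc η m) := by
    rw [hLdef, ← Real.log_rpow hm0]
    exact Real.log_le_log (by positivity) (Nat.le_ceil _)
  have l2b : Real.log (pc (η / 2) m) ≤ η / 2 * L + 1 := by
    have a1 : (1 : ℝ) ≤ (m : ℝ) ^ (η / 2) := Real.one_le_rpow hm1' (by positivity)
    have a2 : (pc (η / 2) m : ℝ) ≤ 2 * (m : ℝ) ^ (η / 2) := by
      have : (pc (η / 2) m : ℝ) < (m : ℝ) ^ (η / 2) + 1 := Nat.ceil_lt_add_one (by positivity)
      linarith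
    have a3 : (0 : ℝ) < pc (η / 2) m := by exact_mod_cast (by omega : 0 < pc (η / 2) m)
    have a4 := Real.log_le_log a3 a2
    rw [Real.log_mul two_ne_zero (by positivity), Real.log_rpow hm0] at a4
    have := Real.log_two_lt_d9
    linarith
  have small : ∀ x : ℝ, 50 * K + 20 ≤ x → K / x ^ 3 ≤ 1 / 50 := by
    intro x hx
    have hx1 : 1 ≤ x := by linarith
    have : x ≤ x ^ 3 := le_self_pow₀ hx1 (by norm_num)
    rw [div_le_iff₀ (by positivity)]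
    linarith
  have hl2 := Real.log_two_gt_d9
  constructor
  · have h := (abs_le.1 (hM _ _ hc2 e3).1).1
    have s1 := small _ (show 50 * K + 20 ≤ Real.log (pc (η / 2) m) by linarith)
    have hpos : 0 < Real.log (pc (η / 2) m) := by linarith
    have r1 : 40 / 21 ≤ Real.log (pc η m) / Real.log (pc (η / 2) m) := by
      rw [le_div_iff₀ hpos]
      linarith
    have r2 := Real.log_le_log (by norm_num) r1
    have r3 : Real.log (40 / 21) = Real.log 2 - Real.log (21 / 20) := by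
      rw [← Real.log_div (by norm_num) (by norm_num)]; norm_num
    have r4 := Real.log_le_sub_one_of_pos (show (0 : ℝ) < 21 / 20 by norm_num)
    linarith
  · have h := (abs_le.1 (hM _ _ hc3 hc4).1).1
    have s1 := small _ (show 50 * K + 20 ≤ Real.log (pc η m) by linarith)
    have hpos : 0 < Real.log (pc η m) := by linarith
    have r1 : 3 ≤ Real.log (Nat.sqrt (pD m)) / Real.log (pc η m) := by
      rw [le_div_iff₀ hpos]
      have a3 : (0 : ℝ) < pc η m := by exact_mod_cast (by omega : 0 < pc η m)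
      have a4 : (pc η m : ℝ) ^ 3 ≤ Nat.sqrt (pD m) := by exact_mod_cast e4
      have a5 := Real.log_le_log (by positivity) a4
      rw [Real.log_pow] at a5
      exact_mod_cast a5
    have r2 := Real.log_le_log (by norm_num) r1
    have r3 : Real.log 3 = Real.log 2 - Real.log (2 / 3) := by
      rw [← Real.log_div (by norm_num) (by norm_num)]; norm_num
    have r4 := Real.log_le_sub_one_of_pos (show (0 : ℝ) < 2 / 3 by norm_num)
    linarith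

end Crest.Agent.R1
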