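import Crest.Agent.R1.Defs

/-! Row 1: sums against monotone functions. -/

set_option autoImplicit false

namespace Crest.Agent.R1
open Finset MeasureTheory Filter

namespace PSumA

/-- one unit interval -/
lemma unit_step (ν ν' g : ℝ → ℝ) (a b ε' : ℝ) (hab : a ≤ b)
    (hν : ∀ x ∈ Set.Icc a b, HasDerivAt ν (ν' x) x)
    (hc : ContinuousOn ν' (Set.Icc a b)) (h0 : ∀ x ∈ Set.Icc a b, 0 ≤ ν' x)
    (hε' : ν b - ν a ≤ ε') (hg : MonotoneOn g (Set.Icc a b)) :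
    |(∫ x in a..b, g x * ν' x) - (ν b - ν a) * g a| ≤ ε' * (g b - g a) := by
  have hI : Set.uIcc a b = Set.Icc a b := Set.uIcc_of_le hab
  have hν'i : IntervalIntegrable ν' volume a b := (hI ▸ hc).intervalIntegrable
  have hgi : IntervalIntegrable g volume a b := (hI ▸ hg).intervalIntegrable
  have hgν : IntervalIntegrable (fun x => g x * ν' x) volume a b :=
    hgi.mul_continuousOn (hI ▸ hc)
  have hint : ∫ x in a..b, ν' x = ν b - ν a :=
    intervalIntegral.integral_eq_sub_of_hasDerivAt (fun x hx => hν x (hI ▸ hx)) hν'i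
  have ha : a ∈ Set.Icc a b := ⟨le_rfl, hab⟩
  have hb : b ∈ Set.Icc a b := ⟨hab, le_rfl⟩
  have h1 : ∫ x in a..b, g a * ν' x ≤ ∫ x in a..b, g x * ν' x := by
    apply intervalIntegral.integral_mono_on hab (hν'i.const_mul _) hgν
    intro x hx
    exact mul_le_mul_of_nonneg_right (hg ha hx hx.1) (h0 x hx)
  have h2 : ∫ x in a..b, g x * ν' x ≤ ∫ x in a..b, g b * ν' x := by
    apply intervalIntegral.integral_mono_on hab hgν (hν'i.const_mul _)
    intro x hx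
    exact mul_le_mul_of_nonneg_right (hg hx hb hx.2) (h0 x hx)
  rw [intervalIntegral.integral_const_mul, hint] at h1 h2
  have h3 : g a ≤ g b := hg ha hb hab
  have h4 : (ν b - ν a) * (g b - g a) ≤ ε' * (g b - g a) :=
    mul_le_mul_of_nonneg_right hε' (by linarith)
  rw [abs_of_nonneg (by linarith)]
  linarith

lemma gint (ν' g : ℝ → ℝ) (a b c d : ℝ) (hac : a ≤ c) (hcd : c ≤ d) (hdb : d ≤ b)
    (hc : ContinuousOn ν' (Set.Icc a b)) (hg : MonotoneOn g (Set.Icc a b)) :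
    IntervalIntegrable (fun x => g x * ν' x) volume c d := by
  have hI : Set.uIcc c d = Set.Icc c d := Set.uIcc_of_le hcd
  have hs : Set.Icc c d ⊆ Set.Icc a b := Set.Icc_subset_Icc hac hdb
  have hgi : IntervalIntegrable g volume c d := (hI ▸ hg.mono hs).intervalIntegrable
  exact hgi.mul_continuousOn (hI ▸ hc.mono hs)

end PSumA

/-- Sums against a monotone function. Put `ν_k = ν(k+1) - ν k = ∫_k^{k+1} ν'`. Discrete Abel summation gives
`|∑ (wt k - ν_k) g k| ≤ 2 ε g(y₂)`, and `0 ≤ ∫ g ν' - ∑ ν_k g k ≤ ∑ ν_k (g(k+1) - g k) ≤ ε' g(y₂)`. -/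
theorem piece (wt : ℕ → ℝ) (ν ν' g : ℝ → ℝ) (y1 y2 : ℕ) (ε ε' : ℝ) (h12 : y1 ≤ y2)
    (hν : ∀ x ∈ Set.Icc (y1 : ℝ) y2, HasDerivAt ν (ν' x) x)
    (hc : ContinuousOn ν' (Set.Icc (y1 : ℝ) y2)) (h0 : ∀ x ∈ Set.Icc (y1 : ℝ) y2, 0 ≤ ν' x)
    (hε : ∀ n : ℕ, y1 ≤ n → n ≤ y2 → |∑ k ∈ Ico y1 n, wt k - (ν n - ν y1)| ≤ ε)
    (hε' : ∀ n : ℕ, y1 ≤ n → n < y2 → ν (n + 1) - ν n ≤ ε') (hε0 : 0 ≤ ε')
    (hg : MonotoneOn g (Set.Icc (y1 : ℝ) y2)) (hg0 : ∀ x ∈ Set.Icc (y1 : ℝ) y2, 0 ≤ g x) :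
    |∑ k ∈ Ico y1 y2, wt k * g k - ∫ x in (y1 : ℝ)..y2, g x * ν' x| ≤ (2 * ε + ε') * g y2 := by
  have key : ∀ n : ℕ, y1 ≤ n → n ≤ y2 →
      |(∑ k ∈ Ico y1 n, wt k * g k - ∫ x in (y1 : ℝ)..n, g x * ν' x) -
        (∑ k ∈ Ico y1 n, wt k - (ν n - ν y1)) * g n| ≤ (ε + ε') * (g n - g y1) := by
    intro n hn
    induction n, hn using Nat.le_induction with
    | base => intro _; simp
    | succ n hn ih =>
      intro hn2
      have ih' := ih (by omega)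
      have c1 : (y1 : ℝ) ≤ n := by exact_mod_cast hn
      have c2 : (n : ℝ) + 1 ≤ y2 := by exact_mod_cast hn2
      have hs : Set.Icc (n : ℝ) (n + 1) ⊆ Set.Icc (y1 : ℝ) y2 := Set.Icc_subset_Icc c1 c2
      have hu := PSumA.unit_step ν ν' g n (n + 1) ε' (by linarith) (fun x hx => hν x (hs hx))
        (hc.mono hs) (fun x hx => h0 x (hs hx)) (hε' n hn (by omega)) (hg.mono hs)
      have hD := hε (n + 1) (by omega) hn2
      have hmono : g n ≤ g (n + 1) :=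
        hg ⟨c1, by linarith⟩ ⟨by linarith, c2⟩ (by linarith)
      have hadd := intervalIntegral.integral_add_adjacent_intervals
        (PSumA.gint ν' g y1 y2 y1 n le_rfl c1 (by linarith) hc hg)
        (PSumA.gint ν' g y1 y2 n (n + 1) c1 (by linarith) c2 hc hg)
      rw [Finset.sum_Ico_succ_top hn] at hD ⊢
      rw [Finset.sum_Ico_succ_top hn]
      push_cast at hD ⊢
      rw [← hadd]
      set S := ∑ k ∈ Ico y1 n, wt k * g k
      set T := ∑ k ∈ Ico y1 n, wt k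
      set I1 := ∫ x in (y1 : ℝ)..n, g x * ν' x
      set I2 := ∫ x in (n : ℝ)..(n + 1), g x * ν' x
      have hD' : |(T + wt n - (ν (n + 1) - ν y1)) * (g (n + 1) - g n)| ≤ ε * (g (n + 1) - g n) := by
        rw [abs_mul, abs_of_nonneg (sub_nonneg.2 hmono)]
        exact mul_le_mul_of_nonneg_right hD (sub_nonneg.2 hmono)
      have e : S + wt n * g n - (I1 + I2) - (T + wt n - (ν (n + 1) - ν y1)) * g (n + 1) =
          (S - I1 - (T - (ν n - ν y1)) * g n) - (I2 - (ν (n + 1) - ν n) * g n) -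
            (T + wt n - (ν (n + 1) - ν y1)) * (g (n + 1) - g n) := by ring
      rw [e]
      rw [abs_le] at ih' hu hD' ⊢
      constructor <;> nlinarith [ih'.1, ih'.2, hu.1, hu.2, hD'.1, hD'.2]
  have c12 : (y1 : ℝ) ≤ y2 := by exact_mod_cast h12
  have h1 := key y2 h12 le_rfl
  have h2 := hε y2 h12 le_rfl
  have hε1 : 0 ≤ ε := (abs_nonneg _).trans h2
  have g1 := hg0 y1 ⟨le_rfl, c12⟩
  have g2 := hg0 y2 ⟨c12, le_rfl⟩
  have h3 : |(∑ k ∈ Ico y1 y2, wt k - (ν y2 - ν y1)) * g y2| ≤ ε * g y2 := by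
    rw [abs_mul, abs_of_nonneg g2]
    exact mul_le_mul_of_nonneg_right h2 g2
  have h4 : 0 ≤ (ε + ε') * g y1 := by positivity
  rw [abs_le] at h1 h3 ⊢
  constructor <;> nlinarith [h1.1, h1.2, h3.1, h3.2]

namespace PSumA

/-- one piece `[y₁, y₂]` with `y₂ ≤ y₁²` -/
lemma one (wt : ℕ → ℝ) (ν ν' g : ℝ → ℝ) (y1 y2 : ℕ) (μ t A B : ℝ)
    (h2 : 2 ≤ y1) (h12 : y1 ≤ y2) (hsq : y2 ≤ y1 ^ 2) (hB : 0 ≤ B)
    (hν : ∀ x ∈ Set.Icc (y1 : ℝ) y2, HasDerivAt ν (ν' x) x)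
    (hc : ContinuousOn ν' (Set.Icc (y1 : ℝ) y2)) (h0 : ∀ x ∈ Set.Icc (y1 : ℝ) y2, 0 ≤ ν' x)
    (hε : ∀ n : ℕ, y1 ≤ n → n ≤ y2 →
      |∑ k ∈ Ico y1 n, wt k - (ν n - ν y1)| ≤ B / Real.log y1 ^ 3)
    (hε' : ∀ n : ℕ, y1 ≤ n → n < y2 → ν (n + 1) - ν n ≤ B / Real.log n ^ 3)
    (hg : MonotoneOn g (Set.Icc (y1 : ℝ) y2))
    (hg0 : ∀ x ∈ Set.Icc (y1 : ℝ) y2, 0 ≤ g x ∧ g x ≤ A * Real.exp (-μ * (t / Real.log x))) :
    |∑ k ∈ Ico y1 y2, wt k * g k - ∫ x in (y1 : ℝ)..y2, g x * ν' x| ≤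
      24 * A * B * Real.exp (-μ * (t / Real.log y2)) / Real.log y2 ^ 3 := by
  have c2 : (2 : ℝ) ≤ y1 := by exact_mod_cast h2
  have c12 : (y1 : ℝ) ≤ y2 := by exact_mod_cast h12
  have l1 : 0 < Real.log y1 := Real.log_pos (by linarith)
  have l2 : 0 < Real.log y2 := Real.log_pos (by linarith)
  have l12 : Real.log y2 ≤ 2 * Real.log y1 := by
    have : (y2 : ℝ) ≤ (y1 : ℝ) ^ 2 := by exact_mod_cast hsq
    have h := Real.log_le_log (by linarith) this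
    rw [Real.log_pow] at h
    exact_mod_cast h
  have hp := piece wt ν ν' g y1 y2 (B / Real.log y1 ^ 3) (B / Real.log y1 ^ 3) h12 hν hc h0 hε
    (fun n hn hn2 => (hε' n hn hn2).trans (by
      have cn : (y1 : ℝ) ≤ n := by exact_mod_cast hn
      have : Real.log y1 ≤ Real.log n := Real.log_le_log (by linarith) cn
      gcongr)) (by positivity) hg (fun x hx => (hg0 x hx).1)
  refine hp.trans ?_
  obtain ⟨g0, g1⟩ := hg0 y2 ⟨c12, le_rfl⟩
  have hb : B / Real.log y1 ^ 3 ≤ 8 * B / Real.log y2 ^ 3 := by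
    rw [div_le_div_iff₀ (by positivity) (by positivity)]
    have : Real.log y2 ^ 3 ≤ (2 * Real.log y1) ^ 3 := by gcongr
    nlinarith
  calc (2 * (B / Real.log y1 ^ 3) + B / Real.log y1 ^ 3) * g y2
      = 3 * (B / Real.log y1 ^ 3) * g y2 := by ring
    _ ≤ 3 * (8 * B / Real.log y2 ^ 3) * (A * Real.exp (-μ * (t / Real.log y2))) := by
        gcongr
    _ = _ := by ring

/-- contraction of `ψ(s) = (s+3)³ e^{-μ s}` -/
lemma psi_contr (μ s s' : ℝ) (hμ : 1 ≤ μ) (hs : 1 ≤ s) (hs' : 5 / 4 * s ≤ s') :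
    (s' + 3) ^ 3 * Real.exp (-μ * s') ≤ 16 / 17 * ((s + 3) ^ 3 * Real.exp (-μ * s)) := by
  set d := s' - s with hd
  have d0 : 1 / 4 ≤ d := by linarith
  have h1 : s' + 3 ≤ (s + 3) * Real.exp (d / 4) := by
    have := Real.add_one_le_exp (d / 4)
    have h2 : (s + 3) * (d / 4 + 1) ≤ (s + 3) * Real.exp (d / 4) := by gcongr
    nlinarith
  have h2 : (s' + 3) ^ 3 ≤ (s + 3) ^ 3 * Real.exp (3 * (d / 4)) := by
    have : Real.exp (3 * (d / 4)) = Real.exp (d / 4) ^ 3 := by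
      rw [← Real.exp_nat_mul]; norm_num
    rw [this, ← mul_pow]
    exact pow_le_pow_left₀ (by linarith) h1 3
  have h3 : Real.exp (3 * (d / 4)) * Real.exp (-μ * s') ≤ 16 / 17 * Real.exp (-μ * s) := by
    have h4 : Real.exp (-(1 / 16 : ℝ)) ≤ 16 / 17 := by
      rw [Real.exp_neg, inv_le_comm₀ (Real.exp_pos _) (by norm_num)]
      have := Real.add_one_le_exp (1 / 16 : ℝ)
      linarith
    calc Real.exp (3 * (d / 4)) * Real.exp (-μ * s')
        = Real.exp (3 * (d / 4) - μ * d) * Real.exp (-μ * s) := by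
          rw [← Real.exp_add, ← Real.exp_add]; congr 1; rw [hd]; ring
      _ ≤ Real.exp (-(1 / 16 : ℝ)) * Real.exp (-μ * s) := by
          gcongr; nlinarith
      _ ≤ _ := by gcongr
  calc (s' + 3) ^ 3 * Real.exp (-μ * s')
      ≤ (s + 3) ^ 3 * Real.exp (3 * (d / 4)) * Real.exp (-μ * s') := by gcongr
    _ = (s + 3) ^ 3 * (Real.exp (3 * (d / 4)) * Real.exp (-μ * s')) := by ring
    _ ≤ (s + 3) ^ 3 * (16 / 17 * Real.exp (-μ * s)) := by
        have : 0 ≤ s + 3 := by linarith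
        gcongr
    _ = _ := by ring

lemma sqrt_pow (y : ℕ) (hy : 4 ≤ y) : (Nat.sqrt y + 1) ^ 5 ≤ y ^ 4 := by
  have hm : 2 ≤ Nat.sqrt y := Nat.le_sqrt'.2 (by omega)
  have h1 : Nat.sqrt y ^ 2 ≤ y := Nat.sqrt_le' y
  set m := Nat.sqrt y
  have h2 : (m ^ 2) ^ 4 ≤ y ^ 4 := Nat.pow_le_pow_left h1 4
  have h3 : (2 * (m + 1)) ^ 5 ≤ (3 * m) ^ 5 := Nat.pow_le_pow_left (by omega) 5
  have h4 : 2 ^ 3 ≤ m ^ 3 := Nat.pow_le_pow_left hm 3
  have h5 : m ^ 5 * 2 ^ 3 ≤ m ^ 5 * m ^ 3 := Nat.mul_le_mul_left _ h4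
  have h6 : (m ^ 2) ^ 4 = m ^ 5 * m ^ 3 := by ring
  rw [mul_pow, mul_pow] at h3
  generalize (m + 1) ^ 5 = u at *
  generalize m ^ 5 * m ^ 3 = v at *
  generalize m ^ 5 = z at *
  omega

lemma halve_aux (wt : ℕ → ℝ) (ν ν' g : ℝ → ℝ) (w : ℕ) (μ t A B : ℝ)
    (hw : 2 ≤ w) (hμ : 1 ≤ μ) (hA : 0 ≤ A) (hB : 0 ≤ B) (y : ℕ) : w ≤ y → Real.log y ≤ t →
    (∀ x ∈ Set.Icc (w : ℝ) y, HasDerivAt ν (ν' x) x) → ContinuousOn ν' (Set.Icc (w : ℝ) y) →
    (∀ x ∈ Set.Icc (w : ℝ) y, 0 ≤ ν' x) →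
    (∀ y1 n : ℕ, w ≤ y1 → y1 ≤ n → n ≤ y →
      |∑ k ∈ Ico y1 n, wt k - (ν n - ν y1)| ≤ B / Real.log y1 ^ 3) →
    (∀ n : ℕ, w ≤ n → n < y → ν (n + 1) - ν n ≤ B / Real.log n ^ 3) →
    MonotoneOn g (Set.Icc (w : ℝ) y) →
    (∀ x ∈ Set.Icc (w : ℝ) y, 0 ≤ g x ∧ g x ≤ A * Real.exp (-μ * (t / Real.log x))) →
    |∑ k ∈ Ico w y, wt k * g k - ∫ x in (w : ℝ)..y, g x * ν' x| ≤
      408 * A * B * ((t / Real.log y + 3) ^ 3 * Real.exp (-μ * (t / Real.log y))) / t ^ 3 := by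
  induction y using Nat.strong_induction_on with
  | _ y ih =>
  intro hwy ht hν hc h0 hε hε' hg hg0
  have c2 : (2 : ℝ) ≤ w := by exact_mod_cast hw
  have cwy : (w : ℝ) ≤ y := by exact_mod_cast hwy
  have ly : 0 < Real.log y := Real.log_pos (by linarith)
  have t0 : 0 < t := by linarith
  have hs1 : 1 ≤ t / Real.log y := by rw [le_div_iff₀ ly]; linarith
  have cost : 24 * A * B * Real.exp (-μ * (t / Real.log y)) / Real.log y ^ 3 ≤
      24 * A * B * ((t / Real.log y + 3) ^ 3 * Real.exp (-μ * (t / Real.log y))) / t ^ 3 := by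
    have e : 24 * A * B * Real.exp (-μ * (t / Real.log y)) / Real.log y ^ 3 =
        24 * A * B * ((t / Real.log y) ^ 3 * Real.exp (-μ * (t / Real.log y))) / t ^ 3 := by
      field_simp
    rw [e]
    gcongr
    linarith
  have hψ : 0 ≤ A * B * ((t / Real.log y + 3) ^ 3 * Real.exp (-μ * (t / Real.log y))) / t ^ 3 := by
    positivity
  by_cases hsq : y ≤ w ^ 2
  · have h1 := one wt ν ν' g w y μ t A B hw hwy hsq hB hν hc h0 (fun n => hε w n le_rfl) hε' hg hg0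
    refine h1.trans (cost.trans ?_)
    gcongr
    norm_num
  · have hy4 : 4 ≤ y := by nlinarith
    have hwm : w ≤ Nat.sqrt y := Nat.le_sqrt'.2 (by omega)
    have hlt : y < (Nat.sqrt y + 1) ^ 2 := Nat.lt_succ_sqrt' y
    have hm2 : Nat.sqrt y ^ 2 ≤ y := Nat.sqrt_le' y
    have h5 := sqrt_pow y hy4
    set y' := Nat.sqrt y + 1 with hy'
    have hy'y : y' < y := by nlinarith
    have hwy' : w ≤ y' := by omega
    have c1 : (w : ℝ) ≤ y' := by exact_mod_cast hwy'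
    have c3 : (y' : ℝ) ≤ y := by exact_mod_cast hy'y.le
    have ly' : 0 < Real.log y' := Real.log_pos (by linarith)
    have l5 : 5 * Real.log y' ≤ 4 * Real.log y := by
      have : (y' : ℝ) ^ 5 ≤ (y : ℝ) ^ 4 := by exact_mod_cast h5
      have h := Real.log_le_log (by positivity) this
      rw [Real.log_pow, Real.log_pow] at h
      exact_mod_cast h
    have s1 : Set.Icc (w : ℝ) y' ⊆ Set.Icc (w : ℝ) y := Set.Icc_subset_Icc le_rfl c3
    have s2 : Set.Icc (y' : ℝ) y ⊆ Set.Icc (w : ℝ) y := Set.Icc_subset_Icc c1 le_rfl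
    have hI := ih y' hy'y hwy' (by linarith) (fun x hx => hν x (s1 hx)) (hc.mono s1)
      (fun x hx => h0 x (s1 hx)) (fun y1 n a b c => hε y1 n a b (by omega))
      (fun n a b => hε' n a (by omega)) (hg.mono s1) (fun x hx => hg0 x (s1 hx))
    have h1 := one wt ν ν' g y' y μ t A B (by omega) hy'y.le hlt.le hB (fun x hx => hν x (s2 hx))
      (hc.mono s2) (fun x hx => h0 x (s2 hx)) (fun n a b => hε y' n hwy' a b)
      (fun n a b => hε' n (by omega) b) (hg.mono s2) (fun x hx => hg0 x (s2 hx))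
    have hcon := psi_contr μ (t / Real.log y) (t / Real.log y') hμ hs1 (by
      rw [← mul_div_assoc, div_le_div_iff₀ ly ly']
      nlinarith)
    have hI' : 408 * A * B * ((t / Real.log y' + 3) ^ 3 * Real.exp (-μ * (t / Real.log y'))) / t ^ 3
        ≤ 408 * A * B * (16 / 17 * ((t / Real.log y + 3) ^ 3 * Real.exp (-μ * (t / Real.log y))))
          / t ^ 3 := by gcongr
    have hadd := intervalIntegral.integral_add_adjacent_intervals
      (gint ν' g w y w y' le_rfl c1 c3 hc hg) (gint ν' g w y y' y c1 c3 le_rfl hc hg)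
    rw [← hadd, ← Finset.sum_Ico_consecutive _ hwy' hy'y.le]
    have e : ∀ a b c d : ℝ, a + b - (c + d) = (a - c) + (b - d) := by intros; ring
    rw [e]
    refine (abs_add_le _ _).trans ?_
    refine (add_le_add (hI.trans hI') (h1.trans cost)).trans (le_of_eq ?_)
    ring

end PSumA

/-- Halving. Suppose the distribution function of `wt` on `[y₁, n)` agrees with `ν` up to `B / log³ y₁` for
all `w ≤ y₁ ≤ n ≤ y`, `ν(n+1) - ν n ≤ B / log³ n`, and `0 ≤ g x ≤ A exp(-μ t / log x)`. Strong induction on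
`y`: apply `piece` on `[max w y', y]`, `y' = Nat.sqrt y + 1` (for `y ≥ 4`, `log y / 2 ≤ log y' ≤ 0.8 log y`), and
the induction hypothesis on `[w, y']`; with `s = t / log y ≥ 1` the bound at `y'` is at most
`8 exp(-μ s/4)` times the bound at `y`, which is not a contraction for small `s`; so prove the bound
`K A B ψ(s) / t³` with `ψ(s) = (s+3)³ e^{-μ s}` (antitone for `s ≥ 1`, `μ ≥ 1`; `ψ(1.25 s) ≤ 0.95 ψ(s)`;
`s³ e^{-μ s} ≤ ψ(s) ≤ 64 s³ e^{-μ s}`): the piece costs `≤ 24 A B s³ e^{-μ s}/t³`.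
For `y ≤ 3` apply `piece` once. -/
theorem halve : ∃ K : ℝ, 0 < K ∧ ∀ (wt : ℕ → ℝ) (ν ν' g : ℝ → ℝ) (w y : ℕ) (μ t A B : ℝ),
    2 ≤ w → w ≤ y → 1 ≤ μ → Real.log y ≤ t → 0 ≤ B →
    (∀ x ∈ Set.Icc (w : ℝ) y, HasDerivAt ν (ν' x) x) → ContinuousOn ν' (Set.Icc (w : ℝ) y) →
    (∀ x ∈ Set.Icc (w : ℝ) y, 0 ≤ ν' x) →
    (∀ y1 n : ℕ, w ≤ y1 → y1 ≤ n → n ≤ y →
      |∑ k ∈ Ico y1 n, wt k - (ν n - ν y1)| ≤ B / Real.log y1 ^ 3) →
    (∀ n : ℕ, w ≤ n → n < y → ν (n + 1) - ν n ≤ B / Real.log n ^ 3) →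
    MonotoneOn g (Set.Icc (w : ℝ) y) →
    (∀ x ∈ Set.Icc (w : ℝ) y, 0 ≤ g x ∧ g x ≤ A * Real.exp (-μ * (t / Real.log x))) →
    |∑ k ∈ Ico w y, wt k * g k - ∫ x in (w : ℝ)..y, g x * ν' x| ≤
      K * A * B * Real.exp (-μ * (t / Real.log y)) / Real.log y ^ 3 := by
  refine ⟨408 * 64, by norm_num, ?_⟩
  intro wt ν ν' g w y μ t A B hw hwy hμ ht hB hν hc h0 hε hε' hg hg0
  have c2 : (2 : ℝ) ≤ w := by exact_mod_cast hw
  have cwy : (w : ℝ) ≤ y := by exact_mod_cast hwy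
  have ly : 0 < Real.log y := Real.log_pos (by linarith)
  have t0 : 0 < t := by linarith
  have hs1 : 1 ≤ t / Real.log y := by rw [le_div_iff₀ ly]; linarith
  have hA : 0 ≤ A := by
    obtain ⟨g0, g1⟩ := hg0 w ⟨le_rfl, cwy⟩
    exact nonneg_of_mul_nonneg_left (g0.trans g1) (Real.exp_pos _)
  refine (PSumA.halve_aux wt ν ν' g w μ t A B hw hμ hA hB y hwy ht hν hc h0 hε hε' hg hg0).trans ?_
  have e : 408 * 64 * A * B * Real.exp (-μ * (t / Real.log y)) / Real.log y ^ 3 =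
      408 * A * B * ((4 * (t / Real.log y)) ^ 3 * Real.exp (-μ * (t / Real.log y))) / t ^ 3 := by
    field_simp
    ring
  rw [e]
  gcongr
  linarith

end Crest.Agent.R1
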