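import Crest.Agent.R1.PSumA
import Crest.Agent.R1.Mer

/-! Row 1: prime sums against monotone functions. -/

set_option autoImplicit false

namespace Crest.Agent.R1
open Finset MeasureTheory Filter

namespace PSumB

theorem subst {t a b : ℝ} (ht : 0 ≤ t) (ha : 1 < a) (hab : a ≤ b) (ψ : ℝ → ℝ) :
    ∫ x in a..b, ψ (t / Real.log x) * (t / (x * Real.log x ^ 2)) =
      ∫ u in (t / Real.log b)..(t / Real.log a), ψ u := by
  have hder : ∀ x : ℝ, 1 < x →
      HasDerivAt (fun x => t / Real.log x) (-(t / (x * Real.log x ^ 2))) x := by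
    intro x hx
    have hx0 : x ≠ 0 := (lt_trans one_pos hx).ne'
    have hl : Real.log x ≠ 0 := (Real.log_pos hx).ne'
    have h := (hasDerivAt_const x t).div (Real.hasDerivAt_log hx0) hl
    refine HasDerivAt.congr_deriv h ?_
    field_simp
    ring
  have h := intervalIntegral.integral_comp_mul_deriv_of_deriv_nonpos (a := a) (b := b)
    (f := fun x => t / Real.log x) (f' := fun x => -(t / (x * Real.log x ^ 2))) (g := ψ)
    (fun x hx => by
      rw [Set.uIcc_of_le hab] at hx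
      exact (hder x (lt_of_lt_of_le ha hx.1)).continuousAt.continuousWithinAt)
    (fun x hx => by
      rw [min_eq_left hab] at hx
      exact hder x (lt_trans ha hx.1))
    (fun x hx => by
      rw [min_eq_left hab] at hx
      have hx1 : 0 < x := by linarith [hx.1]
      have : 0 ≤ t / (x * Real.log x ^ 2) := by positivity
      linarith)
  rw [intervalIntegral.integral_symm (t / Real.log a), ← h, ← intervalIntegral.integral_neg]
  congr 1
  funext x
  simp only [Function.comp_apply]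
  ring

theorem half_le_log {x : ℝ} (hx : 2 ≤ x) : 1 / 2 ≤ Real.log x := by
  have h1 := Real.log_two_gt_d9
  have h2 : Real.log 2 ≤ Real.log x := Real.log_le_log (by norm_num) hx
  linarith

theorem inv_le {x : ℝ} (hx : 2 ≤ x) : 1 / x ≤ 6 / Real.log x ^ 3 := by
  have hl : 0 < Real.log x := by linarith [half_le_log hx]
  have h := Real.pow_div_factorial_le_exp (Real.log x) hl.le 3
  rw [Real.exp_log (by linarith)] at h
  have h6 : ((Nat.factorial 3 : ℕ) : ℝ) = 6 := by norm_num [Nat.factorial]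
  rw [h6, div_le_iff₀ (by norm_num)] at h
  rw [div_le_div_iff₀ (by linarith) (by positivity)]
  linarith

theorem low {t s : ℝ} {w y : ℕ} (hw : 2 ≤ w) (ht : 0 ≤ t) (hs : s ≤ t / Real.log y) {x : ℝ}
    (hx : x ∈ Set.Icc (w : ℝ) y) : s ≤ t / Real.log x := by
  have hw' : (2 : ℝ) ≤ w := by exact_mod_cast hw
  have hx2 : 2 ≤ x := le_trans hw' hx.1
  have hl : 0 < Real.log x := by linarith [half_le_log hx2]
  exact le_trans hs (div_le_div_of_nonneg_left ht hl (Real.log_le_log (by linarith) hx.2))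

theorem mono {t s : ℝ} {w y : ℕ} {φ : ℝ → ℝ} (hw : 2 ≤ w) (ht : 0 ≤ t) (hs : s ≤ t / Real.log y)
    (hφ : AntitoneOn φ (Set.Ici s)) :
    MonotoneOn (fun x : ℝ => φ (t / Real.log x)) (Set.Icc (w : ℝ) y) := by
  intro x hx z hz hxz
  have hw' : (2 : ℝ) ≤ w := by exact_mod_cast hw
  have hx2 : 2 ≤ x := le_trans hw' hx.1
  have hl : 0 < Real.log x := by linarith [half_le_log hx2]
  exact hφ (low hw ht hs hz) (low hw ht hs hx)
    (div_le_div_of_nonneg_left ht hl (Real.log_le_log (by linarith) hxz))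

theorem sum_wt (f : ℕ → ℝ) (a b : ℕ) :
    ∑ k ∈ Ico a b, (if k.Prime then f k else 0) = ∑ p ∈ Pr a b, f p := by
  rw [Pr, Finset.sum_filter]

theorem sum_wt_mul (f g : ℕ → ℝ) (a b : ℕ) :
    ∑ k ∈ Ico a b, (if k.Prime then f k else 0) * g k = ∑ p ∈ Pr a b, f p * g p := by
  rw [← sum_wt]
  refine Finset.sum_congr rfl fun k _ => ?_
  split_ifs
  · rfl
  · exact zero_mul _

theorem mem_Pr {w y p : ℕ} : p ∈ Pr w y ↔ (w ≤ p ∧ p < y) ∧ p.Prime := by
  rw [Pr, Finset.mem_filter, Finset.mem_Ico]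

theorem Vp_nonneg (y : ℕ) : 0 ≤ Vp y := by
  refine Finset.prod_nonneg fun p hp => ?_
  have h : (2 : ℝ) ≤ p := by exact_mod_cast (mem_Pr.1 hp).1.1
  have : 1 / (p : ℝ) ≤ 1 := by
    rw [div_le_one (by linarith)]
    linarith
  linarith

theorem Vp_le_one (y : ℕ) : Vp y ≤ 1 := by
  refine Finset.prod_le_one (fun p hp => ?_) (fun p hp => ?_)
  · have h : (2 : ℝ) ≤ p := by exact_mod_cast (mem_Pr.1 hp).1.1
    have : 1 / (p : ℝ) ≤ 1 := by
      rw [div_le_one (by linarith)]
      linarith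
    linarith
  · have : 0 ≤ 1 / (p : ℝ) := by positivity
    linarith

theorem Vp_succ {n : ℕ} (hn : 2 ≤ n) :
    Vp (n + 1) = Vp n - (if n.Prime then Vp n / n else 0) := by
  unfold Vp Pr
  rw [Finset.prod_filter, Finset.prod_filter, Finset.prod_Ico_succ_top hn]
  split_ifs
  · ring
  · ring

theorem Vp_tele {a n : ℕ} (ha : 2 ≤ a) (han : a ≤ n) :
    ∑ k ∈ Ico a n, (if k.Prime then Vp k / k else 0) = Vp a - Vp n := by
  induction n, han using Nat.le_induction with
  | base => simp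
  | succ n hn ih =>
    rw [Finset.sum_Ico_succ_top hn, ih, Vp_succ (le_trans ha hn)]
    ring

theorem loglog_deriv {x : ℝ} (hx : 2 ≤ x) :
    HasDerivAt (fun x => Real.log (Real.log x)) (1 / (x * Real.log x)) x := by
  have hl : 0 < Real.log x := by linarith [half_le_log hx]
  have hx0 : 0 < x := by linarith
  have h := (Real.hasDerivAt_log hx0.ne').log hl.ne'
  convert h using 1
  field_simp

theorem inv_log_deriv (c : ℝ) {x : ℝ} (hx : 2 ≤ x) :
    HasDerivAt (fun x => -(c / Real.log x)) (c / (x * Real.log x ^ 2)) x := by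
  have hl : 0 < Real.log x := by linarith [half_le_log hx]
  have hx0 : 0 < x := by linarith
  have h := ((hasDerivAt_const x c).div (Real.hasDerivAt_log hx0.ne') hl.ne').neg
  refine HasDerivAt.congr_deriv h ?_
  field_simp
  ring

theorem contOn (c : ℝ) (k : ℕ) {a b : ℝ} (ha : 2 ≤ a) :
    ContinuousOn (fun x : ℝ => c / (x * Real.log x ^ k)) (Set.Icc a b) := by
  have h0 : ∀ x ∈ Set.Icc a b, x ≠ 0 := fun x hx => by
    have : 0 < x := by linarith [hx.1]
    exact this.ne'
  refine continuousOn_const.div (continuousOn_id.mul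
    ((Real.continuousOn_log.mono fun x hx => h0 x hx).pow k)) fun x hx => ?_
  have hl : 0 < Real.log x := by linarith [half_le_log (le_trans ha hx.1)]
  exact mul_ne_zero (h0 x hx) (pow_ne_zero k hl.ne')

end PSumB

open Classical in
/-- `halve` with `wt = 1_{prime}/n`, `ν = log log`, `g x = φ (t / log x)`, and the substitution `u = t / log x`
(`dx/(x log x) = -du/u`). Let `Y = exp(t/σ) ≤ y`. If `Y < w` both sides vanish. Otherwise apply `halve` on
`[w, ⌊Y⌋]` (the primes counted are those `< ⌊Y⌋` and possibly `⌊Y⌋`; the missing term and the integral over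
`[⌊Y⌋, Y]` are `≤ φ(σ)/⌊Y⌋`-size; `t / log ⌊Y⌋ ≥ σ`, and `x³ e^{-μ x} ≤ K σ³ e^{-μ σ}` for `x ≥ σ ≥ 1`). -/
theorem psum1 (hM : MerStmt) : ∃ K : ℝ, 0 < K ∧ ∀ (μ t σ A : ℝ) (φ : ℝ → ℝ) (w y : ℕ),
    1 ≤ μ → 2 ≤ w → w ≤ y → Real.log y ≤ t → t / Real.log y ≤ σ → AntitoneOn φ (Set.Ici σ) →
    (∀ u, σ ≤ u → 0 ≤ φ u ∧ φ u ≤ A * Real.exp (-μ * u)) →
    |∑ p ∈ (Pr w y).filter (fun p : ℕ => σ ≤ t / Real.log p), φ (t / Real.log p) / p -
        ∫ u in Set.Ioc σ (t / Real.log w), φ u / u| ≤ K * A * σ ^ 3 * Real.exp (-μ * σ) / t ^ 3 := by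
  obtain ⟨K0, hK0, hH⟩ := halve
  obtain ⟨K, c, hc, hK, hM⟩ := hM
  refine ⟨8 * (K0 * (K + 6) + 18), by positivity, ?_⟩
  intro μ t σ A φ w y hμ hw hwy hyt hσ hφ hb
  have hw' : (2 : ℝ) ≤ w := by exact_mod_cast hw
  have hy' : (2 : ℝ) ≤ y := by exact_mod_cast le_trans hw hwy
  have hly : 0 < Real.log y := by linarith [PSumB.half_le_log hy']
  have ht : 0 < t := lt_of_lt_of_le hly hyt
  have hσ0 : 0 < σ := lt_of_lt_of_le (div_pos ht hly) hσ
  have hE : 0 ≤ A * Real.exp (-μ * σ) := le_trans (hb σ le_rfl).1 (hb σ le_rfl).2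
  have hA : 0 ≤ A := nonneg_of_mul_nonneg_left hE (Real.exp_pos _)
  have hbE : ∀ u, σ ≤ u → A * Real.exp (-μ * u) ≤ A * Real.exp (-μ * σ) := fun u hu =>
    mul_le_mul_of_nonneg_left (Real.exp_le_exp.2 (by nlinarith)) hA
  obtain ⟨y1, hy1⟩ : ∃ y1 : ℕ, y1 = ⌊Real.exp (t / σ)⌋₊ := ⟨_, rfl⟩
  have hiff : ∀ p : ℕ, 2 ≤ p → (σ ≤ t / Real.log p ↔ p ≤ y1) := by
    intro p hp
    have hp' : (2 : ℝ) ≤ p := by exact_mod_cast hp
    have hl : 0 < Real.log p := by linarith [PSumB.half_le_log hp']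
    rw [hy1, Nat.le_floor_iff (Real.exp_pos _).le, ← Real.log_le_iff_le_exp (by linarith),
      le_div_iff₀ hl, le_div_iff₀ hσ0, mul_comm]
  by_cases hcase : y1 < w
  · have h1 : (Pr w y).filter (fun p : ℕ => σ ≤ t / Real.log p) = ∅ := by
      rw [Finset.filter_eq_empty_iff]
      intro p hp
      have h2 := (PSumB.mem_Pr.1 hp).1.1
      rw [hiff p (le_trans hw h2)]
      omega
    have h2 : Set.Ioc σ (t / Real.log w) = ∅ := by
      apply Set.Ioc_eq_empty
      intro h
      have := (hiff w hw).1 h.le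
      omega
    rw [h1, h2, Finset.sum_empty, Measure.restrict_empty, integral_zero_measure, sub_zero, abs_zero]
    positivity
  have hwy1 : w ≤ y1 := not_lt.1 hcase
  have hy12 : 2 ≤ y1 := le_trans hw hwy1
  have hy1' : (2 : ℝ) ≤ y1 := by exact_mod_cast hy12
  have hL : 1 / 2 ≤ Real.log y1 := PSumB.half_le_log hy1'
  have hL0 : 0 < Real.log y1 := by linarith
  have hs1 : σ ≤ t / Real.log y1 := (hiff y1 hy12).2 le_rfl
  have hy1y : y1 ≤ y := by
    rw [hy1]
    apply Nat.floor_le_of_le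
    rw [← Real.le_log_iff_exp_le (by linarith), div_le_iff₀ hσ0]
    rw [div_le_iff₀ hly] at hσ
    linarith
  have hy1t : Real.log y1 ≤ t :=
    le_trans (Real.log_le_log (by linarith) (by exact_mod_cast hy1y)) hyt
  -- `τ = t / σ ≤ log y1 + 1 / y1`
  have hτ : t / σ ≤ Real.log y1 + 1 / y1 := by
    have h1 : Real.exp (t / σ) < (y1 : ℝ) + 1 := by
      rw [hy1]
      exact Nat.lt_floor_add_one _
    have h2 : t / σ ≤ Real.log ((y1 : ℝ) + 1) :=
      (Real.le_log_iff_exp_le (by linarith)).2 h1.le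
    have h3 : Real.log ((y1 : ℝ) + 1) = Real.log y1 + Real.log (1 + 1 / y1) := by
      rw [← Real.log_mul (by positivity) (by positivity)]
      congr 1
      field_simp
    have h4 : Real.log (1 + 1 / (y1 : ℝ)) ≤ 1 + 1 / y1 - 1 :=
      Real.log_le_sub_one_of_pos (by positivity)
    linarith
  have hinv : 1 / (y1 : ℝ) ≤ 6 / Real.log y1 ^ 3 := PSumB.inv_le hy1'
  have hcube : 1 / Real.log y1 ^ 3 ≤ 8 * σ ^ 3 / t ^ 3 := by
    have h1 : 1 / (y1 : ℝ) ≤ 1 / 2 := one_div_le_one_div_of_le (by norm_num) hy1'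
    have h2 : t / σ ≤ 2 * Real.log y1 := by linarith
    rw [div_le_iff₀ hσ0] at h2
    rw [div_le_div_iff₀ (by positivity) (by positivity)]
    have h3 : t ^ 3 ≤ (2 * Real.log y1 * σ) ^ 3 := pow_le_pow_left₀ ht.le h2 3
    calc 1 * t ^ 3 = t ^ 3 := one_mul _
      _ ≤ (2 * Real.log y1 * σ) ^ 3 := h3
      _ = 8 * σ ^ 3 * Real.log y1 ^ 3 := by ring
  -- the estimate from `halve`
  have hmer : ∀ a n : ℕ, 2 ≤ a → a ≤ n →
      |∑ k ∈ Ico a n, (if k.Prime then 1 / (k : ℝ) else 0) -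
        (Real.log (Real.log n) - Real.log (Real.log a))| ≤ K / Real.log a ^ 3 := by
    intro a n ha han
    have ha' : (2 : ℝ) ≤ a := by exact_mod_cast ha
    have hn' : (2 : ℝ) ≤ n := by exact_mod_cast le_trans ha han
    have h1 : 0 < Real.log a := by linarith [PSumB.half_le_log ha']
    have h2 : 0 < Real.log n := by linarith [PSumB.half_le_log hn']
    rw [PSumB.sum_wt (fun k => 1 / (k : ℝ)), ← Real.log_div h2.ne' h1.ne']
    exact (hM a n ha han).1
  have h1 := hH (fun k => if k.Prime then 1 / (k : ℝ) else 0) (fun x => Real.log (Real.log x))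
    (fun x => 1 / (x * Real.log x ^ 1)) (fun x => φ (t / Real.log x)) w y1 μ t A (K + 6) hw hwy1 hμ
    hy1t (by linarith)
    (fun x hx => by
      rw [pow_one]
      exact PSumB.loglog_deriv (le_trans hw' hx.1))
    (PSumB.contOn 1 1 hw')
    (fun x hx => by
      have hx2 : 2 ≤ x := le_trans hw' hx.1
      have hl : 0 < Real.log x := by linarith [PSumB.half_le_log hx2]
      have hx0 : 0 < x := by linarith
      positivity)
    (fun a n ha han _ => by
      have ha' : (2 : ℝ) ≤ a := by exact_mod_cast le_trans hw ha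
      have hl : 0 < Real.log a := by linarith [PSumB.half_le_log ha']
      refine le_trans (hmer a n (le_trans hw ha) han) ?_
      exact div_le_div_of_nonneg_right (by linarith) (by positivity))
    (fun n hn _ => by
      have hn' : (2 : ℝ) ≤ n := by exact_mod_cast le_trans hw hn
      have h2 := hmer n (n + 1) (le_trans hw hn) (Nat.le_succ n)
      rw [Nat.Ico_succ_singleton, Finset.sum_singleton] at h2
      push_cast at h2
      have h3 := (abs_le.1 h2).1
      have h4 : (if n.Prime then 1 / (n : ℝ) else 0) ≤ 6 / Real.log n ^ 3 := by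
        refine le_trans ?_ (PSumB.inv_le hn')
        split_ifs
        · exact le_rfl
        · positivity
      rw [add_div]
      linarith)
    (PSumB.mono hw ht.le hs1 hφ)
    (fun x hx => hb _ (PSumB.low hw ht.le hs1 hx))
  rw [PSumB.sum_wt_mul (fun k => 1 / (k : ℝ)) (fun k => φ (t / Real.log k))] at h1
  have hsum : ∑ p ∈ Pr w y1, 1 / (p : ℝ) * φ (t / Real.log p) =
      ∑ p ∈ Pr w y1, φ (t / Real.log p) / p :=
    Finset.sum_congr rfl fun p _ => by ring
  have hint : ∫ x in (w : ℝ)..y1, φ (t / Real.log x) * (1 / (x * Real.log x ^ 1)) =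
      ∫ u in (t / Real.log y1)..(t / Real.log w), φ u / u := by
    rw [← PSumB.subst ht.le (by linarith) (by exact_mod_cast hwy1) (fun u => φ u / u)]
    refine intervalIntegral.integral_congr fun x hx => ?_
    rw [Set.uIcc_of_le (by exact_mod_cast hwy1)] at hx
    have hx2 : 2 ≤ x := le_trans hw' hx.1
    have hl : 0 < Real.log x := by linarith [PSumB.half_le_log hx2]
    have hx0 : 0 < x := by linarith
    show φ (t / Real.log x) * (1 / (x * Real.log x ^ 1)) =
      φ (t / Real.log x) / (t / Real.log x) * (t / (x * Real.log x ^ 2))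
    field_simp
  rw [hsum, hint] at h1
  -- the missing term
  have hf0 : ∀ p : ℕ, 2 ≤ p → p ≤ y1 → 0 ≤ φ (t / Real.log p) / p := fun p hp hp1 =>
    div_nonneg (hb _ ((hiff p hp).2 hp1)).1 (Nat.cast_nonneg p)
  have h2a : ∑ p ∈ Pr w y1, φ (t / Real.log p) / p ≤
      ∑ p ∈ (Pr w y).filter (fun p : ℕ => σ ≤ t / Real.log p), φ (t / Real.log p) / p := by
    refine Finset.sum_le_sum_of_subset_of_nonneg (fun p hp => ?_) (fun p hp _ => ?_)
    · obtain ⟨⟨h3, h4⟩, h5⟩ := PSumB.mem_Pr.1 hp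
      exact Finset.mem_filter.2 ⟨PSumB.mem_Pr.2 ⟨⟨h3, by omega⟩, h5⟩,
        (hiff p (by omega)).2 h4.le⟩
    · obtain ⟨h3, h4⟩ := Finset.mem_filter.1 hp
      have h5 : 2 ≤ p := le_trans hw (PSumB.mem_Pr.1 h3).1.1
      exact hf0 p h5 ((hiff p h5).1 h4)
  have h2b : ∑ p ∈ (Pr w y).filter (fun p : ℕ => σ ≤ t / Real.log p), φ (t / Real.log p) / p ≤
      φ (t / Real.log y1) / y1 + ∑ p ∈ Pr w y1, φ (t / Real.log p) / p := by
    have hn : y1 ∉ Pr w y1 := fun h => lt_irrefl _ (PSumB.mem_Pr.1 h).1.2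
    rw [← Finset.sum_insert (f := fun p : ℕ => φ (t / Real.log p) / p) hn]
    refine Finset.sum_le_sum_of_subset_of_nonneg (fun p hp => ?_) (fun p hp _ => ?_)
    · obtain ⟨h3, h4⟩ := Finset.mem_filter.1 hp
      obtain ⟨⟨h5, h6⟩, h7⟩ := PSumB.mem_Pr.1 h3
      have h8 := (hiff p (by omega)).1 h4
      rcases h8.eq_or_lt with h9 | h9
      · exact Finset.mem_insert.2 (Or.inl h9)
      · exact Finset.mem_insert.2 (Or.inr (PSumB.mem_Pr.2 ⟨⟨h5, h9⟩, h7⟩))
    · rcases Finset.mem_insert.1 hp with h3 | h3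
      · rw [h3]
        exact hf0 y1 hy12 le_rfl
      · obtain ⟨⟨h5, h6⟩, h7⟩ := PSumB.mem_Pr.1 h3
        exact hf0 p (by omega) h6.le
  have h2c : φ (t / Real.log y1) / y1 ≤ A * Real.exp (-μ * σ) * (6 / Real.log y1 ^ 3) := by
    rw [div_eq_mul_one_div]
    exact mul_le_mul (le_trans (hb _ hs1).2 (hbE _ hs1)) hinv (by positivity) hE
  -- the missing piece of the integral
  have hs2 : t / Real.log y1 ≤ t / Real.log w :=
    PSumB.low (w := w) (y := y1) hw ht.le le_rfl ⟨le_rfl, by exact_mod_cast hwy1⟩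
  have hanti : AntitoneOn (fun u => φ u / u) (Set.Ici σ) := by
    intro u hu v hv huv
    have hu0 : 0 < u := lt_of_lt_of_le hσ0 hu
    exact div_le_div₀ (hb u hu).1 (hφ hu hv huv) hu0 huv
  have hii : ∀ a b : ℝ, σ ≤ a → a ≤ b → IntervalIntegrable (fun u => φ u / u) volume a b := by
    intro a b ha hab
    refine AntitoneOn.intervalIntegrable (hanti.mono ?_)
    rw [Set.uIcc_of_le hab]
    exact fun u hu => le_trans ha hu.1
  have h3a : ∫ u in Set.Ioc σ (t / Real.log w), φ u / u =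
      (∫ u in σ..(t / Real.log y1), φ u / u) +
        ∫ u in (t / Real.log y1)..(t / Real.log w), φ u / u := by
    rw [intervalIntegral.integral_add_adjacent_intervals (hii _ _ le_rfl hs1) (hii _ _ hs1 hs2),
      intervalIntegral.integral_of_le (le_trans hs1 hs2)]
  have h3b : 0 ≤ ∫ u in σ..(t / Real.log y1), φ u / u :=
    intervalIntegral.integral_nonneg hs1 fun u hu =>
      div_nonneg (hb u hu.1).1 (le_trans hσ0.le hu.1)
  have h3c : ∫ u in σ..(t / Real.log y1), φ u / u ≤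
      A * Real.exp (-μ * σ) * (12 / Real.log y1 ^ 3) := by
    have h4 : ∫ u in σ..(t / Real.log y1), φ u / u ≤
        ∫ _u in σ..(t / Real.log y1), A * Real.exp (-μ * σ) / σ :=
      intervalIntegral.integral_mono_on hs1 (hii _ _ le_rfl hs1) intervalIntegrable_const
        fun u hu => div_le_div₀ hE (le_trans (hb u hu.1).2 (hbE u hu.1)) hσ0 hu.1
    rw [intervalIntegral.integral_const, smul_eq_mul] at h4
    have h5 : (t / Real.log y1 - σ) / σ ≤ 12 / Real.log y1 ^ 3 := by
      have h6 : (t / Real.log y1 - σ) / σ = (t / σ - Real.log y1) / Real.log y1 := by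
        field_simp
      have h7 : (t / σ - Real.log y1) / Real.log y1 ≤ (1 / y1) / (1 / 2) :=
        div_le_div₀ (by positivity) (by linarith) (by norm_num) hL
      have h8 : (1 / (y1 : ℝ)) / (1 / 2) = 2 * (1 / y1) := by ring
      have h9 : 12 / Real.log y1 ^ 3 = 2 * (6 / Real.log y1 ^ 3) := by ring
      rw [h6, h9]
      linarith
    calc _ ≤ _ := h4
      _ = A * Real.exp (-μ * σ) * ((t / Real.log y1 - σ) / σ) := by ring
      _ ≤ _ := mul_le_mul_of_nonneg_left h5 hE
  have h1' : K0 * A * (K + 6) * Real.exp (-μ * (t / Real.log y1)) / Real.log y1 ^ 3 ≤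
      A * Real.exp (-μ * σ) * (K0 * (K + 6) / Real.log y1 ^ 3) := by
    have h4 : K0 * A * (K + 6) * Real.exp (-μ * (t / Real.log y1)) / Real.log y1 ^ 3 =
        A * Real.exp (-μ * (t / Real.log y1)) * (K0 * (K + 6) / Real.log y1 ^ 3) := by ring
    rw [h4]
    exact mul_le_mul_of_nonneg_right (hbE _ hs1) (by positivity)
  have hfin : A * Real.exp (-μ * σ) * (K0 * (K + 6) / Real.log y1 ^ 3) +
      A * Real.exp (-μ * σ) * (6 / Real.log y1 ^ 3) +
      A * Real.exp (-μ * σ) * (12 / Real.log y1 ^ 3) ≤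
      8 * (K0 * (K + 6) + 18) * A * σ ^ 3 * Real.exp (-μ * σ) / t ^ 3 := by
    calc _ = (A * Real.exp (-μ * σ) * (K0 * (K + 6) + 18)) * (1 / Real.log y1 ^ 3) := by ring
      _ ≤ (A * Real.exp (-μ * σ) * (K0 * (K + 6) + 18)) * (8 * σ ^ 3 / t ^ 3) :=
        mul_le_mul_of_nonneg_left hcube (by positivity)
      _ = _ := by ring
  have h6 : 0 ≤ A * Real.exp (-μ * σ) * (6 / Real.log y1 ^ 3) := by positivity
  have h12 : 0 ≤ A * Real.exp (-μ * σ) * (12 / Real.log y1 ^ 3) := by positivity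
  obtain ⟨h1a, h1b⟩ := abs_le.1 h1
  rw [h3a, abs_le]
  constructor <;> linarith

/-- `halve` with `wt = 1_{prime} Vp n / n` (`∑_{y₁ ≤ p < n} Vp p / p = Vp y₁ - Vp n`), `ν x = -c / log x` with
`c = Vp y log y`, `w = 2`; `c dx/(x log² x) = -(c/t) du`; the tail `u > t / log 2` is negligible. -/
theorem psum2 (hM : MerStmt) : ∃ K : ℝ, 0 < K ∧ ∀ (μ t A : ℝ) (φ : ℝ → ℝ) (y : ℕ),
    1 ≤ μ → 2 ≤ y → Real.log y ≤ t → AntitoneOn φ (Set.Ici (t / Real.log y)) →
    (∀ u, t / Real.log y ≤ u → 0 ≤ φ u ∧ φ u ≤ A * Real.exp (-μ * u)) →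
    |∑ p ∈ Pr 2 y, Vp p * φ (t / Real.log p) / p -
        Vp y * (∫ u in Set.Ioi (t / Real.log y), φ u) / (t / Real.log y)| ≤
      K * A * Real.exp (-μ * (t / Real.log y)) / Real.log y ^ 3 := by
  obtain ⟨K0, hK0, hH⟩ := halve
  obtain ⟨K, c0, hc0, hK, hM⟩ := hM
  refine ⟨K0 * (4 * K + 6) + 8 * K, by positivity, ?_⟩
  intro μ t A φ y hμ hy hyt hφ hb
  have hy' : (2 : ℝ) ≤ y := by exact_mod_cast hy
  have hL : 1 / 2 ≤ Real.log y := PSumB.half_le_log hy'
  have hly : 0 < Real.log y := by linarith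
  have ht : 0 < t := lt_of_lt_of_le hly hyt
  have hw' : (2 : ℝ) ≤ ((2 : ℕ) : ℝ) := by norm_num
  obtain ⟨s, hs⟩ : ∃ s : ℝ, s = t / Real.log y := ⟨_, rfl⟩
  obtain ⟨c, hc⟩ : ∃ c : ℝ, c = Vp y * Real.log y := ⟨_, rfl⟩
  rw [← hs] at hφ hb ⊢
  have hs0 : 0 < s := by rw [hs]; positivity
  have hc1 : 0 ≤ c := by rw [hc]; exact mul_nonneg (PSumB.Vp_nonneg y) hly.le
  have hcK : c ≤ K := by rw [hc]; exact (hM 2 y le_rfl hy).2.2.2
  have hE : 0 ≤ A * Real.exp (-μ * s) := le_trans (hb s le_rfl).1 (hb s le_rfl).2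
  have hA : 0 ≤ A := nonneg_of_mul_nonneg_left hE (Real.exp_pos _)
  have hV : ∀ a : ℕ, 2 ≤ a → a ≤ y → |Vp a - c / Real.log a| ≤ 2 * K / Real.log a ^ 3 := by
    intro a ha hay
    have ha' : (2 : ℝ) ≤ a := by exact_mod_cast ha
    have h1 : 1 / 2 ≤ Real.log a := PSumB.half_le_log ha'
    have h2 : 0 < Real.log a := by linarith
    have h3 := (hM a y ha hay).2.1
    rw [← hc, abs_sub_comm] at h3
    have h4 : Vp a - c / Real.log a = (Vp a * Real.log a - c) / Real.log a := by
      field_simp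
    rw [h4, abs_div, abs_of_pos h2]
    calc |Vp a * Real.log a - c| / Real.log a ≤ (K / Real.log a ^ 3) / (1 / 2) :=
          div_le_div₀ (by positivity) h3 (by norm_num) h1
      _ = 2 * K / Real.log a ^ 3 := by ring
  have hmer : ∀ a n : ℕ, 2 ≤ a → a ≤ n → n ≤ y →
      |∑ k ∈ Ico a n, (if k.Prime then Vp k / (k : ℝ) else 0) -
        (-(c / Real.log n) - -(c / Real.log a))| ≤ 4 * K / Real.log a ^ 3 := by
    intro a n ha han hny
    have ha' : (2 : ℝ) ≤ a := by exact_mod_cast ha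
    have h1 : 0 < Real.log a := by linarith [PSumB.half_le_log ha']
    have h2 : Real.log a ≤ Real.log n := Real.log_le_log (by linarith) (by exact_mod_cast han)
    have h3 : 2 * K / Real.log n ^ 3 ≤ 2 * K / Real.log a ^ 3 :=
      div_le_div_of_nonneg_left (by positivity) (by positivity) (pow_le_pow_left₀ h1.le h2 3)
    obtain ⟨h4, h5⟩ := abs_le.1 (hV a ha (le_trans han hny))
    obtain ⟨h6, h7⟩ := abs_le.1 (hV n (le_trans ha han) hny)
    have h8 : 4 * K / Real.log a ^ 3 = 2 * K / Real.log a ^ 3 + 2 * K / Real.log a ^ 3 := by ring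
    rw [PSumB.Vp_tele ha han, h8, abs_le]
    constructor <;> linarith
  have h1 := hH (fun k => if k.Prime then Vp k / (k : ℝ) else 0) (fun x => -(c / Real.log x))
    (fun x => c / (x * Real.log x ^ 2)) (fun x => φ (t / Real.log x)) 2 y μ t A (4 * K + 6) le_rfl hy
    hμ hyt (by linarith)
    (fun x hx => PSumB.inv_log_deriv c (le_trans hw' hx.1))
    (PSumB.contOn c 2 hw')
    (fun x hx => by
      have hx2 : 2 ≤ x := le_trans hw' hx.1
      have hx0 : 0 < x := by linarith
      positivity)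
    (fun a n ha han hny => by
      have ha' : (2 : ℝ) ≤ a := by exact_mod_cast ha
      have hl : 0 < Real.log a := by linarith [PSumB.half_le_log ha']
      refine le_trans (hmer a n ha han hny) ?_
      exact div_le_div_of_nonneg_right (by linarith) (by positivity))
    (fun n hn hny => by
      have hn' : (2 : ℝ) ≤ n := by exact_mod_cast hn
      have h2 := hmer n (n + 1) hn (Nat.le_succ n) hny
      rw [Nat.Ico_succ_singleton, Finset.sum_singleton] at h2
      push_cast at h2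
      have h3 := (abs_le.1 h2).1
      have h4 : (if n.Prime then Vp n / (n : ℝ) else 0) ≤ 6 / Real.log n ^ 3 := by
        refine le_trans ?_ (PSumB.inv_le hn')
        split_ifs
        · exact div_le_div_of_nonneg_right (PSumB.Vp_le_one n) (by linarith)
        · positivity
      rw [add_div]
      linarith)
    (PSumB.mono le_rfl ht.le hs.le hφ)
    (fun x hx => hb _ (PSumB.low le_rfl ht.le hs.le hx))
  rw [PSumB.sum_wt_mul (fun k => Vp k / (k : ℝ)) (fun k => φ (t / Real.log k)), ← hs] at h1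
  have hsum : ∑ p ∈ Pr 2 y, Vp p / (p : ℝ) * φ (t / Real.log p) =
      ∑ p ∈ Pr 2 y, Vp p * φ (t / Real.log p) / p :=
    Finset.sum_congr rfl fun p _ => by ring
  obtain ⟨T, hT⟩ : ∃ T : ℝ, T = t / Real.log ((2 : ℕ) : ℝ) := ⟨_, rfl⟩
  have h2y : ((2 : ℕ) : ℝ) ≤ y := by exact_mod_cast hy
  have hint : ∫ x in ((2 : ℕ) : ℝ)..y, φ (t / Real.log x) * (c / (x * Real.log x ^ 2)) =
      c / t * ∫ u in s..T, φ u := by
    rw [hs, hT, ← PSumB.subst ht.le (by linarith) h2y φ, ← intervalIntegral.integral_const_mul]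
    refine intervalIntegral.integral_congr fun x hx => ?_
    rw [Set.uIcc_of_le h2y] at hx
    have hx2 : 2 ≤ x := le_trans hw' hx.1
    have hl : 0 < Real.log x := by linarith [PSumB.half_le_log hx2]
    have hx0 : 0 < x := by linarith
    show φ (t / Real.log x) * (c / (x * Real.log x ^ 2)) =
      c / t * (φ (t / Real.log x) * (t / (x * Real.log x ^ 2)))
    field_simp
  rw [hsum, hint] at h1
  have hsT : s ≤ T := by
    rw [hT]
    exact PSumB.low (w := 2) (y := y) le_rfl ht.le hs.le ⟨le_rfl, h2y⟩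
  have hμ0 : 0 < μ := by linarith
  have hexp : ∀ a : ℝ, IntegrableOn (fun u => A * Real.exp (-μ * u)) (Set.Ioi a) := fun a =>
    (exp_neg_integrableOn_Ioi a hμ0).const_mul A
  have hI : IntegrableOn φ (Set.Ioi s) := by
    refine Integrable.mono' (hexp s)
      (aemeasurable_restrict_of_antitoneOn measurableSet_Ioi
        (hφ.mono Set.Ioi_subset_Ici_self)).aestronglyMeasurable ?_
    refine (ae_restrict_iff' measurableSet_Ioi).2 (Filter.Eventually.of_forall fun u hu => ?_)
    rw [Real.norm_eq_abs, abs_of_nonneg (hb u (le_of_lt hu)).1]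
    exact (hb u (le_of_lt hu)).2
  have hsplit := intervalIntegral.integral_Ioi_sub_Ioi hI hsT
  have hT0 : 0 ≤ ∫ u in Set.Ioi T, φ u :=
    setIntegral_nonneg measurableSet_Ioi fun u hu => (hb u (le_trans hsT (le_of_lt hu))).1
  have hT1 : ∫ u in Set.Ioi T, φ u ≤ A * Real.exp (-μ * T) := by
    have h2 : ∫ u in Set.Ioi T, φ u ≤ ∫ u in Set.Ioi T, A * Real.exp (-μ * u) :=
      setIntegral_mono_on (hI.mono_set (Set.Ioi_subset_Ioi hsT)) (hexp T) measurableSet_Ioi
        fun u hu => (hb u (le_trans hsT (le_of_lt hu))).2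
    rw [integral_const_mul, integral_exp_mul_Ioi (by linarith) T, neg_div_neg_eq] at h2
    refine le_trans h2 (mul_le_mul_of_nonneg_left ?_ hA)
    exact div_le_self (Real.exp_pos _).le hμ
  have hT2 : Real.exp (-μ * T) / t ≤ 8 * Real.exp (-μ * s) / Real.log y ^ 3 := by
    have h2 : Real.log y ^ 2 * Real.exp (-μ * T) ≤ 8 * Real.exp (-μ * s) := by
      by_cases h3 : Real.log y ≤ 2
      · have h4 : Real.log y ^ 2 ≤ 8 := by nlinarith
        exact mul_le_mul h4 (Real.exp_le_exp.2 (by nlinarith)) (Real.exp_pos _).le (by norm_num)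
      · have h4 : 2 < Real.log y := not_le.1 h3
        have h5 : s ≤ t / 2 := by
          rw [hs]
          exact div_le_div_of_nonneg_left ht.le (by norm_num) h4.le
        have h6 : t ≤ T := by
          rw [hT]
          have h7 : Real.log ((2 : ℕ) : ℝ) ≤ 1 := by
            have := Real.log_le_sub_one_of_pos (x := ((2 : ℕ) : ℝ)) (by norm_num)
            push_cast at this ⊢
            linarith
          exact le_div_self ht.le (lt_of_lt_of_le (by norm_num) (PSumB.half_le_log hw')) h7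
        have h7 : Real.log y / 2 ≤ μ * (T - s) := by nlinarith
        have h8 := Real.pow_div_factorial_le_exp (Real.log y / 2) (by positivity) 2
        have h9 : ((Nat.factorial 2 : ℕ) : ℝ) = 2 := by norm_num [Nat.factorial]
        rw [h9] at h8
        have h10 : Real.log y ^ 2 ≤ 8 * Real.exp (μ * (T - s)) := by
          have := Real.exp_le_exp.2 h7
          nlinarith
        have h11 : Real.exp (μ * (T - s)) * Real.exp (-μ * T) = Real.exp (-μ * s) := by
          rw [← Real.exp_add]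
          congr 1
          ring
        calc Real.log y ^ 2 * Real.exp (-μ * T)
            ≤ 8 * Real.exp (μ * (T - s)) * Real.exp (-μ * T) :=
              mul_le_mul_of_nonneg_right h10 (Real.exp_pos _).le
          _ = 8 * Real.exp (-μ * s) := by rw [mul_assoc, h11]
    calc Real.exp (-μ * T) / t ≤ Real.exp (-μ * T) / Real.log y :=
          div_le_div_of_nonneg_left (Real.exp_pos _).le hly hyt
      _ = Real.log y ^ 2 * Real.exp (-μ * T) / Real.log y ^ 3 := by field_simp
      _ ≤ _ := div_le_div_of_nonneg_right h2 (by positivity)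
  have hT3 : c / t * ∫ u in Set.Ioi T, φ u ≤
      8 * K * A * Real.exp (-μ * s) / Real.log y ^ 3 := by
    calc c / t * ∫ u in Set.Ioi T, φ u ≤ K / t * (A * Real.exp (-μ * T)) :=
          mul_le_mul (div_le_div_of_nonneg_right hcK ht.le) hT1 hT0 (by positivity)
      _ = K * A * (Real.exp (-μ * T) / t) := by ring
      _ ≤ K * A * (8 * Real.exp (-μ * s) / Real.log y ^ 3) :=
          mul_le_mul_of_nonneg_left hT2 (by positivity)
      _ = _ := by ring
  have hT4 : 0 ≤ c / t * ∫ u in Set.Ioi T, φ u := mul_nonneg (div_nonneg hc1 ht.le) hT0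
  have hmain : Vp y * (∫ u in Set.Ioi s, φ u) / s =
      (c / t * ∫ u in s..T, φ u) + c / t * ∫ u in Set.Ioi T, φ u := by
    have h2 : Vp y * (∫ u in Set.Ioi s, φ u) / s = c / t * ∫ u in Set.Ioi s, φ u := by
      generalize (∫ u in Set.Ioi s, φ u) = J
      rw [hc, hs]
      field_simp
    rw [h2, ← hsplit]
    ring
  have hsp : (K0 * (4 * K + 6) + 8 * K) * A * Real.exp (-μ * s) / Real.log y ^ 3 =
      K0 * A * (4 * K + 6) * Real.exp (-μ * s) / Real.log y ^ 3 +
        8 * K * A * Real.exp (-μ * s) / Real.log y ^ 3 := by ring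
  obtain ⟨h1a, h1b⟩ := abs_le.1 h1
  rw [hmain, hsp, abs_le]
  constructor <;> linarith

end Crest.Agent.R1
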