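import Crest.Agent.R1.QFunA

/-! Row 1: existence of the sieve functions. -/

set_option autoImplicit false

namespace Crest.Agent.R1
open Finset MeasureTheory Filter

namespace QFun

open Topology

theorem int_of_le {f : ℝ → ℝ} {c K r : ℝ} (hr : 0 < r)
    (hm : AEStronglyMeasurable f (volume.restrict (Set.Ioi c)))
    (h : ∀ u, c < u → |f u| ≤ K * Real.exp (-r * u)) : IntegrableOn f (Set.Ioi c) :=
  Integrable.mono' ((exp_neg_integrableOn_Ioi c hr).const_mul K) hm
    ((ae_restrict_iff' measurableSet_Ioi).2 (Eventually.of_forall h))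

theorem int_mul {f : ℝ → ℝ} {K : ℝ} (hm : Measurable f) (h0 : ∀ u, 0 ≤ f u)
    (h : ∀ u, 1 ≤ u → f u ≤ K * Real.exp (-3 * u)) :
    IntegrableOn (fun u => u * f u) (Set.Ioi 1) := by
  refine int_of_le (K := K) two_pos (measurable_id.mul hm).aestronglyMeasurable fun u hu => ?_
  have h1 : u ≤ Real.exp u := by linarith [Real.add_one_le_exp u]
  have h2 : Real.exp (-2 * u) = Real.exp u * Real.exp (-3 * u) := by
    rw [← Real.exp_add]; ring_nf
  rw [abs_of_nonneg (mul_nonneg (by linarith) (h0 u)), h2]
  calc u * f u ≤ Real.exp u * (K * Real.exp (-3 * u)) :=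
        mul_le_mul h1 (h u hu.le) (h0 u) (Real.exp_pos _).le
    _ = _ := by ring

/-- Fubini -/
theorem fub {f : ℝ → ℝ} (hm : Measurable f) (h0 : ∀ u, 0 ≤ f u)
    (hi : IntegrableOn (fun u => (u - 1) * f u) (Set.Ioi 1)) :
    ∫ s in Set.Ioi (2 : ℝ), ∫ u in Set.Ioi (s - 1), f u = ∫ u in Set.Ioi (1 : ℝ), (u - 1) * f u := by
  let F : ℝ → ℝ → ℝ := fun u s => if 2 < s ∧ s - 1 < u then f u else 0
  have hF : Measurable (Function.uncurry F) := by
    refine Measurable.ite ?_ (hm.comp measurable_fst) measurable_const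
    exact (measurableSet_lt measurable_const measurable_snd).inter
      (measurableSet_lt (measurable_snd.sub_const 1) measurable_fst)
  have h1 : ∀ u, F u = (Set.Ioo 2 (u + 1)).indicator fun _ => f u := fun u => by
    ext s
    simp only [F, Set.indicator, Set.mem_Ioo, sub_lt_iff_lt_add]
  have h2 : ∀ u, ∫ s, F u s = (Set.Ioi 1).indicator (fun u => (u - 1) * f u) u := fun u => by
    rw [h1, integral_indicator measurableSet_Ioo, setIntegral_const, Real.volume_real_Ioo,
      smul_eq_mul]
    by_cases hu : 1 < u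
    · rw [Set.indicator_of_mem (show u ∈ Set.Ioi (1 : ℝ) from hu), max_eq_left (by linarith)]
      ring
    · rw [Set.indicator_of_notMem (show u ∉ Set.Ioi (1 : ℝ) from hu), max_eq_right (by linarith),
        zero_mul]
  have h3 : ∀ s, ∫ u, F u s =
      (Set.Ioi 2).indicator (fun s => ∫ u in Set.Ioi (s - 1), f u) s := fun s => by
    by_cases hs : 2 < s
    · rw [Set.indicator_of_mem (show s ∈ Set.Ioi (2 : ℝ) from hs),
        ← integral_indicator measurableSet_Ioi]
      congr 1
      ext u
      simp only [F, hs, true_and, Set.indicator, Set.mem_Ioi]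
    · rw [Set.indicator_of_notMem (show s ∉ Set.Ioi (2 : ℝ) from hs)]
      simp only [F, hs, false_and, if_false, integral_zero]
  have h4 : Integrable (Function.uncurry F) (volume.prod volume) := by
    rw [integrable_prod_iff hF.aestronglyMeasurable]
    refine ⟨Eventually.of_forall fun u => ?_, ?_⟩
    · change Integrable (F u) volume
      rw [h1, integrable_indicator_iff measurableSet_Ioo]
      exact integrableOn_const (by simp)
    · have : (fun u => ∫ s, ‖Function.uncurry F (u, s)‖) =
          (Set.Ioi 1).indicator fun u => (u - 1) * f u := by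
        ext u
        rw [← h2]
        congr 1
        ext s
        refine Real.norm_of_nonneg ?_
        simp only [Function.uncurry, F]
        split_ifs
        · exact h0 u
        · exact le_rfl
      rw [this, integrable_indicator_iff measurableSet_Ioi]
      exact hi
  have h5 := integral_integral_swap h4
  simp only [h2, h3] at h5
  rw [integral_indicator measurableSet_Ioi, integral_indicator measurableSet_Ioi] at h5
  exact h5.symm

theorem int_pos {f : ℝ → ℝ} {c t : ℝ} (ha : Antitone f) (h0 : ∀ u, 0 ≤ f u)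
    (hi : IntegrableOn f (Set.Ioi c)) (hct : c < t) (ht : 0 < f t) :
    0 < ∫ u in Set.Ioi c, f u := by
  rw [setIntegral_pos_iff_support_of_nonneg_ae (Eventually.of_forall h0) hi]
  refine lt_of_lt_of_le ?_ (measure_mono (s := Set.Ioc c t) fun u hu =>
    ⟨(ht.trans_le (ha hu.2)).ne', hu.1⟩)
  simpa using hct

/-- the value of `∫_{u > 1} a` -/
theorem two {a b : ℝ → ℝ} {K : ℝ} (ham : Measurable a) (hbm : Measurable b) (ha0 : ∀ u, 0 ≤ a u)
    (hb0 : ∀ u, 0 ≤ b u) (haK : ∀ u, 1 ≤ u → a u ≤ K * Real.exp (-3 * u))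
    (hbK : ∀ u, 1 ≤ u → b u ≤ K * Real.exp (-3 * u))
    (hbi : ∀ c, IntegrableOn b (Set.Ioi c)) (hb1 : ∀ s, s ≤ 2 → b s = 1)
    (hae : ∀ s, 1 ≤ s → s * a s = ∫ u in Set.Ioi (s - 1), b u)
    (hbe : ∀ s, 2 < s → s * b s = ∫ u in Set.Ioi (s - 1), a u) :
    ∫ u in Set.Ioi (1 : ℝ), a u = 2 := by
  have hai : IntegrableOn a (Set.Ioi 1) :=
    int_of_le (K := K) three_pos ham.aestronglyMeasurable fun u hu => by
      rw [abs_of_nonneg (ha0 u)]; exact haK u hu.le
  have ia := int_mul ham ha0 haK
  have ib := int_mul hbm hb0 hbK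
  have sub : Set.Ioi (2 : ℝ) ⊆ Set.Ioi 1 := Set.Ioi_subset_Ioi one_le_two
  have key : ∀ f : ℝ → ℝ, Measurable f → (∀ u, 0 ≤ f u) → IntegrableOn f (Set.Ioi 1) →
      IntegrableOn (fun u => u * f u) (Set.Ioi 1) →
      ∫ s in Set.Ioi (2 : ℝ), ∫ u in Set.Ioi (s - 1), f u =
        (∫ u in (1 : ℝ)..2, u * f u) + (∫ u in Set.Ioi (2 : ℝ), u * f u) -
          ∫ u in Set.Ioi (1 : ℝ), f u := by
    intro f hm h0 h1 h2
    have e : (fun u => (u - 1) * f u) = fun u => u * f u - f u := by
      ext u; ring
    rw [fub hm h0 (by rw [e]; exact h2.sub h1), e, integral_sub h2 h1,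
      intervalIntegral.integral_interval_add_Ioi h2 (h2.mono_set sub)]
  have e1 := key a ham ha0 hai ia
  have e2 := key b hbm hb0 (hbi 1) ib
  have e3 : ∫ s in Set.Ioi (2 : ℝ), ∫ u in Set.Ioi (s - 1), a u =
      ∫ u in Set.Ioi (2 : ℝ), u * b u :=
    setIntegral_congr_fun measurableSet_Ioi fun s hs => (hbe s hs).symm
  have e4 : ∫ s in Set.Ioi (2 : ℝ), ∫ u in Set.Ioi (s - 1), b u =
      ∫ u in Set.Ioi (2 : ℝ), u * a u :=
    setIntegral_congr_fun measurableSet_Ioi fun s hs => (hae s (sub hs).le).symm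
  have e5 : ∫ u in (1 : ℝ)..2, u * b u = ∫ u in (1 : ℝ)..2, u := by
    refine intervalIntegral.integral_congr fun u hu => ?_
    rw [Set.uIcc_of_le one_le_two] at hu
    simp only [hb1 u hu.2, mul_one]
  have e6 : ∫ u in (1 : ℝ)..2, u * a u =
      ∫ u in (1 : ℝ)..2, ((2 + ∫ v in Set.Ioi (1 : ℝ), b v) - u) := by
    refine intervalIntegral.integral_congr fun u hu => ?_
    rw [Set.uIcc_of_le one_le_two] at hu
    have h1 : ∫ v in (u - 1)..1, b v = ∫ v in (u - 1)..1, (1 : ℝ) := by
      refine intervalIntegral.integral_congr fun v hv => ?_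
      rw [Set.uIcc_of_le (by linarith [hu.2])] at hv
      exact hb1 v (by linarith [hv.2])
    have h2 := intervalIntegral.integral_interval_add_Ioi (hbi (u - 1)) (hbi 1)
    rw [h1, intervalIntegral.integral_const, smul_eq_mul] at h2
    simp only [hae u hu.1]
    linarith
  rw [intervalIntegral.integral_sub intervalIntegrable_const intervalIntegral.intervalIntegrable_id,
    intervalIntegral.integral_const, smul_eq_mul] at e6
  linarith

end QFun

/-- `a = ⨆ aI n`, `b = ⨆ bI n` (pointwise; for `s < 1` the value of `a` is irrelevant). The equations pass to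
the limit by dominated convergence (`iter_spec`; antitone functions are measurable). `b_eq` at `s = 2`
(`∫_{u>1} a = 2`): the Fubini computation of `iter_spec` (3) is now an equality:
`∫_{s>2} s(a+b) = ∫_{w>1}(w-1)(a+b)` (finite by the decay), so `∫_{w>1}(a+b) = 2a(2)+2`, `∫_{w>1} b = 2a(2)`.
Positivity: by induction on `k`, `a s > 0` for `1 ≤ s < 3 + k` and `b s > 0` for `s < 2 + k`
(the integral of a non-negative antitone function over `(s-1, ∞)` is positive if the function is positive at
some point `> s - 1`). -/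
theorem exists_QF : ∃ ab : (ℝ → ℝ) × (ℝ → ℝ), IsQF ab.1 ab.2 := by
  obtain ⟨K, hK⟩ := iter_spec
  set K' : ℝ := max K (Real.exp 3) with hK'
  have hmono : ∀ s, Monotone fun n => bI n s := fun s =>
    monotone_nat_of_le_succ fun n => (hK n).2.2.1 s
  let b : ℝ → ℝ := fun s => ⨆ n, bI n s
  have hlim : ∀ s, Tendsto (fun n => bI n s) atTop (nhds (b s)) := fun s =>
    tendsto_atTop_ciSup (hmono s) ⟨1, by rintro _ ⟨n, rfl⟩; exact ((hK n).1 s).2⟩
  have hbI : ∀ n u, bI n u ≤ K' * Real.exp (-3 * u) := fun n u => by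
    by_cases hu : 1 ≤ u
    · exact ((hK n).2.2.2.2.2 u hu).2.trans
        (mul_le_mul_of_nonneg_right (le_max_left _ _) (Real.exp_pos _).le)
    · refine ((hK n).1 u).2.trans (le_trans ?_
        (mul_le_mul_of_nonneg_right (le_max_right _ _) (Real.exp_pos _).le))
      rw [← Real.exp_add]
      exact Real.one_le_exp (by linarith)
  have hb0 : ∀ s, 0 ≤ b s := fun s => ge_of_tendsto' (hlim s) fun n => ((hK n).1 s).1
  have hbK : ∀ s, b s ≤ K' * Real.exp (-3 * s) := fun s =>
    le_of_tendsto' (hlim s) fun n => hbI n s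
  have hba : Antitone b := fun s t hst =>
    le_of_tendsto_of_tendsto' (hlim t) (hlim s) fun n => (hK n).2.1 hst
  have hb1 : ∀ s, s ≤ 2 → b s = 1 := fun s hs => by
    have : (fun n => bI n s) = fun _ => 1 := by
      ext n
      cases n <;> simp [bI, hs]
    have h := hlim s
    rw [this] at h
    exact tendsto_nhds_unique h tendsto_const_nhds
  have hbi : ∀ c, IntegrableOn b (Set.Ioi c) := fun c =>
    QFun.int_of_le (K := K') three_pos hba.measurable.aestronglyMeasurable fun u _ => by
      rw [abs_of_nonneg (hb0 u)]; exact hbK u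
  have hBlim : ∀ c, Tendsto (fun n => ∫ u in Set.Ioi c, bI n u) atTop
      (nhds (∫ u in Set.Ioi c, b u)) := fun c =>
    tendsto_integral_of_dominated_convergence (fun u => K' * Real.exp (-3 * u))
      (fun n => (hK n).2.1.measurable.aestronglyMeasurable)
      ((exp_neg_integrableOn_Ioi c three_pos).const_mul K')
      (fun n => Eventually.of_forall fun u => by
        rw [Real.norm_of_nonneg ((hK n).1 u).1]; exact hbI n u)
      (Eventually.of_forall hlim)
  let a : ℝ → ℝ := fun s => op b (max s 1)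
  have halim : ∀ s, 1 ≤ s → Tendsto (fun n => aI n s) atTop (nhds (a s)) := fun s hs => by
    simp only [a, max_eq_left hs, aI, op]
    exact (hBlim _).div_const s
  have ha1 : ∀ s, a s = a (max s 1) := fun s => by
    simp only [a, max_eq_left (le_max_right s 1)]
  have ha0 : ∀ s, 0 ≤ a s := fun s => by
    rw [ha1]
    exact ge_of_tendsto' (halim _ (le_max_right _ _)) fun n =>
      ((hK n).2.2.2.1 _ (le_max_right _ _)).1
  have haK : ∀ s, 1 ≤ s → a s ≤ K' * Real.exp (-3 * s) := fun s hs =>
    le_of_tendsto' (halim s hs) fun n => ((hK n).2.2.2.2.2 s hs).1.trans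
      (mul_le_mul_of_nonneg_right (le_max_left _ _) (Real.exp_pos _).le)
  have haa : Antitone a := fun s t hst => by
    rw [ha1 s, ha1 t]
    exact le_of_tendsto_of_tendsto' (halim _ (le_max_right _ _)) (halim _ (le_max_right _ _))
      fun n => (hK n).2.2.2.2.1 (Set.mem_Ici.2 (le_max_right _ _))
        (Set.mem_Ici.2 (le_max_right _ _)) (max_le_max_right _ hst)
  have hai : ∀ c, 1 ≤ c → IntegrableOn a (Set.Ioi c) := fun c hc =>
    QFun.int_of_le (K := K') three_pos haa.measurable.aestronglyMeasurable fun u hu => by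
      rw [abs_of_nonneg (ha0 u)]; exact haK u (hc.trans hu.le)
  have hAlim : ∀ c, 1 ≤ c → Tendsto (fun n => ∫ u in Set.Ioi c, aI n u) atTop
      (nhds (∫ u in Set.Ioi c, a u)) := fun c hc =>
    tendsto_integral_of_dominated_convergence (fun u => K * Real.exp (-3 * u))
      (fun n => (aemeasurable_restrict_of_antitoneOn measurableSet_Ioi
        ((hK n).2.2.2.2.1.mono fun u hu => hc.trans (le_of_lt hu))).aestronglyMeasurable)
      ((exp_neg_integrableOn_Ioi c three_pos).const_mul K)
      (fun n => (ae_restrict_iff' measurableSet_Ioi).2 (Eventually.of_forall fun u hu => by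
        have hu' : 1 ≤ u := hc.trans (le_of_lt hu)
        rw [Real.norm_of_nonneg ((hK n).2.2.2.1 u hu').1]
        exact ((hK n).2.2.2.2.2 u hu').1))
      ((ae_restrict_iff' measurableSet_Ioi).2 (Eventually.of_forall fun u hu =>
        halim u (hc.trans (le_of_lt hu))))
  have hae : ∀ s, 1 ≤ s → s * a s = ∫ u in Set.Ioi (s - 1), b u := fun s hs => by
    simp only [a, max_eq_left hs, op]
    field_simp
  have hbe : ∀ s, 2 < s → s * b s = ∫ u in Set.Ioi (s - 1), a u := fun s hs => by
    have h1 := (hlim s).comp (tendsto_add_atTop_nat 1)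
    have h2 : ((fun n => bI n s) ∘ fun n => n + 1) =
        fun n => (∫ u in Set.Ioi (s - 1), aI n u) / s := by
      ext n
      simp only [Function.comp, bI, if_neg (not_le.2 hs), aI]
      rfl
    rw [h2] at h1
    rw [tendsto_nhds_unique h1 ((hAlim (s - 1) (by linarith)).div_const s)]
    field_simp
  have htwo := QFun.two haa.measurable hba.measurable ha0 hb0 haK (fun u _ => hbK u) hbi hb1 hae hbe
  have hpa : ∀ t s, 0 < b t → 1 ≤ s → s - 1 < t → 0 < a s := fun t s ht hs hst => by
    have h1 := QFun.int_pos hba hb0 (hbi _) hst ht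
    rw [← hae s hs] at h1
    exact (mul_pos_iff_of_pos_left (by linarith)).1 h1
  have hpb : ∀ k : ℕ, 0 < b (2 + k) := by
    intro k
    induction k with
    | zero => rw [hb1 _ (by simp)]; exact one_pos
    | succ k ih =>
      have hk : (0 : ℝ) ≤ k := Nat.cast_nonneg k
      have h0 := hpa _ (2 + k + 1 / 2) ih (by linarith) (by linarith)
      have h1 := QFun.int_pos haa ha0 (hai (2 + (k + 1 : ℕ) - 1) (by push_cast; linarith))
        (by push_cast; linarith) h0
      rw [← hbe _ (by push_cast; linarith)] at h1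
      exact (mul_pos_iff_of_pos_left (by positivity)).1 h1
  have hpb' : ∀ s, 0 < b s := fun s => by
    obtain ⟨k, hk⟩ := exists_nat_ge s
    exact (hpb k).trans_le (hba (by linarith))
  refine ⟨(a, b), hb1, fun s hs => hpa s s (hpb' s) hs (by linarith), hpb', haa.antitoneOn _, hba,
    hae, fun s hs => ?_, K', fun s hs => ⟨haK s hs, hbK s⟩⟩
  rcases hs.eq_or_lt with rfl | hs
  · change 2 * b 2 = ∫ u in Set.Ioi (2 - 1 : ℝ), a u
    rw [hb1 2 le_rfl, show (2 - 1 : ℝ) = 1 by norm_num, htwo, mul_one]
  · exact hbe s hs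

theorem isQF : IsQF qa qb := Classical.epsilon_spec exists_QF

end Crest.Agent.R1
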