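import Crest.Agent.R1.Defs

/-! Row 1: the iteration for the sieve functions. -/

set_option autoImplicit false

namespace Crest.Agent.R1
open Finset MeasureTheory Filter

/-- `(1/s) ∫_{u > s-1} f` -/
noncomputable def op (f : ℝ → ℝ) (s : ℝ) : ℝ := (∫ u in Set.Ioi (s - 1), f u) / s

/-- the iterates of `b` -/
noncomputable def bI : ℕ → ℝ → ℝ
  | 0 => fun s => if s ≤ 2 then 1 else 0
  | n + 1 => fun s => if s ≤ 2 then 1 else op (op (bI n)) s

/-- the iterates of `a` -/
noncomputable def aI (n : ℕ) : ℝ → ℝ := op (bI n)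

namespace QFunA

/-- measurable, and on `[c, ∞)` non-negative, bounded and with bounded support -/
def Good (c : ℝ) (f : ℝ → ℝ) : Prop :=
  Measurable f ∧ (∀ s, c ≤ s → 0 ≤ f s) ∧
    ∃ C R : ℝ, (∀ s, c ≤ s → f s ≤ C) ∧ ∀ s, R ≤ s → f s = 0

theorem Good.int {c : ℝ} {f : ℝ → ℝ} (h : Good c f) {t : ℝ} (ht : c ≤ t) :
    IntegrableOn f (Set.Ioi t) := by
  obtain ⟨hm, h0, C, R, hC, hR⟩ := h
  have h1 : IntegrableOn f (Set.Ioc t R) := by
    refine Measure.integrableOn_of_bounded (M := C) (by simp) hm.aestronglyMeasurable ?_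
    refine ae_restrict_of_forall_mem measurableSet_Ioc fun x hx => ?_
    rw [Real.norm_of_nonneg (h0 x (ht.trans hx.1.le))]
    exact hC x (ht.trans hx.1.le)
  refine h1.of_forall_sdiff_eq_zero measurableSet_Ioi fun x hx => hR x ?_
  by_contra hlt
  exact hx.2 ⟨hx.1, (not_le.1 hlt).le⟩

theorem Good.mono {c c' : ℝ} {f : ℝ → ℝ} (h : Good c f) (hc : c ≤ c') : Good c' f := by
  obtain ⟨hm, h0, C, R, hC, hR⟩ := h
  exact ⟨hm, fun s hs => h0 s (hc.trans hs), C, R, fun s hs => hC s (hc.trans hs), hR⟩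

theorem Good.mul_id {c : ℝ} {f : ℝ → ℝ} (h : Good c f) (hc : 0 ≤ c) :
    Good c fun u => u * f u := by
  obtain ⟨hm, h0, C, R, hC, hR⟩ := h
  refine ⟨measurable_id.mul hm, fun s hs => mul_nonneg (hc.trans hs) (h0 s hs),
    max R 0 * C, R, fun s hs => ?_, fun s hs => by simp [hR s hs]⟩
  have hC0 : 0 ≤ C := (h0 s hs).trans (hC s hs)
  by_cases hsR : R ≤ s
  · simp only [hR s hsR, mul_zero]
    positivity
  · exact mul_le_mul ((not_le.1 hsR).le.trans (le_max_left _ _)) (hC s hs) (h0 s hs)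
      (le_max_right _ _)

theorem Good.tail_nonneg {c : ℝ} {f : ℝ → ℝ} (h : Good c f) {t : ℝ} (ht : c ≤ t) :
    0 ≤ ∫ u in Set.Ioi t, f u :=
  setIntegral_nonneg measurableSet_Ioi fun x hx => h.2.1 x (ht.trans (le_of_lt hx))

theorem Good.tail_anti {c : ℝ} {f : ℝ → ℝ} (h : Good c f) {t t' : ℝ} (ht : c ≤ t) (htt : t ≤ t') :
    ∫ u in Set.Ioi t', f u ≤ ∫ u in Set.Ioi t, f u :=
  setIntegral_mono_set (h.int ht)
    (ae_restrict_of_forall_mem measurableSet_Ioi fun x hx => h.2.1 x (ht.trans (le_of_lt hx)))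
    (Set.Ioi_subset_Ioi htt).eventuallyLE

theorem tail_eq (f : ℝ → ℝ) (s : ℝ) :
    ∫ u in Set.Ioi (s - 1), f u = ∫ u, (if s - 1 < u then f u else 0) := by
  rw [← integral_indicator measurableSet_Ioi]
  simp only [Set.indicator, Set.mem_Ioi]

theorem meas_ite {f : ℝ → ℝ} (hm : Measurable f) :
    Measurable fun z : ℝ × ℝ => if z.1 - 1 < z.2 then f z.2 else 0 :=
  Measurable.ite (measurableSet_lt (by fun_prop) measurable_snd) (hm.comp measurable_snd)
    measurable_const

theorem meas_op {f : ℝ → ℝ} (hm : Measurable f) : Measurable (op f) := by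
  have h1 : Measurable fun s : ℝ => ∫ u in Set.Ioi (s - 1), f u := by
    simp only [tail_eq]
    exact (StronglyMeasurable.integral_prod_right
      (f := fun s u : ℝ => if s - 1 < u then f u else 0) (meas_ite hm).stronglyMeasurable).measurable
  exact h1.div measurable_id

theorem Good.op_anti {c : ℝ} {f : ℝ → ℝ} (h : Good c f) (hc : 0 ≤ c) {s s' : ℝ} (hs : c + 1 ≤ s)
    (hss : s ≤ s') : op f s' ≤ op f s :=
  div_le_div₀ (h.tail_nonneg (by linarith)) (h.tail_anti (by linarith) (by linarith))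
    (by linarith) hss

theorem Good.op {c : ℝ} {f : ℝ → ℝ} (h : Good c f) (hc : 0 ≤ c) : Good (c + 1) (op f) := by
  refine ⟨meas_op h.1, fun s hs => div_nonneg (h.tail_nonneg (by linarith)) (by linarith),
    R1.op f (c + 1), ?_⟩
  obtain ⟨C, R, hC, hR⟩ := h.2.2
  refine ⟨R + 1, fun s hs => h.op_anti hc le_rfl hs, fun s hs => ?_⟩
  unfold R1.op
  rw [setIntegral_eq_zero_of_forall_eq_zero fun x hx => hR x (by
    have : s - 1 < x := hx
    linarith), zero_div]

theorem op_mono {c : ℝ} {f g : ℝ → ℝ} (hf : Good c f) (hg : Good c g) (hc : 0 ≤ c)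
    (h : ∀ s, c ≤ s → f s ≤ g s) {s : ℝ} (hs : c + 1 ≤ s) : op f s ≤ op g s := by
  refine div_le_div_of_nonneg_right ?_ (by linarith)
  refine setIntegral_mono_on (hf.int (by linarith)) (hg.int (by linarith)) measurableSet_Ioi
    fun x hx => h x ?_
  have : s - 1 < x := hx
  linarith

/-- the Fubini identity -/
theorem fub {f : ℝ → ℝ} (h : Good 1 f) :
    ∫ s in Set.Ioi (2 : ℝ), s * op f s = ∫ u in Set.Ioi (1 : ℝ), (u - 1) * f u := by
  have e1 : ∫ s in Set.Ioi (2 : ℝ), s * op f s =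
      ∫ s in Set.Ioi (2 : ℝ), ∫ u in Set.Ioi (1 : ℝ), (if s - 1 < u then f u else 0) := by
    refine setIntegral_congr_fun measurableSet_Ioi fun s hs => ?_
    have hs' : (2 : ℝ) < s := hs
    simp only [op]
    rw [mul_div_cancel₀ _ (by linarith), tail_eq]
    refine (setIntegral_eq_integral_of_forall_compl_eq_zero fun x hx => ?_).symm
    rw [if_neg]
    simp only [Set.mem_Ioi] at hx
    linarith
  obtain ⟨hm, h0, C, R, hC, hR⟩ := id h
  have hint : Integrable (Function.uncurry fun s u : ℝ => if s - 1 < u then f u else 0)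
      ((volume.restrict (Set.Ioi (2 : ℝ))).prod (volume.restrict (Set.Ioi (1 : ℝ)))) := by
    have g1 : Integrable ((Set.Ioc (2 : ℝ) (R + 1)).indicator fun _ => (1 : ℝ))
        (volume.restrict (Set.Ioi (2 : ℝ))) :=
      ((integrable_indicator_iff measurableSet_Ioc).2 (integrableOn_const (by simp))).restrict
    refine (g1.mul_prod (h.int le_rfl)).mono' (meas_ite hm).aestronglyMeasurable ?_
    rw [Measure.prod_restrict]
    refine ae_restrict_of_forall_mem (measurableSet_Ioi.prod measurableSet_Ioi) ?_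
    rintro ⟨s, u⟩ ⟨hs, hu⟩
    have hs' : (2 : ℝ) < s := hs
    have hu' : (1 : ℝ) < u := hu
    have hfu := h0 u hu'.le
    simp only [Function.uncurry]
    split_ifs with hlt
    · rw [Real.norm_of_nonneg hfu]
      by_cases hsR : s ≤ R + 1
      · rw [Set.indicator_of_mem (show s ∈ Set.Ioc (2 : ℝ) (R + 1) from ⟨hs', hsR⟩), one_mul]
      · rw [hR u (by linarith)]
        simp
    · rw [norm_zero]
      exact mul_nonneg (Set.indicator_nonneg (fun _ _ => zero_le_one) _) hfu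
  rw [e1, integral_integral_swap hint]
  refine setIntegral_congr_fun measurableSet_Ioi fun u hu => ?_
  have hu' : (1 : ℝ) < u := hu
  have e2 : (fun s : ℝ => if s - 1 < u then f u else 0) =
      (Set.Iio (u + 1)).indicator fun _ => f u := by
    funext s
    simp only [Set.indicator, Set.mem_Iio, sub_lt_iff_lt_add]
  rw [e2, setIntegral_indicator measurableSet_Iio, Set.Ioi_inter_Iio, setIntegral_const,
    Real.volume_real_Ioo_of_le (by linarith), smul_eq_mul]
  ring

theorem split {c : ℝ} {f : ℝ → ℝ} (h : Good c f) {t t' : ℝ} (ht : c ≤ t) (htt : t ≤ t') :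
    ∫ u in Set.Ioi t, f u = (∫ u in Set.Ioc t t', f u) + ∫ u in Set.Ioi t', f u := by
  rw [← setIntegral_union (Set.Ioc_disjoint_Ioi le_rfl) measurableSet_Ioi
    ((h.int ht).mono_set Set.Ioc_subset_Ioi_self) (h.int (ht.trans htt)),
    Set.Ioc_union_Ioi_eq_Ioi htt]

theorem bI_le2 (n : ℕ) {s : ℝ} (hs : s ≤ 2) : bI n s = 1 := by
  cases n <;> simp [bI, hs]

theorem bI_gt2 (n : ℕ) {s : ℝ} (hs : 2 < s) : bI (n + 1) s = op (aI n) s := by
  simp [bI, aI, not_le.2 hs]

theorem good_b (n : ℕ) : Good 0 (bI n) := by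
  induction n with
  | zero =>
    refine ⟨Measurable.ite measurableSet_Iic measurable_const measurable_const, fun s _ => ?_,
      1, 3, fun s _ => ?_, fun s hs => ?_⟩
    · simp only [bI]; split_ifs <;> norm_num
    · simp only [bI]; split_ifs <;> norm_num
    · simp only [bI]; rw [if_neg (by linarith)]
  | succ n ih =>
    obtain ⟨hm, h0, C, R, hC, hR⟩ := (ih.op le_rfl).op (by norm_num)
    refine ⟨Measurable.ite measurableSet_Iic measurable_const hm, fun s _ => ?_,
      max 1 C, max R 3, fun s _ => ?_, fun s hs => ?_⟩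
    · simp only [bI]
      split_ifs with h
      · norm_num
      · exact h0 s (by linarith)
    · simp only [bI]
      split_ifs with h
      · exact le_max_left _ _
      · exact (hC s (by linarith)).trans (le_max_right _ _)
    · simp only [bI]
      rw [if_neg (by linarith [le_max_right R 3]), hR s ((le_max_left _ _).trans hs)]

theorem good_a (n : ℕ) : Good 1 (aI n) := by
  simpa [aI] using (good_b n).op le_rfl

theorem b_nonneg (n : ℕ) (s : ℝ) : 0 ≤ bI n s := by
  by_cases hs : s ≤ 2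
  · rw [bI_le2 n hs]; norm_num
  · exact (good_b n).2.1 s (by linarith)

theorem a_mono_of {n : ℕ} (h : ∀ s, bI n s ≤ bI (n + 1) s) {s : ℝ} (hs : 1 ≤ s) :
    aI n s ≤ aI (n + 1) s :=
  op_mono (good_b n) (good_b (n + 1)) le_rfl (fun s _ => h s) (by linarith)

theorem b_mono (n : ℕ) : ∀ s, bI n s ≤ bI (n + 1) s := by
  induction n with
  | zero =>
    intro s
    by_cases hs : s ≤ 2
    · rw [bI_le2 _ hs, bI_le2 _ hs]
    · have : bI 0 s = 0 := by simp [bI, hs]
      rw [this]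
      exact b_nonneg _ _
  | succ n ih =>
    intro s
    by_cases hs : s ≤ 2
    · rw [bI_le2 _ hs, bI_le2 _ hs]
    · rw [bI_gt2 _ (not_le.1 hs), bI_gt2 _ (not_le.1 hs)]
      exact op_mono (good_a n) (good_a (n + 1)) zero_le_one (fun s hs => a_mono_of ih hs)
        (by linarith)

theorem a_low (n : ℕ) {u : ℝ} (h1 : 1 ≤ u) (h2 : u ≤ 2) :
    u * aI n u = 2 - u + ∫ v in Set.Ioi (1 : ℝ), bI n v := by
  simp only [aI, op]
  rw [mul_div_cancel₀ _ (by linarith), split (good_b n) (by linarith) (show u - 1 ≤ 1 by linarith),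
    setIntegral_congr_fun (g := fun _ => (1 : ℝ)) measurableSet_Ioc
      (fun v hv => bI_le2 n (by linarith [hv.2])),
    setIntegral_const, Real.volume_real_Ioc_of_le (by linarith), smul_eq_mul]
  ring

theorem key (n : ℕ) : ∫ u in Set.Ioi (1 : ℝ), aI n u ≤ 2 := by
  have ga := good_a n
  have gb := (good_b n).mono zero_le_one
  have gb' := (good_b (n + 1)).mono zero_le_one
  have gA := ga.mul_id zero_le_one
  have gB := gb.mul_id zero_le_one
  have gB' := gb'.mul_id zero_le_one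
  have f1 : ∫ s in Set.Ioi (2 : ℝ), s * aI n s = ∫ u in Set.Ioi (1 : ℝ), (u - 1) * bI n u := fub gb
  have f2 := fub ga
  have e2 : ∫ s in Set.Ioi (2 : ℝ), s * bI n s ≤ ∫ s in Set.Ioi (2 : ℝ), s * op (aI n) s := by
    rw [← setIntegral_congr_fun (f := fun s => s * bI (n + 1) s) (g := fun s => s * op (aI n) s)
      measurableSet_Ioi (fun s hs => by simp only [bI_gt2 n hs])]
    refine setIntegral_mono_on (gB.int (by norm_num)) (gB'.int (by norm_num)) measurableSet_Ioi
      fun s hs => ?_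
    have : (2 : ℝ) < s := hs
    exact mul_le_mul_of_nonneg_left (b_mono n s) (by linarith)
  simp only [sub_mul, one_mul] at f1 f2
  rw [integral_sub (gB.int le_rfl) (gb.int le_rfl), split gB le_rfl one_le_two] at f1
  rw [integral_sub (gA.int le_rfl) (ga.int le_rfl), split gA le_rfl one_le_two] at f2
  have e3 : (∫ u in Set.Ioc (1 : ℝ) 2, u * aI n u) + ∫ u in Set.Ioc (1 : ℝ) 2, u * bI n u =
      2 + ∫ v in Set.Ioi (1 : ℝ), bI n v := by
    rw [← integral_add ((gA.int le_rfl).mono_set Set.Ioc_subset_Ioi_self)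
      ((gB.int le_rfl).mono_set Set.Ioc_subset_Ioi_self),
      setIntegral_congr_fun (g := fun _ => 2 + ∫ v in Set.Ioi (1 : ℝ), bI n v) measurableSet_Ioc
        (fun u hu => by
          simp only
          rw [a_low n hu.1.le hu.2, bI_le2 n hu.2]
          ring),
      setIntegral_const, Real.volume_real_Ioc_of_le one_le_two, smul_eq_mul]
    ring
  linarith

theorem a_anti (n : ℕ) : AntitoneOn (aI n) (Set.Ici 1) := fun s hs _ _ hss =>
  (good_b n).op_anti le_rfl (by simpa using hs) hss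

theorem b_le_one (n : ℕ) (s : ℝ) : bI n s ≤ 1 := by
  refine (b_mono n s).trans ?_
  by_cases hs : s ≤ 2
  · rw [bI_le2 _ hs]
  · rw [bI_gt2 _ (not_le.1 hs)]
    refine ((good_a n).op_anti zero_le_one (s := 2) (by norm_num) (not_le.1 hs).le).trans ?_
    have := key n
    simp only [op]
    norm_num
    linarith

theorem b_anti (n : ℕ) : Antitone (bI n) := by
  intro s s' hss
  by_cases hs : s ≤ 2
  · rw [bI_le2 _ hs]
    exact b_le_one n s'
  · have hs' : 2 < s' := (not_le.1 hs).trans_le hss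
    cases n with
    | zero => simp [bI, hs, not_le.2 hs']
    | succ n =>
      rw [bI_gt2 _ (not_le.1 hs), bI_gt2 _ hs']
      exact (good_a n).op_anti zero_le_one (by linarith) hss

theorem a_le_five (n : ℕ) {s : ℝ} (hs : 1 ≤ s) : aI n s ≤ 5 := by
  have h1 := a_low n le_rfl one_le_two
  have h2 := a_low n one_le_two le_rfl
  have h3 : aI n 2 ≤ ∫ u in Set.Ioc (1 : ℝ) 2, aI n u := by
    have := setIntegral_mono_on (f := fun _ => aI n 2) (g := aI n) (s := Set.Ioc (1 : ℝ) 2)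
      (μ := volume) (integrableOn_const (by simp))
      (((good_a n).int le_rfl).mono_set Set.Ioc_subset_Ioi_self) measurableSet_Ioc
      (fun x hx => a_anti n hx.1.le (show (1 : ℝ) ≤ 2 by norm_num) hx.2)
    rw [setIntegral_const, Real.volume_real_Ioc_of_le one_le_two, smul_eq_mul] at this
    linarith
  have h4 := split (good_a n) le_rfl one_le_two
  have h5 := (good_a n).tail_nonneg one_le_two
  have h6 := key n
  have h7 := a_anti n (show (1 : ℝ) ≤ 1 from le_rfl) hs hs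
  linarith

theorem op_decay {f : ℝ → ℝ} (hf : Good 1 f) {K : ℝ} (hK : 0 ≤ K)
    (h : ∀ u, 1 ≤ u → f u ≤ K * Real.exp (-3 * u)) {s : ℝ} (hs : 8 ≤ s) :
    op f s ≤ K * Real.exp (-3 * s) := by
  have h1 : ∫ u in Set.Ioi (s - 1), f u ≤ ∫ u in Set.Ioi (s - 1), K * Real.exp (-3 * u) := by
    refine setIntegral_mono_on (hf.int (by linarith))
      ((integrableOn_exp_mul_Ioi (by norm_num) _).const_mul K) measurableSet_Ioi fun u hu => h u ?_
    have : s - 1 < u := hu
    linarith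
  rw [integral_const_mul, integral_exp_mul_Ioi (by norm_num)] at h1
  have h2 : Real.exp (-3 * (s - 1)) = Real.exp (-3 * s) * Real.exp 1 ^ 3 := by
    rw [← Real.exp_nat_mul, ← Real.exp_add]
    congr 1
    push_cast
    ring
  have h3 : Real.exp 1 ^ 3 ≤ 24 := by
    have := Real.exp_one_lt_d9
    calc Real.exp 1 ^ 3 ≤ 2.72 ^ 3 := pow_le_pow_left₀ (Real.exp_pos 1).le (by linarith) 3
      _ ≤ 24 := by norm_num
  have h4 : 0 ≤ K * Real.exp (-3 * s) := by positivity
  simp only [op]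
  rw [div_le_iff₀ (by linarith)]
  rw [h2] at h1
  nlinarith [mul_le_mul_of_nonneg_left h3 h4, mul_le_mul_of_nonneg_left hs h4]

theorem small {s : ℝ} (hs : s ≤ 8) : 5 ≤ 5 * Real.exp 24 * Real.exp (-3 * s) := by
  rw [mul_assoc, ← Real.exp_add]
  have := Real.one_le_exp (show 0 ≤ 24 + -3 * s by linarith)
  linarith

theorem a_decay_of {n : ℕ}
    (h : ∀ s, 1 ≤ s → bI n s ≤ 5 * Real.exp 24 * Real.exp (-3 * s)) (s : ℝ) (hs : 1 ≤ s) :
    aI n s ≤ 5 * Real.exp 24 * Real.exp (-3 * s) := by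
  by_cases h8 : s ≤ 8
  · exact (a_le_five n hs).trans (small h8)
  · exact op_decay ((good_b n).mono zero_le_one) (by positivity) h (not_le.1 h8).le

theorem b_decay (n : ℕ) : ∀ s, 1 ≤ s → bI n s ≤ 5 * Real.exp 24 * Real.exp (-3 * s) := by
  induction n with
  | zero =>
    intro s _
    by_cases h8 : s ≤ 8
    · linarith [b_le_one 0 s, small h8]
    · have : bI 0 s = 0 := by
        simp only [bI]
        rw [if_neg (by linarith)]
      rw [this]
      positivity
  | succ n ih =>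
    intro s _
    by_cases h8 : s ≤ 8
    · linarith [b_le_one (n + 1) s, small h8]
    · rw [bI_gt2 n (by linarith)]
      exact op_decay (good_a n) (by positivity) (a_decay_of ih) (not_le.1 h8).le

end QFunA

/-- Induction on `n`. (1) `bI n ≥ 0`, vanishes for `s > 2 + 2n` (`aI n` for `s ≥ 3 + 2n`), is bounded and
measurable, so all integrals (also with the weight `s`) converge; `bI n ≤ bI (n+1)` by monotonicity of `op`.
(2) `op f` is antitone on `s > 0` for `f ≥ 0` integrable. (3) The key bound `bI (n+1) ≤ 1`, i.e.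
`∫_{u>1} aI n ≤ 2`: write `a = aI n`, `b = bI n`, `b' = bI (n+1) ≥ b`. By Fubini
`∫_{s>2} s (a + b') = ∫_{w>1} (w-1)(a+b)` (as `s a(s) = ∫_{u>s-1} b`, `s b'(s) = ∫_{u>s-1} a`), hence
`∫_{s>2} (a+b) ≤ ∫_1^2 (w-1)(a+b)`, so `∫_{w>1}(a+b) ≤ ∫_1^2 w (a(w)+1) dw = 2 a(2) + 2`
(`w a(w) = 2a(2) + (2-w)` on `[1,2]`), while `∫_{w>1} b = 2 a(2)`.
(4) Uniform bound: on `[1,3]` `s a(s) + s = c` is constant and `∫_1^3 (c/s - 1) ≤ 2`, so `c ≤ 4/log 3`
(or cruder: `a` antitone, `∫_1^3 a ≤ 2` gives `a(3) ≤ 1`, so `c ≤ 6`, `a ≤ 5`).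
(5) Decay by induction on `n` with `K = 6 exp(3·8)`: for `s ≥ 8`,
`(1/s) ∫_{u>s-1} K e^{-3u} = K e^{-3s} e^3/(3s) ≤ K e^{-3s}`; for `s ≤ 8` use the uniform bounds. -/
theorem iter_spec : ∃ K : ℝ, ∀ n : ℕ,
    (∀ s, 0 ≤ bI n s ∧ bI n s ≤ 1) ∧ Antitone (bI n) ∧ (∀ s, bI n s ≤ bI (n + 1) s) ∧
    (∀ s, 1 ≤ s → 0 ≤ aI n s ∧ aI n s ≤ aI (n + 1) s) ∧ AntitoneOn (aI n) (Set.Ici 1) ∧
    ∀ s, 1 ≤ s → aI n s ≤ K * Real.exp (-3 * s) ∧ bI n s ≤ K * Real.exp (-3 * s) := by
  exact ⟨5 * Real.exp 24, fun n => ⟨fun s => ⟨QFunA.b_nonneg n s, QFunA.b_le_one n s⟩,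
    QFunA.b_anti n, QFunA.b_mono n,
    fun s hs => ⟨(QFunA.good_a n).2.1 s hs, QFunA.a_mono_of (QFunA.b_mono n) hs⟩, QFunA.a_anti n,
    fun s hs => ⟨QFunA.a_decay_of (QFunA.b_decay n) s hs, QFunA.b_decay n s hs⟩⟩⟩

end Crest.Agent.R1
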