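import Crest.Agent.R1.Defs2
import Crest.Agent.R1.ChainA

/-! Row 1: selection of primes in the windows. -/

set_option autoImplicit false

namespace Crest.Agent.R1
open Finset MeasureTheory Filter

/-- `T` with the selected primes -/
def ext {s : ℕ} (T : Finset ℕ) (p : ℕ) (τ : Fin s → ℕ) : Finset ℕ := insert p (T ∪ univ.image τ)

/-- the selected primes are the largest ones in their windows -/
def below (Wn : ℕ → ℕ) {s : ℕ} (T : Finset ℕ) (p : ℕ) (τ : Fin s → ℕ) : Prop :=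
  (∀ l ∈ T, l ∈ win Wn 0 → l < p) ∧ ∀ i : Fin s, ∀ l ∈ T, l ∈ win Wn (i + 1) → l < τ i

/-- the windows are pairwise disjoint -/
theorem win_disj {Wn : ℕ → ℕ} (hW : Monotone Wn) {i j p : ℕ} (hi : p ∈ win Wn i) (hj : p ∈ win Wn j) :
    i = j := by
  unfold win Pr at hi hj
  simp only [mem_filter, mem_Ico] at hi hj
  by_contra hne
  rcases Nat.lt_or_gt_of_ne hne with h | h
  · have := hW (show i + 1 ≤ j from h)
    omega
  · have := hW (show j + 1 ≤ i from h)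
    omega

namespace Sel

theorem win_prime {Wn : ℕ → ℕ} {i p : ℕ} (h : p ∈ win Wn i) : p.Prime := by
  unfold win Pr at h
  exact (mem_filter.1 h).2

theorem tup_mem {Wn : ℕ → ℕ} {s : ℕ} {τ : Fin s → ℕ} (hτ : τ ∈ tup Wn s) (i : Fin s) :
    τ i ∈ win Wn (i + 1) := by
  unfold tup at hτ
  exact Fintype.mem_piFinset.1 hτ i

theorem tup_inj {Wn : ℕ → ℕ} (hW : Monotone Wn) {s : ℕ} {τ : Fin s → ℕ} (hτ : τ ∈ tup Wn s) :
    Function.Injective τ := by
  intro i j hij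
  have h1 := tup_mem hτ i
  have h2 := tup_mem hτ j
  rw [hij] at h1
  have := win_disj hW h1 h2
  exact Fin.ext (by omega)

theorem p_ne {Wn : ℕ → ℕ} (hW : Monotone Wn) {s : ℕ} {p : ℕ} {τ : Fin s → ℕ}
    (hp : p ∈ win Wn 0) (hτ : τ ∈ tup Wn s) (i : Fin s) : τ i ≠ p := by
  intro h
  have h1 := tup_mem hτ i
  rw [h] at h1
  have := win_disj hW h1 hp
  omega

theorem p_notin {Wn : ℕ → ℕ} {s : ℕ} {T : Finset ℕ} {p : ℕ} {τ : Fin s → ℕ}
    (hp : p ∈ win Wn 0) (hb : below Wn T p τ) : p ∉ T := fun h => lt_irrefl _ (hb.1 p h hp)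

theorem t_notin {Wn : ℕ → ℕ} {s : ℕ} {T : Finset ℕ} {p : ℕ} {τ : Fin s → ℕ}
    (hτ : τ ∈ tup Wn s) (hb : below Wn T p τ) (i : Fin s) : τ i ∉ T :=
  fun h => lt_irrefl _ (hb.2 i _ h (tup_mem hτ i))

theorem mem_ext {s : ℕ} {T : Finset ℕ} {p : ℕ} {τ : Fin s → ℕ} {l : ℕ} :
    l ∈ ext T p τ ↔ l = p ∨ l ∈ T ∨ ∃ i, τ i = l := by
  unfold ext
  simp only [mem_insert, mem_union, mem_image, mem_univ, true_and]

theorem le_p {Wn : ℕ → ℕ} (hW : Monotone Wn) {s : ℕ} {T : Finset ℕ} {p : ℕ} {τ : Fin s → ℕ}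
    (hτ : τ ∈ tup Wn s) (hb : below Wn T p τ) {l : ℕ} (hl : l ∈ ext T p τ) (hw : l ∈ win Wn 0) :
    l ≤ p := by
  rcases mem_ext.1 hl with h | h | ⟨i, h⟩
  · exact h.le
  · exact (hb.1 l h hw).le
  · exact absurd h (p_ne hW hw hτ i)

theorem le_t {Wn : ℕ → ℕ} (hW : Monotone Wn) {s : ℕ} {T : Finset ℕ} {p : ℕ} {τ : Fin s → ℕ}
    (hp : p ∈ win Wn 0) (hτ : τ ∈ tup Wn s) (hb : below Wn T p τ) (i : Fin s) {l : ℕ}
    (hl : l ∈ ext T p τ) (hw : l ∈ win Wn (i + 1)) : l ≤ τ i := by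
  rcases mem_ext.1 hl with h | h | ⟨j, h⟩
  · rw [h] at hw
    have := win_disj hW hw hp
    omega
  · exact (hb.2 i l h hw).le
  · have h1 := tup_mem hτ j
    rw [h] at h1
    have h2 := win_disj hW h1 hw
    have : j = i := Fin.ext (by omega)
    rw [← h, this]

theorem uniq {Wn : ℕ → ℕ} (hW : Monotone Wn) {s : ℕ} {T T' : Finset ℕ} {p p' : ℕ}
    {τ τ' : Fin s → ℕ} (hp : p ∈ win Wn 0) (hτ : τ ∈ tup Wn s) (hb : below Wn T p τ)
    (hp' : p' ∈ win Wn 0) (hτ' : τ' ∈ tup Wn s) (hb' : below Wn T' p' τ')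
    (he : ext T p τ = ext T' p' τ') : T = T' ∧ p = p' ∧ τ = τ' := by
  have h1 : p = p' := by
    apply le_antisymm
    · exact le_p hW hτ' hb' (he ▸ mem_ext.2 (Or.inl rfl)) hp
    · exact le_p hW hτ hb (he.symm ▸ mem_ext.2 (Or.inl rfl)) hp'
  have h2 : τ = τ' := by
    funext i
    apply le_antisymm
    · exact le_t hW hp' hτ' hb' i (he ▸ mem_ext.2 (Or.inr (Or.inr ⟨i, rfl⟩))) (tup_mem hτ i)
    · exact le_t hW hp hτ hb i (he.symm ▸ mem_ext.2 (Or.inr (Or.inr ⟨i, rfl⟩))) (tup_mem hτ' i)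
  subst h1 h2
  refine ⟨?_, rfl, rfl⟩
  ext l
  constructor
  · intro hl
    have : l ∈ ext T' p τ := he ▸ mem_ext.2 (Or.inr (Or.inl hl))
    rcases mem_ext.1 this with h | h | ⟨i, h⟩
    · exact absurd (h ▸ hl) (p_notin hp hb)
    · exact h
    · exact absurd (h.symm ▸ hl) (t_notin hτ hb i)
  · intro hl
    have : l ∈ ext T p τ := he.symm ▸ mem_ext.2 (Or.inr (Or.inl hl))
    rcases mem_ext.1 this with h | h | ⟨i, h⟩
    · exact absurd (h ▸ hl) (p_notin hp hb')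
    · exact h
    · exact absurd (h.symm ▸ hl) (t_notin hτ hb' i)

theorem ex_max (S W : Finset ℕ) (h : ∃ p ∈ S, p ∈ W) :
    ∃ p ∈ S, p ∈ W ∧ ∀ l ∈ S, l ∈ W → l ≤ p := by
  obtain ⟨p, hp, hw⟩ := h
  obtain ⟨q, hq, hm⟩ := exists_max_image (S ∩ W) id ⟨p, mem_inter.2 ⟨hp, hw⟩⟩
  exact ⟨q, (mem_inter.1 hq).1, (mem_inter.1 hq).2, fun l h1 h2 => hm l (mem_inter.2 ⟨h1, h2⟩)⟩

theorem exi {Wn : ℕ → ℕ} (s : ℕ) (S : Finset ℕ) (hS : ∀ i ≤ s, ∃ p ∈ S, p ∈ win Wn i) :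
    ∃ T ⊆ S, ∃ p ∈ win Wn 0, ∃ τ ∈ tup Wn s, below Wn T p τ ∧ ext T p τ = S := by
  obtain ⟨p, hpS, hp, hpm⟩ := ex_max S _ (hS 0 (Nat.zero_le _))
  have : ∀ i : Fin s, ∃ q ∈ S, q ∈ win Wn (i + 1) ∧ ∀ l ∈ S, l ∈ win Wn (i + 1) → l ≤ q :=
    fun i => ex_max S _ (hS (i + 1) i.2)
  choose τ hτS hτ hτm using this
  refine ⟨S \ insert p (univ.image τ), sdiff_subset, p, hp, τ, ?_, ⟨?_, ?_⟩, ?_⟩
  · unfold tup
    exact Fintype.mem_piFinset.2 hτ
  · intro l hl hw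
    simp only [Finset.mem_sdiff, mem_insert, not_or] at hl
    exact lt_of_le_of_ne (hpm l hl.1 hw) hl.2.1
  · intro i l hl hw
    simp only [Finset.mem_sdiff, mem_insert, not_or, mem_image, mem_univ, true_and, not_exists] at hl
    exact lt_of_le_of_ne (hτm i l hl.1 hw) (fun h => hl.2.2 i h.symm)
  · ext l
    rw [mem_ext]
    simp only [Finset.mem_sdiff, mem_insert, not_or, mem_image, mem_univ, true_and, not_exists]
    constructor
    · rintro (h | h | ⟨i, h⟩)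
      · exact h ▸ hpS
      · exact h.1
      · exact h ▸ hτS i
    · intro hl
      by_cases h1 : l = p
      · exact Or.inl h1
      · by_cases h2 : ∃ i, τ i = l
        · exact Or.inr (Or.inr h2)
        · exact Or.inr (Or.inl ⟨hl, h1, fun i h => h2 ⟨i, h⟩⟩)

end Sel

theorem ext_spec {Wn : ℕ → ℕ} (hW : Monotone Wn) {s : ℕ} {T : Finset ℕ} {p : ℕ} {τ : Fin s → ℕ}
    (hT : ∀ l ∈ T, l.Prime) (hp : p ∈ win Wn 0) (hτ : τ ∈ tup Wn s) (hb : below Wn T p τ) :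
    pd (ext T p τ) = pd T * (∏ i, τ i) * p ∧ (ext T p τ).card = T.card + s + 1 ∧
      Nat.Coprime (pd T) ((∏ i, τ i) * p) := by
  have hinj := Sel.tup_inj hW hτ
  have hd : Disjoint T (univ.image τ) := by
    rw [disjoint_right]
    intro l hl
    obtain ⟨i, -, rfl⟩ := mem_image.1 hl
    exact Sel.t_notin hτ hb i
  have hn : p ∉ T ∪ univ.image τ := by
    rw [mem_union, not_or]
    refine ⟨Sel.p_notin hp hb, fun h => ?_⟩
    obtain ⟨i, -, h⟩ := mem_image.1 h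
    exact Sel.p_ne hW hp hτ i h
  refine ⟨?_, ?_, ?_⟩
  · unfold ext pd
    rw [prod_insert hn, prod_union hd, prod_image (fun i _ j _ h => hinj h), mul_comm]
  · unfold ext
    rw [card_insert_of_notMem hn, card_union_of_disjoint hd, card_image_of_injective _ hinj,
      card_univ, Fintype.card_fin]
  · unfold pd
    apply Nat.Coprime.prod_left
    intro l hl
    apply Nat.Coprime.mul_right
    · apply Nat.Coprime.prod_right
      intro i _
      rw [Nat.coprime_primes (hT l hl) (Sel.win_prime (Sel.tup_mem hτ i))]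
      intro h
      exact Sel.t_notin hτ hb i (h ▸ hl)
    · rw [Nat.coprime_primes (hT l hl) (Sel.win_prime hp)]
      intro h
      exact Sel.p_notin hp hb (h ▸ hl)

open Classical in
/-- Selecting the largest prime of each window is a bijection `S ↦ (T, p, τ)`. -/
theorem sel_sum {Wn : ℕ → ℕ} (hW : Monotone Wn) (s : ℕ) (U : Finset ℕ) (𝒮 : Finset (Finset ℕ))
    (hU : 𝒮 ⊆ U.powerset) (hS : ∀ S ∈ 𝒮, ∀ i ≤ s, ∃ p ∈ S, p ∈ win Wn i) (f : Finset ℕ → ℝ) :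
    ∑ S ∈ 𝒮, f S = ∑ T ∈ U.powerset, ∑ p ∈ win Wn 0, ∑ τ ∈ tup Wn s,
      if below Wn T p τ ∧ ext T p τ ∈ 𝒮 then f (ext T p τ) else 0 := by
  have e1 : ∀ (T : Finset ℕ) (p : ℕ) (τ : Fin s → ℕ),
      (if below Wn T p τ ∧ ext T p τ ∈ 𝒮 then f (ext T p τ) else 0) =
        ∑ S ∈ 𝒮, if below Wn T p τ ∧ ext T p τ = S then f S else 0 := by
    intro T p τ
    by_cases hb : below Wn T p τ
    · simp only [hb, true_and]
      rw [sum_ite_eq]
    · simp only [hb, false_and, if_false, sum_const_zero]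
  simp only [e1]
  have e2 : ∀ S ∈ 𝒮, f S = ∑ T ∈ U.powerset, ∑ p ∈ win Wn 0, ∑ τ ∈ tup Wn s,
      if below Wn T p τ ∧ ext T p τ = S then f S else 0 := by
    intro S hS𝒮
    obtain ⟨T, hTS, p, hp, τ, hτ, hb, he⟩ := Sel.exi s S (hS S hS𝒮)
    have hTU : T ∈ U.powerset := mem_powerset.2 (hTS.trans (mem_powerset.1 (hU hS𝒮)))
    rw [sum_eq_single_of_mem T hTU, sum_eq_single_of_mem p hp, sum_eq_single_of_mem τ hτ,
      if_pos ⟨hb, he⟩]
    · intro τ' hτ' hne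
      rw [if_neg]
      rintro ⟨hb', he'⟩
      exact hne (Sel.uniq hW hp hτ' hb' hp hτ hb (he'.trans he.symm)).2.2
    · intro p' hp' hne
      refine sum_eq_zero fun τ' hτ' => ?_
      rw [if_neg]
      rintro ⟨hb', he'⟩
      exact hne (Sel.uniq hW hp' hτ' hb' hp hτ hb (he'.trans he.symm)).2.1
    · intro T' _ hne
      refine sum_eq_zero fun p' hp' => sum_eq_zero fun τ' hτ' => ?_
      rw [if_neg]
      rintro ⟨hb', he'⟩
      exact hne (Sel.uniq hW hp' hτ' hb' hp hτ hb (he'.trans he.symm)).1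
  rw [sum_congr rfl e2, sum_comm]
  refine sum_congr rfl fun T _ => ?_
  rw [sum_comm]
  refine sum_congr rfl fun p _ => ?_
  rw [sum_comm]

end Crest.Agent.R1
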