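import Crest.Agent.R1.Hb
import Crest.Agent.R1.PSumB

/-! Row 1: the super-solution. -/

set_option autoImplicit false

namespace Crest.Agent.R1
open Finset MeasureTheory Filter

namespace SupA

theorem le_cut (e : ℕ) (s : ℝ) : s ≤ cut e s := by
  unfold cut
  split_ifs
  · exact le_max_left _ _
  · exact le_rfl

theorem cut_le (e : ℕ) {s : ℝ} (hs : 1 ≤ s) : cut e s ≤ 3 * s := by
  unfold cut
  split_ifs
  · exact max_le (by linarith) (by linarith)
  · linarith

theorem two_le_cut {e : ℕ} {s : ℝ} (he : Even e → 2 ≤ s) : 2 ≤ cut e s := by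
  unfold cut
  split_ifs with h
  · exact le_trans (by norm_num) (le_max_right _ _)
  · exact he (Nat.not_odd_iff_even.1 h)

theorem three_le_cut {e : ℕ} (s : ℝ) (he : Even (e + 1)) : 3 ≤ cut e s := by
  unfold cut
  rw [if_pos (Nat.not_even_iff_odd.1 (Nat.even_add_one.1 he))]
  exact le_max_right _ _

theorem int_prof {φ : ℝ → ℝ} {σ : ℝ} (hσ : 0 < σ) (h : AntitoneOn φ (Set.Ici σ)) (s' : ℝ) :
    IntegrableOn (fun u => φ u / u) (Set.Ioc σ s') := by
  have h1 : IntegrableOn φ (Set.Icc σ s') :=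
    (h.mono Set.Icc_subset_Ici_self).integrableOn_isCompact isCompact_Icc
  have h2 : ContinuousOn (fun u : ℝ => u⁻¹) (Set.Icc σ s') :=
    continuousOn_inv₀.mono fun u hu => (hσ.trans_le hu.1).ne'
  exact ((h1.mul_continuousOn h2 isCompact_Icc).mono_set Set.Ioc_subset_Icc_self).congr_fun
    (fun u _ => (div_eq_mul_inv _ _).symm) measurableSet_Ioc

theorem harm (e : ℕ) {s s' : ℝ} (hs : 1 ≤ s) (he : Even e → 2 ≤ s) (hss : s ≤ s') :
    eta e s = eta e s' +
      ∫ u in Set.Ioc (cut e s) s', eta (e + 1) (u - 1) * u ^ 2 / (u - 1) ^ 2 / u := by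
  rw [(eta_harm e hs he hss).2]
  congr 1
  refine setIntegral_congr_fun measurableSet_Ioc fun u hu => ?_
  have h : u ≠ 0 := by
    have := two_le_cut he
    have := hu.1
    linarith
  field_simp

theorem cube_exp {x : ℝ} (hx : 0 ≤ x) : x ^ 3 * Real.exp (-x) ≤ 6 := by
  have h := Real.pow_div_factorial_le_exp x hx 3
  rw [Real.exp_neg, ← div_eq_mul_inv, div_le_iff₀ (Real.exp_pos x)]
  norm_num [Nat.factorial] at h
  linarith

theorem cube_exp_two {s σ : ℝ} (hs : 0 ≤ s) (h : s ≤ σ) :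
    σ ^ 3 * Real.exp (-2 * σ) ≤ 6 * Real.exp (-s) := by
  have h1 : Real.exp (-2 * σ) = Real.exp (-σ) * Real.exp (-σ) := by
    rw [← Real.exp_add]
    congr 1
    ring
  rw [h1, ← mul_assoc]
  exact mul_le_mul (cube_exp (hs.trans h)) (Real.exp_le_exp.2 (by linarith)) (Real.exp_pos _).le
    (by norm_num)

theorem EE_child (c u : ℝ) (e : ℕ) {X : ℝ} {p : ℕ} (hp : 2 ≤ p) (hX : (p : ℝ) < X) :
    EE c u e (X / p) p / p =
      (2 * c * (eta e (Real.log X / Real.log p - 1) * (Real.log X / Real.log p) ^ 2 /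
          (Real.log X / Real.log p - 1) ^ 2 / p) -
        c * (u / Real.log X) * (eta e (Real.log X / Real.log p - 1) *
          (Real.log X / Real.log p) ^ 3 / (Real.log X / Real.log p - 1) ^ 3 / p) +
        u / Real.log X * (Real.exp (-(Real.log X / Real.log p - 1)) *
          (Real.log X / Real.log p) ^ 3 / (Real.log X / Real.log p - 1) ^ 3 / p)) /
        Real.log X ^ 2 := by
  obtain ⟨h1, -, h3, h4⟩ := child_eq e hp hX
  have hp1 : (1 : ℝ) < p := by exact_mod_cast hp
  have hl : 0 < Real.log p := Real.log_pos hp1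
  have hl' : Real.log p < Real.log X := Real.log_lt_log (by linarith) hX
  have hv : 1 < Real.log X / Real.log p := (one_lt_div hl).2 hl'
  rw [EE, h1, h3, h4]
  generalize Real.log X / Real.log p = v at hv
  have h5 : v - 1 ≠ 0 := by linarith
  have h6 : v ≠ 0 := by linarith
  have h7 : Real.log X ≠ 0 := by linarith
  field_simp

end SupA

open SupA

/-- The continuous super-solution inequality. By `eta_harm`,
`c(2-θ)(eta e s - eta e s') = ∫ c(2-θ) η'(u-1) u/(u-1)²` (`η' = eta (e+1)`), so the claim is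
`∫ θ e^{-(u-1)} u²/(u-1)³ ≤ ∫ c θ η'(u-1) u/(u-1)³ + (θ/2) e^{-s}`. On the range `u ≥ cut e s ≥ 2`. For
`u ≤ 44` this holds pointwise if `c η'(u-1) ≥ 44` (`eta_ge`; `u - 1 ≥ 1`, and `≥ 2` if `e + 1` is even);
for `u > max s 44` the left integrand is `≤ θ · 8e/44 · e^{-u}`. -/
theorem supG : ∃ c : ℝ, 1 ≤ c ∧ ∀ (e : ℕ) (θ s s' : ℝ), 0 ≤ θ → 1 ≤ s → (Even e → 2 ≤ s) → s ≤ s' →
    2 * c * (∫ u in Set.Ioc (cut e s) s', eta (e + 1) (u - 1) * u ^ 2 / (u - 1) ^ 2 / u) -
      c * θ * (∫ u in Set.Ioc (cut e s) s', eta (e + 1) (u - 1) * u ^ 3 / (u - 1) ^ 3 / u) +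
      θ * (∫ u in Set.Ioc (cut e s) s', Real.exp (-(u - 1)) * u ^ 3 / (u - 1) ^ 3 / u) +
      c * (2 - θ) * eta e s' + θ / 2 * Real.exp (-s) ≤ c * (2 - θ) * eta e s + θ * Real.exp (-s) := by
  obtain ⟨c₀, hc₀, hge⟩ := eta_ge 44
  obtain ⟨A, -, hA⟩ := profiles
  refine ⟨max 1 (44 / c₀), le_max_left _ _, fun e θ s s' hθ hs he hss => ?_⟩
  set c := max 1 (44 / c₀) with hc
  have hc1 : 44 ≤ c * c₀ := (div_le_iff₀ hc₀).1 (le_max_right _ _)
  have hc0 : 0 ≤ c := le_trans zero_le_one (le_max_left _ _)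
  obtain ⟨⟨a1, -⟩, ⟨a2, -⟩, ⟨a3, -⟩⟩ := hA e s hs he
  have h2 := two_le_cut he
  have i1 := int_prof (by linarith) a1 s'
  have i2 := int_prof (by linarith) a2 s'
  have i3 := int_prof (by linarith) a3 s'
  have i4 : IntegrableOn (fun u : ℝ => Real.exp (-u)) (Set.Ioc (cut e s) s') :=
    (integrableOn_exp_neg_Ioi _).mono_set Set.Ioc_subset_Ioi_self
  have h4 : ∫ u in Set.Ioc (cut e s) s', Real.exp (-u) ≤ Real.exp (-s) := by
    refine le_trans (setIntegral_mono_set (integrableOn_exp_neg_Ioi _)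
      (Eventually.of_forall fun u => (Real.exp_pos _).le) Set.Ioc_subset_Ioi_self.eventuallyLE) ?_
    rw [integral_exp_neg_Ioi]
    exact Real.exp_le_exp.2 (neg_le_neg (le_cut e s))
  have h5 : ∫ u in Set.Ioc (cut e s) s', Real.exp (-(u - 1)) * u ^ 3 / (u - 1) ^ 3 / u ≤
      ∫ u in Set.Ioc (cut e s) s', (c * (eta (e + 1) (u - 1) * u ^ 3 / (u - 1) ^ 3 / u) -
        c * (eta (e + 1) (u - 1) * u ^ 2 / (u - 1) ^ 2 / u) + 1 / 2 * Real.exp (-u)) := by
    refine setIntegral_mono_on i3 (((i2.const_mul c).sub (i1.const_mul c)).add (i4.const_mul _))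
      measurableSet_Ioc fun u hu => ?_
    have hu2 : 2 ≤ u := h2.trans hu.1.le
    have hv : 0 < u - 1 := by linarith
    have hu0 : 0 < u := by linarith
    have e1 : c * (eta (e + 1) (u - 1) * u ^ 3 / (u - 1) ^ 3 / u) -
        c * (eta (e + 1) (u - 1) * u ^ 2 / (u - 1) ^ 2 / u) =
        c * eta (e + 1) (u - 1) * u / (u - 1) ^ 3 := by
      field_simp
      ring
    have e2 : Real.exp (-(u - 1)) * u ^ 3 / (u - 1) ^ 3 / u =
        Real.exp (-(u - 1)) * u * u / (u - 1) ^ 3 := by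
      field_simp
    have hη := eta_nonneg (e + 1) (s := u - 1) (by linarith)
    rw [e1, e2]
    rcases le_or_gt u 44 with h44 | h44
    · have h6 := hge (e + 1) (u - 1) (by linarith)
        (fun h => by have := three_le_cut s h; have := hu.1; linarith) (by linarith)
      have h7 : Real.exp (-(u - 1)) ≤ 1 := Real.exp_le_one_iff.2 (by linarith)
      have h8 : Real.exp (-(u - 1)) * u ≤ c * eta (e + 1) (u - 1) := by
        have := mul_le_mul_of_nonneg_left h6 hc0
        nlinarith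
      have h9 : Real.exp (-(u - 1)) * u * u / (u - 1) ^ 3 ≤
          c * eta (e + 1) (u - 1) * u / (u - 1) ^ 3 := by gcongr
      have := Real.exp_pos (-u)
      linarith
    · have h6 : Real.exp (-(u - 1)) ≤ 3 * Real.exp (-u) := by
        rw [show -(u - 1) = 1 + -u by ring, Real.exp_add]
        exact mul_le_mul_of_nonneg_right
          (Real.exp_one_lt_d9.le.trans (by norm_num)) (Real.exp_pos _).le
      have h7 : Real.exp (-(u - 1)) * u * u / (u - 1) ^ 3 ≤ 1 / 2 * Real.exp (-u) := by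
        rw [div_le_iff₀ (by positivity)]
        have h8 : 3 * (u * u) ≤ 1 / 2 * (u - 1) ^ 3 := by
          obtain ⟨v, rfl⟩ : ∃ v, u = v + 44 := ⟨u - 44, by ring⟩
          have hv0 : 0 ≤ v := by linarith
          nlinarith [mul_nonneg hv0 hv0, mul_nonneg (mul_nonneg hv0 hv0) hv0]
        have := Real.exp_pos (-u)
        calc Real.exp (-(u - 1)) * u * u ≤ 3 * Real.exp (-u) * u * u := by gcongr
          _ = Real.exp (-u) * (3 * (u * u)) := by ring
          _ ≤ Real.exp (-u) * (1 / 2 * (u - 1) ^ 3) := by gcongr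
          _ = _ := by ring
      have : 0 ≤ c * eta (e + 1) (u - 1) * u / (u - 1) ^ 3 := by positivity
      linarith
  have i5 : IntegrableOn (fun u => c * (eta (e + 1) (u - 1) * u ^ 3 / (u - 1) ^ 3 / u) -
      c * (eta (e + 1) (u - 1) * u ^ 2 / (u - 1) ^ 2 / u)) (Set.Ioc (cut e s) s') :=
    (i2.const_mul c).sub (i1.const_mul c)
  rw [integral_add i5 (i4.const_mul _),
    integral_sub (i2.const_mul c) (i1.const_mul c), integral_const_mul, integral_const_mul,
    integral_const_mul] at h5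
  rw [harm e hs he hss]
  nlinarith [mul_le_mul_of_nonneg_left h5 hθ, mul_le_mul_of_nonneg_left h4 hθ]

open Classical in
/-- One step of the discrete recursion: `child_eq`, `filter_ok`, `profiles`, `psum1` three times (errors
`≤ K σ³ e^{-2σ}/t⁵` for the first two, `K u σ³ e^{-σ}/t⁶` for the third, `σ = cut e s ∈ [s, s+2]`), and `supG`
with `θ = u / log X`, `s' = log X / log w`. The errors are `≤ (u/4) e^{-s}/t³` once `log y ≥ log w1` is large
(`u ≥ 1/2`, `t ≥ log y`, `s³/t³ = 1/log³ y`). -/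
theorem sup_step (hM : MerStmt) : ∃ (c : ℝ) (w1 : ℕ), 1 ≤ c ∧ ∀ (u X : ℝ) (e w y : ℕ), 1 / 2 ≤ u →
    2 ≤ w → w ≤ y → w1 < y → valid e X y →
    c * (2 - u / Real.log X) * hh e X w + u / 4 * Gf X y +
      ∑ p ∈ (Pr w y).filter (ok e X), EE c u (e + 1) (X / p) p / p ≤ EE c u e X y := by
  obtain ⟨c, hc, hG⟩ := supG
  obtain ⟨K, hK, hP⟩ := psum1 hM
  obtain ⟨A, hA0, hA⟩ := profiles
  refine ⟨c, ⌈Real.exp (324 * c * (K * A) + 1)⌉₊, hc, fun u X e w y hu hw hwy hy hv => ?_⟩
  obtain ⟨hL, hLt, hs, he⟩ := hv.one_le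
  have hKA : 0 < K * A := mul_pos hK hA0
  have hL0 : 324 * c * (K * A) + 1 ≤ Real.log y := by
    rw [Real.le_log_iff_exp_le (by exact_mod_cast (by omega : 0 < y))]
    exact (Nat.le_ceil _).trans (by exact_mod_cast hy.le)
  have hw0 : 0 < Real.log w := Real.log_pos (by exact_mod_cast hw)
  have hwy' : Real.log w ≤ Real.log y :=
    Real.log_le_log (by exact_mod_cast (by omega : 0 < w)) (by exact_mod_cast hwy)
  have ht : 0 < Real.log X := hL.trans_le hLt
  have hss : Real.log X / Real.log y ≤ Real.log X / Real.log w :=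
    div_le_div_of_nonneg_left ht.le hw0 hwy'
  obtain ⟨⟨a1, b1⟩, ⟨a2, b2⟩, ⟨a3, b3⟩⟩ := hA e _ hs he
  have p1 := hP 2 _ _ A _ w y (by norm_num) hw hwy hLt (le_cut e _) a1 b1
  have p2 := hP 2 _ _ A _ w y (by norm_num) hw hwy hLt (le_cut e _) a2 b2
  have p3 := hP 1 _ _ A _ w y le_rfl hw hwy hLt (le_cut e _) a3 b3
  have hθ : 0 ≤ u / Real.log X := div_nonneg (by linarith) ht.le
  have g := hG e (u / Real.log X) _ _ hθ hs he hss
  have hch := fun p (hp : p ∈ (Pr w y).filter
      (fun p : ℕ => cut e (Real.log X / Real.log y) ≤ Real.log X / Real.log p)) =>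
    EE_child c u (e + 1) (X := X) (p := p)
      (hw.trans (Finset.mem_Ico.1 (Finset.mem_filter.1 (Finset.mem_filter.1 hp).1).1).1)
      (lt_of_lt_of_le (by exact_mod_cast
        (Finset.mem_Ico.1 (Finset.mem_filter.1 (Finset.mem_filter.1 hp).1).1).2) hv.2.1)
  rw [filter_ok hv, Finset.sum_congr rfl hch,
    ← Finset.sum_div, Finset.sum_add_distrib, Finset.sum_sub_distrib, ← Finset.mul_sum,
    ← Finset.mul_sum, ← Finset.mul_sum]
  have hσ := le_cut e (Real.log X / Real.log y)
  have hσ' := cut_le e hs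
  have q1 := cube_exp_two (by linarith) hσ
  have hE := Real.exp_pos (-(Real.log X / Real.log y))
  have hcKA : K * A ≤ c * (K * A) := le_mul_of_one_le_left hKA.le hc
  have hL1 : 1 ≤ Real.log y := by nlinarith
  have ht1 : 1 ≤ Real.log X := hL1.trans hLt
  have q2 : K * A * cut e (Real.log X / Real.log y) ^ 3 *
      Real.exp (-2 * cut e (Real.log X / Real.log y)) / Real.log X ^ 3 ≤
      6 * (K * A) * Real.exp (-(Real.log X / Real.log y)) / Real.log X ^ 3 := by
    refine div_le_div_of_nonneg_right ?_ (by positivity)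
    nlinarith [mul_le_mul_of_nonneg_left q1 hKA.le]
  have r1 : 2 * c * (6 * (K * A) * Real.exp (-(Real.log X / Real.log y)) / Real.log X ^ 3) ≤
      u / Real.log X / 12 * Real.exp (-(Real.log X / Real.log y)) := by
    have h1 : 2 * c * (6 * (K * A)) / Real.log X ^ 3 ≤ u / Real.log X / 12 := by
      rw [div_div, div_le_div_iff₀ (by positivity) (by positivity)]
      have h2 : 288 * c * (K * A) ≤ Real.log X ^ 2 := by nlinarith
      have h3 : 1 / 2 * Real.log X ^ 3 ≤ u * Real.log X ^ 3 := by gcongr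
      nlinarith [mul_le_mul_of_nonneg_right h2 ht.le]
    calc _ = 2 * c * (6 * (K * A)) / Real.log X ^ 3 * Real.exp (-(Real.log X / Real.log y)) := by
          ring
      _ ≤ _ := by gcongr
  have r2 : c * (6 * (K * A) * Real.exp (-(Real.log X / Real.log y)) / Real.log X ^ 3) ≤
      1 / 12 * Real.exp (-(Real.log X / Real.log y)) := by
    have h1 : c * (6 * (K * A)) / Real.log X ^ 3 ≤ 1 / 12 := by
      rw [div_le_iff₀ (by positivity)]
      have h2 : Real.log X ≤ Real.log X ^ 3 := le_self_pow₀ ht1 (by norm_num)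
      nlinarith
    calc _ = c * (6 * (K * A)) / Real.log X ^ 3 * Real.exp (-(Real.log X / Real.log y)) := by
          ring
      _ ≤ _ := by gcongr
  have r3 : K * A * cut e (Real.log X / Real.log y) ^ 3 *
      Real.exp (-1 * cut e (Real.log X / Real.log y)) / Real.log X ^ 3 ≤
      1 / 12 * Real.exp (-(Real.log X / Real.log y)) := by
    have h1 : cut e (Real.log X / Real.log y) ^ 3 ≤ (3 * (Real.log X / Real.log y)) ^ 3 :=
      pow_le_pow_left₀ (by linarith) hσ' 3
    have h2 : Real.exp (-1 * cut e (Real.log X / Real.log y)) ≤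
        Real.exp (-(Real.log X / Real.log y)) := Real.exp_le_exp.2 (by linarith)
    have h3 : K * A * 27 / Real.log y ^ 3 ≤ 1 / 12 := by
      rw [div_le_iff₀ (by positivity)]
      have h4 : Real.log y ≤ Real.log y ^ 3 := le_self_pow₀ hL1 (by norm_num)
      nlinarith
    calc _ ≤ K * A * (3 * (Real.log X / Real.log y)) ^ 3 *
          Real.exp (-(Real.log X / Real.log y)) / Real.log X ^ 3 := by gcongr
      _ = K * A * 27 / Real.log y ^ 3 * Real.exp (-(Real.log X / Real.log y)) := by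
          field_simp
          norm_num
      _ ≤ _ := by gcongr
  have s1 := (abs_le.1 (p1.trans q2)).2
  have s2 := (abs_le.1 (p2.trans q2)).1
  have s3 := (abs_le.1 (p3.trans r3)).2
  have hc0 : 0 ≤ c := by linarith
  have t1 := mul_le_mul_of_nonneg_left s1 (by linarith : 0 ≤ 2 * c)
  have t2 := mul_le_mul_of_nonneg_left s2 (mul_nonneg hc0 hθ)
  have t3 := mul_le_mul_of_nonneg_left s3 hθ
  have t4 := mul_le_mul_of_nonneg_left r2 hθ
  have e1 : ∀ z : ℕ, hh e X z = eta e (Real.log X / Real.log z) / Real.log X ^ 2 := fun _ => rfl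
  have e2 : u * Gf X y = u / Real.log X * Real.exp (-(Real.log X / Real.log y)) /
      Real.log X ^ 2 := by
    rw [Gf]
    field_simp
  have fin : ∀ a b d f g T : ℝ, 0 < T → a * b + 1 / 4 * d + f ≤ a * g + d →
      a * (b / T) + 1 / 4 * (d / T) + f / T ≤ a * (g / T) + d / T := fun a b d f g T hT h => by
    calc _ = (a * b + 1 / 4 * d + f) / T := by ring
      _ ≤ (a * g + d) / T := div_le_div_of_nonneg_right h hT.le
      _ = _ := by ring
  rw [EE, show u / 4 * Gf X y = 1 / 4 * (u * Gf X y) by ring, e1, e1, e2]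
  refine fin _ _ _ _ _ _ (pow_pos ht 2) ?_
  linarith

open Classical in
/-- One step for `hh` itself: `psum1` and `eta_harm`. -/
theorem hh_step (hM : MerStmt) : ∃ K : ℝ, 0 < K ∧ ∀ (X : ℝ) (e w y : ℕ), 2 ≤ w → w ≤ y → valid e X y →
    |hh e X w + ∑ p ∈ (Pr w y).filter (ok e X), hh (e + 1) (X / p) p / p - hh e X y| ≤
      K * Gf X y := by
  obtain ⟨K, hK, hP⟩ := psum1 hM
  obtain ⟨A, hA0, hA⟩ := profiles
  refine ⟨24 * (K * A), by positivity, fun X e w y hw hwy hv => ?_⟩
  obtain ⟨hL, hLt, hs, he⟩ := hv.one_le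
  have hKA : 0 < K * A := mul_pos hK hA0
  have hw0 : 0 < Real.log w := Real.log_pos (by exact_mod_cast hw)
  have hwy' : Real.log w ≤ Real.log y :=
    Real.log_le_log (by exact_mod_cast (by omega : 0 < w)) (by exact_mod_cast hwy)
  have ht : 0 < Real.log X := hL.trans_le hLt
  have ht2 : 1 / 2 ≤ Real.log X := by
    have h1 : Real.log 2 ≤ Real.log y := Real.log_le_log (by norm_num) (by exact_mod_cast hv.1)
    have := Real.log_two_gt_d9
    linarith
  have hss : Real.log X / Real.log y ≤ Real.log X / Real.log w :=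
    div_le_div_of_nonneg_left ht.le hw0 hwy'
  obtain ⟨⟨a1, b1⟩, -, -⟩ := hA e _ hs he
  have p1 := hP 2 _ _ A _ w y (by norm_num) hw hwy hLt (le_cut e _) a1 b1
  have hc : ∀ p ∈ (Pr w y).filter
      (fun p : ℕ => cut e (Real.log X / Real.log y) ≤ Real.log X / Real.log p),
      hh (e + 1) (X / p) p / p = eta (e + 1) (Real.log X / Real.log p - 1) *
        (Real.log X / Real.log p) ^ 2 / (Real.log X / Real.log p - 1) ^ 2 / p /
          Real.log X ^ 2 := fun p hp => by
    have h := Finset.mem_Ico.1 (Finset.mem_filter.1 (Finset.mem_filter.1 hp).1).1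
    rw [(child_eq (e + 1) (hw.trans h.1)
      (lt_of_lt_of_le (by exact_mod_cast h.2) hv.2.1)).2.2.1, div_right_comm]
  have e1 : ∀ z : ℕ, hh e X z = eta e (Real.log X / Real.log z) / Real.log X ^ 2 := fun _ => rfl
  rw [filter_ok hv, Finset.sum_congr rfl hc, ← Finset.sum_div, e1, e1, ← add_div, ← sub_div,
    harm e hs he hss, add_sub_add_left_eq_sub, abs_div, abs_of_pos (pow_pos ht 2),
    div_le_iff₀ (by positivity)]
  refine p1.trans ?_
  have q1 := cube_exp_two (by linarith) (le_cut e (Real.log X / Real.log y))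
  have hE := Real.exp_pos (-(Real.log X / Real.log y))
  rw [Gf, mul_right_comm (24 * (K * A)), ← mul_div_assoc]
  refine div_le_div_of_nonneg_right ?_ (pow_pos ht 3).le
  have h1 : 6 ≤ 24 * Real.log X ^ 2 := by nlinarith
  calc _ = K * A * (cut e (Real.log X / Real.log y) ^ 3 *
        Real.exp (-2 * cut e (Real.log X / Real.log y))) := by ring
    _ ≤ K * A * (6 * Real.exp (-(Real.log X / Real.log y))) := by gcongr
    _ ≤ K * A * (24 * Real.log X ^ 2 * Real.exp (-(Real.log X / Real.log y))) := by gcongr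
    _ = _ := by ring

end Crest.Agent.R1
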