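import Crest.Agent.R1.SupA

/-! Row 1: comparison principle. -/

set_option autoImplicit false

namespace Crest.Agent.R1
open Finset MeasureTheory Filter

namespace SupB

theorem half_le_log {w : ℕ} (hw : 2 ≤ w) : 1 / 2 ≤ Real.log w := by
  have h2 : (2 : ℝ) ≤ w := by exact_mod_cast hw
  have := Real.log_two_gt_d9
  have h3 := Real.log_le_log (by norm_num) h2
  linarith

theorem log_mono {w y : ℕ} (hw : 2 ≤ w) (hwy : w ≤ y) : Real.log w ≤ Real.log y := by
  have h2 : (2 : ℝ) ≤ w := by exact_mod_cast hw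
  exact Real.log_le_log (by linarith) (by exact_mod_cast hwy)

theorem Gf_mono {e : ℕ} {X : ℝ} {w y : ℕ} (hv : valid e X y) (hw : 2 ≤ w) (hwy : w ≤ y) :
    Gf X w ≤ Gf X y := by
  obtain ⟨h1, h2, -, -⟩ := hv.one_le
  have h3 := half_le_log hw
  have h4 := log_mono hw hwy
  unfold Gf
  have hX : 0 < Real.log X := by linarith
  have : Real.log X / Real.log y ≤ Real.log X / Real.log w :=
    div_le_div_of_nonneg_left hX.le (by linarith) h4
  exact div_le_div_of_nonneg_right (Real.exp_le_exp.2 (by linarith)) (by positivity)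

/-- `1 ≤ 2 - log w / log X ≤ 2` -/
theorem fac_bounds {e : ℕ} {X : ℝ} {w y : ℕ} (hv : valid e X y) (hw : 2 ≤ w) (hwy : w ≤ y) :
    0 ≤ 2 - Real.log w / Real.log X ∧ 2 - Real.log w / Real.log X ≤ 2 := by
  obtain ⟨h1, h2, -, -⟩ := hv.one_le
  have h3 := half_le_log hw
  have h4 := log_mono hw hwy
  have hX : 0 < Real.log X := by linarith
  have h5 : Real.log w / Real.log X ≤ 1 := (div_le_one hX).2 (by linarith)
  have h6 : 0 ≤ Real.log w / Real.log X := div_nonneg (by linarith) hX.le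
  constructor <;> linarith

theorem first_nonneg {c : ℝ} (hc : 1 ≤ c) {e : ℕ} {X : ℝ} {w y : ℕ} (hv : valid e X y) (hw : 2 ≤ w)
    (hwy : w ≤ y) : 0 ≤ c * (2 - Real.log w / Real.log X) * hh e X w :=
  mul_nonneg (mul_nonneg (by linarith) (fac_bounds hv hw hwy).1)
    (hh_nonneg (hv.mono hw hwy le_rfl))

theorem EE_le {c : ℝ} (hc : 1 ≤ c) {e : ℕ} {X : ℝ} {w y : ℕ} (hv : valid e X y) (hw : 2 ≤ w)
    (hwy : w ≤ y) : EE c (Real.log w) e X y ≤ 2 * c * hh e X y + Real.log w * Gf X y := by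
  unfold EE
  have h1 := (fac_bounds hv hw hwy).2
  have h2 := hh_nonneg hv
  have h3 : c * (2 - Real.log w / Real.log X) ≤ 2 * c := by nlinarith
  have := mul_le_mul_of_nonneg_right h3 h2
  linarith

end SupB

open SupB

open Classical in
/-- The comparison principle: strong induction on `y` with `sup_step` and `valid_child`. -/
theorem sup0 (hM : MerStmt) : ∃ (c : ℝ) (w1 : ℕ), 1 ≤ c ∧ ∀ (w : ℕ) (u l : ℝ) (F : ℕ → ℝ → ℕ → ℝ),
    2 ≤ w → 1 / 2 ≤ u → 0 ≤ l →
    (∀ e X y, valid e X y → w ≤ y → y ≤ w1 → F e X y ≤ l * EE c u e X y) →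
    (∀ e X y, valid e X y → w ≤ y → w1 < y →
      F e X y ≤ l * (c * (2 - u / Real.log X) * hh e X w + u / 4 * Gf X y) +
        ∑ p ∈ (Pr w y).filter (ok e X), F (e + 1) (X / p) p / p) →
    ∀ e X y, valid e X y → w ≤ y → F e X y ≤ l * EE c u e X y := by
  obtain ⟨c, w1, hc, hs⟩ := sup_step hM
  refine ⟨c, w1, hc, fun w u l F hw hu hl h0 h1 e X y => ?_⟩
  induction y using Nat.strong_induction_on generalizing e X with
  | _ y ih =>
    intro hv hwy
    rcases le_or_gt y w1 with hy | hy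
    · exact h0 e X y hv hwy hy
    · have h2 := h1 e X y hv hwy hy
      have h3 := mul_le_mul_of_nonneg_left (hs u X e w y hu hw hwy hy hv) hl
      have h4 : ∑ p ∈ (Pr w y).filter (ok e X), F (e + 1) (X / p) p / p ≤
          l * ∑ p ∈ (Pr w y).filter (ok e X), EE c u (e + 1) (X / p) p / p := by
        rw [Finset.mul_sum]
        refine Finset.sum_le_sum fun p hp => ?_
        obtain ⟨hp1, hp2⟩ := Finset.mem_filter.1 hp
        obtain ⟨hp3, hp4, -⟩ := mem_Pr.1 hp1
        rw [← mul_div_assoc]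
        exact div_le_div_of_nonneg_right
          (ih p hp4 (e + 1) (X / p) (valid_child hv hp1 hp2) hp3) (Nat.cast_nonneg p)
      rw [mul_add] at h3
      linarith

/-- `sup0` with `u = log w`, `l = 4`, `F e X y = Phi e X w y (GG · w)` (`Phi_rec`; `Gf X w ≤ Gf X y`). -/
theorem phi_GG (hM : MerStmt) : ∃ (K : ℝ) (w1 : ℕ), 0 < K ∧ ∀ (X : ℝ) (e w y : ℕ), w1 ≤ w → w ≤ y →
    valid e X y → Phi e X w y (fun _ X => GG X w) ≤
      K * hh e X y + 4 * (Real.log w / Real.log y) * GG X y := by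
  obtain ⟨c, w1, hc, hs⟩ := sup0 hM
  refine ⟨8 * c, w1 + 2, by linarith, fun X e w y hw1 hwy hv => ?_⟩
  have hw : 2 ≤ w := by omega
  have key := hs w (Real.log w) 4 (fun e X y => Phi e X w y (fun _ X => GG X w)) hw (half_le_log hw)
    (by norm_num) (fun e X y _ h1 h2 => absurd h2 (by omega)) (fun e X y hv h1 _ => by
      rw [Phi_rec]
      have h3 := first_nonneg hc hv hw h1
      have h4 := Gf_mono hv hw h1
      have h5 := half_le_log hw
      have h6 : GG X w ≤ Real.log w * Gf X y := by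
        unfold GG
        exact mul_le_mul_of_nonneg_left h4 (by linarith)
      linarith) e X y hv hwy
  have h1 := EE_le hc hv hw hwy
  have h2 := hv.one_le.1
  have h3 : 4 * (Real.log w / Real.log y) * GG X y = 4 * (Real.log w * Gf X y) := by
    unfold GG
    field_simp
  rw [h3]
  linarith

/-- `sup0` with `u = log w`, `l = 4K / log w`, applied to `±(Phi (hh · · w) - hh)`, using `hh_step`. -/
theorem phi_hh (hM : MerStmt) : ∃ (K : ℝ) (w1 : ℕ), 0 < K ∧ ∀ (X : ℝ) (e w y : ℕ), w1 ≤ w → w ≤ y →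
    valid e X y → |Phi e X w y (fun e X => hh e X w) - hh e X y| ≤ K / Real.log w * Wf e X y := by
  classical
  obtain ⟨c, w1, hc, hs⟩ := sup0 hM
  obtain ⟨K, hK, hst⟩ := hh_step hM
  refine ⟨8 * c * K, w1 + 2, by positivity, fun X e w y hw1 hwy hv => ?_⟩
  have hw : 2 ≤ w := by omega
  have h5 := half_le_log hw
  have hlw : 0 < Real.log w := by linarith
  have hl : 0 ≤ 4 * K / Real.log w := by positivity
  have key := hs w (Real.log w) (4 * K / Real.log w)
    (fun e X y => |Phi e X w y (fun e X => hh e X w) - hh e X y|) hw h5 hl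
    (fun e X y _ h1 h2 => absurd h2 (by omega)) (fun e X y hv h1 _ => by
      have h3 := mul_nonneg hl (first_nonneg hc hv hw h1)
      have h4 := hst X e w y hw h1 hv
      have h6 : Phi e X w y (fun e X => hh e X w) - hh e X y =
          (hh e X w + ∑ p ∈ (Pr w y).filter (ok e X), hh (e + 1) (X / p) p / p - hh e X y) +
          ∑ p ∈ (Pr w y).filter (ok e X),
            (Phi (e + 1) (X / p) w p (fun e X => hh e X w) - hh (e + 1) (X / p) p) / p := by
        rw [Phi_rec]
        simp only [sub_div, Finset.sum_sub_distrib]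
        ring
      have h7 : |∑ p ∈ (Pr w y).filter (ok e X),
            (Phi (e + 1) (X / p) w p (fun e X => hh e X w) - hh (e + 1) (X / p) p) / p| ≤
          ∑ p ∈ (Pr w y).filter (ok e X),
            |Phi (e + 1) (X / p) w p (fun e X => hh e X w) - hh (e + 1) (X / p) p| / p := by
        refine (Finset.abs_sum_le_sum_abs _ _).trans (Finset.sum_le_sum fun p _ => ?_)
        rw [abs_div, Nat.abs_cast]
      have h8 : 4 * K / Real.log w * (Real.log w / 4 * Gf X y) = K * Gf X y := by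
        field_simp
      rw [h6, mul_add, h8]
      refine (abs_add_le _ _).trans ?_
      linarith) e X y hv hwy
  have h1 := EE_le hc hv hw hwy
  have h2 : Real.log w * Gf X y ≤ GG X y := by
    unfold GG
    exact mul_le_mul_of_nonneg_right (log_mono hw hwy) (Gf_pos hv).le
  have h3 := GG_pos hv
  have h4 : EE c (Real.log w) e X y ≤ 2 * c * Wf e X y := by
    unfold Wf
    nlinarith
  calc _ ≤ 4 * K / Real.log w * EE c (Real.log w) e X y := key
    _ ≤ 4 * K / Real.log w * (2 * c * Wf e X y) := mul_le_mul_of_nonneg_left h4 hl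
    _ = _ := by ring

theorem phi_Wf (hM : MerStmt) : ∃ (K : ℝ) (w1 : ℕ), 0 < K ∧ ∀ (X : ℝ) (e w y : ℕ), w1 ≤ w → w ≤ y →
    valid e X y → Phi e X w y (fun e X => Wf e X w) ≤ K * Wf e X y := by
  obtain ⟨K1, w1, hK1, h1⟩ := phi_GG hM
  obtain ⟨K2, w2, hK2, h2⟩ := phi_hh hM
  refine ⟨5 + K1 + 2 * K2, w1 + w2 + 2, by positivity, fun X e w y hw1 hwy hv => ?_⟩
  have hw : 2 ≤ w := by omega
  have h3 := h1 X e w y (by omega) hwy hv
  have h4 := (abs_le.1 (h2 X e w y (by omega) hwy hv)).2
  have h5 : Phi e X w y (fun e X => Wf e X w) =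
      Phi e X w y (fun e X => hh e X w) + Phi e X w y (fun _ X => GG X w) := by
    unfold Phi Wf
    simp only [add_div, Finset.sum_add_distrib]
  have h6 := half_le_log hw
  have h7 := hh_nonneg hv
  have h8 := GG_pos hv
  have h9 : Real.log w / Real.log y ≤ 1 := (div_le_one hv.one_le.1).2 (log_mono hw hwy)
  have h10 : K2 / Real.log w ≤ 2 * K2 := by
    rw [div_le_iff₀ (by linarith)]
    nlinarith
  have h11 : 0 ≤ Wf e X y := by unfold Wf; linarith
  have h12 := mul_le_mul_of_nonneg_right h10 h11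
  have h13 : 4 * (Real.log w / Real.log y) * GG X y ≤ 4 * GG X y := by nlinarith
  have h14 : Wf e X y = hh e X y + GG X y := rfl
  have h15 : K1 * hh e X y ≤ K1 * Wf e X y := by
    rw [h14]; nlinarith
  rw [h5]
  nlinarith

end Crest.Agent.R1
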